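import Vale.Agent.P362.MathlibUsed
import Vale.Agent.P362.Stmt

set_option linter.all false

section

section

namespace Vale.Agent.P362

/-- Deterministic decision trees querying bits indexed by `ι`. -/
inductive DT (ι : Type) : Type
  | leaf (b : Bool) : DT ι
  | node (i : ι) (t0 t1 : DT ι) : DT ι

/-- The output of the tree on input `x`. -/
def DT.eval {ι : Type} : DT ι → (ι → Bool) → Bool
  | .leaf b, _ => b
  | .node i t0 t1, x => if x i then t1.eval x else t0.eval x

/-- The worst-case number of queries of the tree. -/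
def DT.depth {ι : Type} : DT ι → ℕ
  | .leaf _ => 0
  | .node _ t0 t1 => max t0.depth t1.depth + 1

@[simp] theorem DT.eval_leaf {ι : Type} (b : Bool) (x : ι → Bool) :
    (DT.leaf b : DT ι).eval x = b := rfl
@[simp] theorem DT.eval_node {ι : Type} (i : ι) (t0 t1 : DT ι) (x : ι → Bool) :
    (DT.node i t0 t1).eval x = if x i then t1.eval x else t0.eval x := rfl
@[simp] theorem DT.depth_leaf {ι : Type} (b : Bool) : (DT.leaf b : DT ι).depth = 0 := rfl
@[simp] theorem DT.depth_node {ι : Type} (i : ι) (t0 t1 : DT ι) :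
    (DT.node i t0 t1).depth = max t0.depth t1.depth + 1 := rfl

/-- A randomized algorithm is a probability distribution over decision trees. It computes `f`
with `T` queries if all its trees have depth at most `T` and, on every input `x`, its output is
`f x` with probability at least `2/3`. -/
def RandComputes {ι : Type} (f : (ι → Bool) → Bool) (T : ℕ) : Prop :=
  ∃ p : PMF (DT ι), (∀ t ∈ p.support, t.depth ≤ T) ∧
    ∀ x : ι → Bool, 2 / 3 ≤ p.toOuterMeasure {t | t.eval x = f x}

/-- Randomized query complexity. -/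
noncomputable def R {ι : Type} (f : (ι → Bool) → Bool) : ℕ := sInf {T | RandComputes f T}

/-- The query unitary `|i,b,z⟩ ↦ |i, b ⊕ x i, z⟩` as a matrix. -/
def oracle {ι : Type} [DecidableEq ι] (m : ℕ) (x : ι → Bool) :
    Matrix (ι × Bool × Fin m) (ι × Bool × Fin m) ℂ :=
  fun a b => if a = (b.1, xor b.2.1 (x b.1), b.2.2) then 1 else 0

/-- A quantum query algorithm: workspace dimension `m`, input-independent unitaries `U t`, an
initial basis state, and the classical output read off after a measurement in the computational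
basis. -/
structure QAlg (ι : Type) [Fintype ι] [DecidableEq ι] where
  m : ℕ
  U : ℕ → Matrix.unitaryGroup (ι × Bool × Fin m) ℂ
  start : ι × Bool × Fin m
  out : ι × Bool × Fin m → Bool

/-- The state after `T` queries (and the unitary following the last query). -/
noncomputable def QAlg.state {ι : Type} [Fintype ι] [DecidableEq ι] (A : QAlg ι)
    (x : ι → Bool) : ℕ → (ι × Bool × Fin A.m → ℂ)
  | 0 => (A.U 0).1.mulVec (Pi.single A.start 1)
  | t + 1 => (A.U (t + 1)).1.mulVec ((oracle A.m x).mulVec (A.state x t))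

/-- The probability that the algorithm outputs `b` on input `x` after `T` queries. -/
noncomputable def QAlg.prob {ι : Type} [Fintype ι] [DecidableEq ι] (A : QAlg ι) (T : ℕ)
    (x : ι → Bool) (b : Bool) : ℝ :=
  ∑ w, if A.out w = b then ‖A.state x T w‖ ^ 2 else 0

/-- `f` is computed with error at most `1/3` by a quantum algorithm making `T` queries. -/
def QuantComputes {ι : Type} [Fintype ι] [DecidableEq ι] (f : (ι → Bool) → Bool) (T : ℕ) :
    Prop :=
  ∃ A : QAlg ι, ∀ x : ι → Bool, 2 / 3 ≤ A.prob T x (f x)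

/-- Quantum query complexity. -/
noncomputable def Q {ι : Type} [Fintype ι] [DecidableEq ι] (f : (ι → Bool) → Bool) : ℕ :=
  sInf {T | QuantComputes f T}

/-- `R(f) ≤ C (1 + Q(f))^α` for all total Boolean functions, for some constant `C`. -/
def PolyBound (α : ℝ) : Prop :=
  ∃ C : ℝ, ∀ n : ℕ, 1 ≤ n → ∀ f : (Fin n → Bool) → Bool,
    (R f : ℝ) ≤ C * (1 + (Q f : ℝ)) ^ α

/-- The optimal exponent. -/
noncomputable def alphaTot : ℝ := sInf {α : ℝ | 0 ≤ α ∧ PolyBound α}

end Vale.Agent.P362
end
end

section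

section

/-! Internal model of quantum query algorithms: circuits whose steps are input-independent
unitaries or phase queries on an arbitrary finite index type. -/

namespace Vale.Agent.P362

/-- One step of a circuit on the workspace `W`. -/
inductive QStep (ι W : Type) [Fintype W] [DecidableEq W] : Type
  | uni (U : Matrix.unitaryGroup W ℂ) : QStep ι W
  | qry (q : W → Option ι) : QStep ι W

/-- The phase given by an optional query. -/
noncomputable def phase {ι : Type} (x : ι → Bool) : Option ι → ℂ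
  | none => 1
  | some i => if x i then -1 else 1

@[simp] theorem phase_none {ι : Type} (x : ι → Bool) : phase x none = 1 := rfl
@[simp] theorem phase_some {ι : Type} (x : ι → Bool) (i : ι) :
    phase x (some i) = if x i then -1 else 1 := rfl

variable {ι W : Type} [Fintype W] [DecidableEq W]

noncomputable def QStep.app (x : ι → Bool) : QStep ι W → (W → ℂ) → (W → ℂ)
  | .uni U, ψ => U.1.mulVec ψ
  | .qry q, ψ => fun w => phase x (q w) * ψ w

theorem QStep.app_uni (x : ι → Bool) (U : Matrix.unitaryGroup W ℂ) (ψ : W → ℂ) :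
    (QStep.uni U : QStep ι W).app x ψ = U.1.mulVec ψ := rfl
theorem QStep.app_qry (x : ι → Bool) (q : W → Option ι) (ψ : W → ℂ) :
    (QStep.qry q : QStep ι W).app x ψ = fun w => phase x (q w) * ψ w := rfl

def QStep.cost : QStep ι W → ℕ
  | .uni _ => 0
  | .qry _ => 1

@[simp] theorem QStep.cost_uni (U : Matrix.unitaryGroup W ℂ) :
    (QStep.uni U : QStep ι W).cost = 0 := rfl
@[simp] theorem QStep.cost_qry (q : W → Option ι) : (QStep.qry q : QStep ι W).cost = 1 := rfl

/-- Run a circuit (list of steps, first element first). -/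
noncomputable def runC (x : ι → Bool) : List (QStep ι W) → (W → ℂ) → (W → ℂ)
  | [], ψ => ψ
  | s :: c, ψ => runC x c (s.app x ψ)

theorem runC_nil (x : ι → Bool) (ψ : W → ℂ) : runC x ([] : List (QStep ι W)) ψ = ψ := rfl
theorem runC_cons (x : ι → Bool) (s : QStep ι W) (c : List (QStep ι W)) (ψ : W → ℂ) :
    runC x (s :: c) ψ = runC x c (s.app x ψ) := rfl

/-- Number of queries of a circuit. -/
def qcost : List (QStep ι W) → ℕ
  | [] => 0
  | s :: c => s.cost + qcost c

theorem qcost_nil : qcost ([] : List (QStep ι W)) = 0 := rfl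
theorem qcost_cons (s : QStep ι W) (c : List (QStep ι W)) :
    qcost (s :: c) = s.cost + qcost c := rfl

/-- `Ψ x` can be prepared exactly from a basis state with `T` phase queries. -/
def Prep {ι W : Type} [Fintype W] [DecidableEq W] (T : ℕ) (Ψ : (ι → Bool) → W → ℂ) : Prop :=
  ∃ (c : List (QStep ι W)) (w0 : W), qcost c ≤ T ∧ ∀ x, runC x c (Pi.single w0 1) = Ψ x

/-- The family of distributions `μ x` on `Ω` can be sampled (by measuring the final state of a
circuit and post-processing the outcome) with `T` phase queries. -/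
def Ach {ι Ω : Type} [DecidableEq Ω] (T : ℕ) (μ : (ι → Bool) → Ω → ℝ) : Prop :=
  ∃ (W : Type) (_ : Fintype W) (_ : DecidableEq W) (c : List (QStep ι W)) (w0 : W) (out : W → Ω),
    qcost c ≤ T ∧ ∀ x o, μ x o = ∑ w, if out w = o then ‖runC x c (Pi.single w0 1) w‖ ^ 2 else 0

end Vale.Agent.P362
end
end

section

section

/-!
Quantum query toolkit, part 1: `T`-query unitary families `QF T V` in the phase-query normal form,
and their closure properties.
-/

set_option linter.unusedSectionVars false

namespace Vale.Agent.P362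

open Matrix

/-- One phase query: basis state `b` gets the sign `(-1)^(x v)` when `q b = some v`. -/
noncomputable def phaseQ {ι β : Type} [DecidableEq β] (q : β → Option ι) (x : ι → Bool) :
    Matrix β β ℂ :=
  Matrix.diagonal fun b => match q b with
    | none => 1
    | some v => if x v then -1 else 1

/-- Alternate fixed matrices and phase queries. -/
noncomputable def seqP {ι β : Type} [Fintype β] [DecidableEq β] (U : ℕ → Matrix β β ℂ)
    (q : ℕ → β → Option ι) (x : ι → Bool) : ℕ → Matrix β β ℂ
  | 0 => U 0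
  | t + 1 => U (t + 1) * phaseQ (q t) x * seqP U q x t

/-- `QF T V`: the family `V` of matrices is computed by fixed unitaries and `T` phase queries. -/
def QF {ι β : Type} [Fintype β] [DecidableEq β] (T : ℕ)
    (V : (ι → Bool) → Matrix β β ℂ) : Prop :=
  ∃ (U : ℕ → Matrix β β ℂ) (q : ℕ → β → Option ι),
    (∀ t, U t ∈ Matrix.unitaryGroup β ℂ) ∧ ∀ x, V x = seqP U q x T

section basic

variable {ι β : Type} [Fintype β] [DecidableEq β]

omit [Fintype β] in
theorem phaseQ_none (x : ι → Bool) :
    phaseQ (fun _ : β => (none : Option ι)) x = 1 := by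
  simp [phaseQ]

theorem phaseQ_mul_self (q : β → Option ι) (x : ι → Bool) :
    phaseQ q x * phaseQ q x = 1 := by
  rw [phaseQ, Matrix.diagonal_mul_diagonal, ← Matrix.diagonal_one]
  congr 1
  funext b
  cases q b with
  | none => simp
  | some v => by_cases h : x v <;> simp [h]

omit [Fintype β] in
theorem phaseQ_conjTranspose (q : β → Option ι) (x : ι → Bool) :
    (phaseQ q x)ᴴ = phaseQ q x := by
  rw [phaseQ, Matrix.diagonal_conjTranspose]
  congr 1
  funext b
  simp only [Pi.star_apply]
  cases q b with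
  | none => simp
  | some v => by_cases h : x v <;> simp [h]

theorem phaseQ_mem (q : β → Option ι) (x : ι → Bool) :
    phaseQ q x ∈ Matrix.unitaryGroup β ℂ := by
  rw [Matrix.mem_unitaryGroup_iff]
  rw [Matrix.star_eq_conjTranspose, phaseQ_conjTranspose, phaseQ_mul_self]

theorem seqP_congr {U U' : ℕ → Matrix β β ℂ} {q q' : ℕ → β → Option ι} {x : ι → Bool} (t : ℕ)
    (hU : ∀ s ≤ t, U s = U' s) (hq : ∀ s < t, q s = q' s) :
    seqP U q x t = seqP U' q' x t := by
  induction t with
  | zero => simp only [seqP, hU 0 le_rfl]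
  | succ t ih =>
    simp only [seqP]
    rw [hU (t + 1) le_rfl, hq t (Nat.lt_succ_self t),
      ih (fun s hs => hU s (by omega)) (fun s hs => hq s (by omega))]

theorem seqP_mem {U : ℕ → Matrix β β ℂ} (q : ℕ → β → Option ι) (x : ι → Bool)
    (hU : ∀ t, U t ∈ Matrix.unitaryGroup β ℂ) (t : ℕ) :
    seqP U q x t ∈ Matrix.unitaryGroup β ℂ := by
  induction t with
  | zero => exact hU 0
  | succ t ih => exact mul_mem (mul_mem (hU _) (phaseQ_mem _ _)) ih

theorem QF.mem {T : ℕ} {V : (ι → Bool) → Matrix β β ℂ} (h : QF T V) (x : ι → Bool) :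
    V x ∈ Matrix.unitaryGroup β ℂ := by
  obtain ⟨U, q, hU, hV⟩ := h
  rw [hV x]
  exact seqP_mem q x hU T

theorem QF.const {M : Matrix β β ℂ} (hM : M ∈ Matrix.unitaryGroup β ℂ) :
    QF 0 (fun _ : ι → Bool => M) :=
  ⟨fun _ => M, fun _ _ => none, fun _ => hM, fun _ => rfl⟩

theorem QF.query (q : β → Option ι) : QF 1 (fun x : ι → Bool => phaseQ q x) :=
  ⟨fun _ => 1, fun _ => q, fun _ => one_mem _, fun x => by simp [seqP]⟩

theorem QF.mul {S T : ℕ} {V W : (ι → Bool) → Matrix β β ℂ} (hV : QF S V) (hW : QF T W) :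
    QF (S + T) (fun x => V x * W x) := by
  obtain ⟨U, q, hU, hV⟩ := hV
  obtain ⟨U', q', hU', hW⟩ := hW
  refine ⟨fun t => if t < T then U' t else if t = T then U 0 * U' T else U (t - T),
    fun t => if t < T then q' t else q (t - T), ?_, ?_⟩
  · intro t
    dsimp only
    split_ifs
    · exact hU' t
    · exact mul_mem (hU 0) (hU' T)
    · exact hU _
  · intro x
    show V x * W x = _
    rw [hV x, hW x]
    set U'' : ℕ → Matrix β β ℂ :=
      fun t => if t < T then U' t else if t = T then U 0 * U' T else U (t - T) with hU''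
    set q'' : ℕ → β → Option ι := fun t => if t < T then q' t else q (t - T) with hq''
    have key : ∀ s, seqP U'' q'' x (s + T) = seqP U q x s * seqP U' q' x T := by
      intro s
      induction s with
      | zero =>
        simp only [Nat.zero_add]
        cases T with
        | zero => simp [seqP, hU'']
        | succ T =>
          have h1 : seqP U'' q'' x T = seqP U' q' x T := by
            apply seqP_congr
            · intro s hs
              simp only [hU'', if_pos (show s < T + 1 by omega)]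
            · intro s hs
              simp only [hq'', if_pos (show s < T + 1 by omega)]
          have h2 : U'' (T + 1) = U 0 * U' (T + 1) := by simp only [hU'', Order.lt_add_one_iff, add_le_iff_nonpos_right, nonpos_iff_eq_zero, one_ne_zero, ↓reduceIte, Nat.add_left_cancel_iff]
          have h3 : q'' T = q' T := by simp only [hq'', Order.lt_add_one_iff, Std.le_refl, ↓reduceIte]
          simp only [seqP]
          rw [h1, h2, h3]
          simp only [Matrix.mul_assoc]
      | succ s ih =>
        have e : s + 1 + T = (s + T) + 1 := by omega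
        rw [e]
        simp only [seqP]
        rw [ih]
        have h2 : U'' (s + T + 1) = U (s + 1) := by
          have h : ¬ (s + T + 1 < T) := by omega
          have h' : ¬ (s + T + 1 = T) := by omega
          simp only [hU'', h, h', if_false]
          congr 1
          omega
        have h3 : q'' (s + T) = q s := by
          have h : ¬ (s + T < T) := by omega
          simp only [hq'', h, if_false]
          congr 1
          omega
        rw [h2, h3]
        simp only [Matrix.mul_assoc]
    exact (key S).symm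

theorem QF.congr {T T' : ℕ} {V V' : (ι → Bool) → Matrix β β ℂ} (h : QF T V) (hT : T = T')
    (hV : ∀ x, V x = V' x) : QF T' V' := by
  subst hT
  have : V = V' := funext hV
  subst this
  exact h

theorem QF.mono {S T : ℕ} {V : (ι → Bool) → Matrix β β ℂ} (h : QF S V) (hST : S ≤ T) :
    QF T V := by
  induction T, hST using Nat.le_induction with
  | base => exact h
  | succ T _ ih =>
    have := (QF.query (fun _ : β => (none : Option ι))).mul ih
    refine this.congr (by omega) ?_
    intro x
    rw [phaseQ_none, Matrix.one_mul]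

theorem conjTranspose_mem {M : Matrix β β ℂ} (h : M ∈ Matrix.unitaryGroup β ℂ) :
    Mᴴ ∈ Matrix.unitaryGroup β ℂ := by
  rw [← Matrix.star_eq_conjTranspose]
  exact Unitary.star_mem h

end basic

section ext

variable {ι β γ : Type} [Fintype β] [DecidableEq β] [Fintype γ] [DecidableEq γ]

/-- The isometry of an injection `e`. -/
noncomputable def embM (e : β → γ) : Matrix γ β ℂ := fun i b => if i = e b then 1 else 0

/-- Act by `M` on the basis states in the range of `e`, trivially on the others. -/
noncomputable def extM (e : β → γ) (M : Matrix β β ℂ) : Matrix γ γ ℂ :=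
  embM e * M * (embM e)ᴴ + (1 - embM e * (embM e)ᴴ)

omit [Fintype β] [Fintype γ] [DecidableEq β] in
theorem embM_apply (e : β → γ) (i : γ) (b : β) :
    embM e i b = if i = e b then 1 else 0 := rfl

omit [Fintype β] in
theorem embM_star_mul {e : β → γ} (he : Function.Injective e) :
    (embM e)ᴴ * embM e = 1 := by
  ext b c
  rw [Matrix.mul_apply]
  simp only [Matrix.conjTranspose_apply, embM_apply, Matrix.one_apply]
  rw [Finset.sum_eq_single (e c)]
  · by_cases h : b = c
    · subst h
      simp
    · have : ¬ (e c = e b) := fun h' => h (he h'.symm)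
      simp [h, this]
  · intro i _ hi
    simp [hi]
  · simp only [Finset.mem_univ, not_true_eq_false, RCLike.star_def, MonoidWithZeroHom.map_ite_one_zero, ↓reduceIte, mul_one, ite_eq_right_iff, one_ne_zero, imp_false, IsEmpty.forall_iff]

theorem extM_mul_embM {e : β → γ} (he : Function.Injective e) (M : Matrix β β ℂ) :
    extM e M * embM e = embM e * M := by
  rw [extM, Matrix.add_mul, Matrix.sub_mul, Matrix.mul_assoc (embM e * M), embM_star_mul he,
    Matrix.mul_assoc (embM e) (embM e)ᴴ, embM_star_mul he]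
  simp

theorem extM_mul {e : β → γ} (he : Function.Injective e) (M N : Matrix β β ℂ) :
    extM e (M * N) = extM e M * extM e N := by
  have h1 : extM e M * (1 - embM e * (embM e)ᴴ) = 1 - embM e * (embM e)ᴴ := by
    rw [extM]
    have h0 : (embM e)ᴴ * (1 - embM e * (embM e)ᴴ) = 0 := by
      rw [Matrix.mul_sub, Matrix.mul_one, ← Matrix.mul_assoc, embM_star_mul he]
      simp
    rw [Matrix.add_mul, Matrix.mul_assoc _ (embM e)ᴴ, h0]
    rw [Matrix.mul_zero, zero_add, Matrix.sub_mul, Matrix.one_mul, Matrix.mul_assoc (embM e), h0]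
    simp
  conv_rhs => rw [extM.eq_def e N]
  rw [Matrix.mul_add, h1, Matrix.mul_assoc (embM e) N, ← Matrix.mul_assoc (extM e M),
    extM_mul_embM he, extM]
  simp only [Matrix.mul_assoc]

theorem extM_one (e : β → γ) : extM e 1 = (1 : Matrix γ γ ℂ) := by
  simp [extM]

theorem extM_conjTranspose (e : β → γ) (M : Matrix β β ℂ) :
    (extM e M)ᴴ = extM e Mᴴ := by
  simp only [extM, Matrix.mul_assoc, conjTranspose_add, conjTranspose_mul, conjTranspose_conjTranspose, conjTranspose_sub, conjTranspose_one]

theorem extM_mem {e : β → γ} (he : Function.Injective e) {M : Matrix β β ℂ}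
    (hM : M ∈ Matrix.unitaryGroup β ℂ) : extM e M ∈ Matrix.unitaryGroup γ ℂ := by
  rw [Matrix.mem_unitaryGroup_iff] at hM ⊢
  rw [Matrix.star_eq_conjTranspose] at hM ⊢
  rw [extM_conjTranspose, ← extM_mul he, hM, extM_one]

open Classical in
/-- Extension of a query map along an injection. -/
noncomputable def extq (e : β → γ) (q : β → Option ι) : γ → Option ι :=
  fun i => if h : ∃ b, e b = i then q h.choose else none

theorem extq_apply {e : β → γ} (he : Function.Injective e) (q : β → Option ι) (b : β) :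
    extq e q (e b) = q b := by
  have h : ∃ b', e b' = e b := ⟨b, rfl⟩
  rw [extq, dif_pos h]
  congr 1
  exact he h.choose_spec

theorem extq_of_not {e : β → γ} (q : β → Option ι) {i : γ} (h : ¬ ∃ b, e b = i) :
    extq e q i = none := by
  rw [extq, dif_neg h]

theorem extM_diagonal {e : β → γ} (he : Function.Injective e) (d : β → ℂ) (d' : γ → ℂ)
    (h1 : ∀ b, d' (e b) = d b) (h2 : ∀ i, (¬ ∃ b, e b = i) → d' i = 1) :
    extM e (Matrix.diagonal d) = Matrix.diagonal d' := by
  ext i j
  rw [extM, Matrix.add_apply, Matrix.sub_apply, Matrix.mul_apply, Matrix.mul_apply]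
  simp only [Matrix.mul_diagonal, Matrix.conjTranspose_apply, embM_apply]
  by_cases hi : ∃ b, e b = i
  · obtain ⟨b, rfl⟩ := hi
    rw [Finset.sum_eq_single b, Finset.sum_eq_single b]
    · by_cases hj : j = e b
      · subst hj
        simp [h1]
      · have hj' : ¬ (e b = j) := fun h => hj h.symm
        simp [hj, hj', Matrix.one_apply]
    · intro c _ hc
      have : ¬ (e b = e c) := fun h => hc (he h).symm
      simp [this]
    · simp only [Finset.mem_univ, not_true_eq_false, ↓reduceIte, RCLike.star_def, MonoidWithZeroHom.map_ite_one_zero, mul_ite, mul_one, mul_zero, ite_eq_right_iff, one_ne_zero, imp_false, IsEmpty.forall_iff]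
    · intro c _ hc
      have : ¬ (e b = e c) := fun h => hc (he h).symm
      simp [this]
    · simp only [Finset.mem_univ, not_true_eq_false, ↓reduceIte, one_mul, RCLike.star_def, MonoidWithZeroHom.map_ite_one_zero, mul_ite, mul_one, mul_zero, ite_eq_right_iff, IsEmpty.forall_iff]
  · rw [Finset.sum_eq_zero, Finset.sum_eq_zero]
    · by_cases hj : i = j
      · subst hj
        simp [h2 i hi]
      · simp [hj, Matrix.one_apply]
    · intro c _
      have : ¬ (i = e c) := fun h => hi ⟨c, h.symm⟩
      simp [this]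
    · intro c _
      have : ¬ (i = e c) := fun h => hi ⟨c, h.symm⟩
      simp [this]

theorem extM_phaseQ {e : β → γ} (he : Function.Injective e) (q : β → Option ι)
    (x : ι → Bool) : extM e (phaseQ q x) = phaseQ (extq e q) x := by
  rw [phaseQ, phaseQ]
  apply extM_diagonal he
  · intro b
    rw [extq_apply he]
  · intro i hi
    rw [extq_of_not q hi]

theorem QF.ext {e : β → γ} (he : Function.Injective e) {T : ℕ}
    {V : (ι → Bool) → Matrix β β ℂ} (h : QF T V) : QF T (fun x => extM e (V x)) := by
  obtain ⟨U, q, hU, hV⟩ := h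
  refine ⟨fun t => extM e (U t), fun t => extq e (q t), fun t => extM_mem he (hU t), ?_⟩
  intro x
  show extM e (V x) = _
  rw [hV x]
  clear hV
  induction T with
  | zero => rfl
  | succ t ih =>
    simp only [seqP]
    rw [extM_mul he, extM_mul he, extM_phaseQ he, ih]

end ext

section block

variable {ι β : Type} [Fintype β] [DecidableEq β] {γ : β → Type} [∀ b, Fintype (γ b)]
  [∀ b, DecidableEq (γ b)]

theorem blockDiagonal'_mem {M : ∀ b, Matrix (γ b) (γ b) ℂ}
    (hM : ∀ b, M b ∈ Matrix.unitaryGroup (γ b) ℂ) :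
    Matrix.blockDiagonal' M ∈ Matrix.unitaryGroup (Σ b, γ b) ℂ := by
  rw [Matrix.mem_unitaryGroup_iff, Matrix.star_eq_conjTranspose,
    Matrix.blockDiagonal'_conjTranspose, ← Matrix.blockDiagonal'_mul]
  have : (fun b => M b * (M b)ᴴ) = fun b => (1 : Matrix (γ b) (γ b) ℂ) := by
    funext b
    have := hM b
    rw [Matrix.mem_unitaryGroup_iff, Matrix.star_eq_conjTranspose] at this
    exact this
  rw [this]
  exact Matrix.blockDiagonal'_one

theorem blockDiagonal'_phaseQ (q : ∀ b, γ b → Option ι) (x : ι → Bool) :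
    Matrix.blockDiagonal' (fun b => phaseQ (q b) x) = phaseQ (fun s : Σ b, γ b => q s.1 s.2) x := by
  simp only [phaseQ]
  rw [Matrix.blockDiagonal'_diagonal]

theorem QF.blocks {T : ℕ} {V : ∀ b, (ι → Bool) → Matrix (γ b) (γ b) ℂ}
    (h : ∀ b, QF T (V b)) : QF T (fun x => Matrix.blockDiagonal' (fun b => V b x)) := by
  choose U q hU hV using h
  refine ⟨fun t => Matrix.blockDiagonal' (fun b => U b t), fun t s => q s.1 t s.2,
    fun t => blockDiagonal'_mem fun b => hU b t, ?_⟩
  intro x
  show Matrix.blockDiagonal' (fun b => V b x) = _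
  have : (fun b => V b x) = fun b => seqP (U b) (q b) x T := by
    funext b
    exact hV b x
  rw [this]
  clear this hV
  induction T with
  | zero => rfl
  | succ t ih =>
    simp only [seqP]
    rw [← ih, ← blockDiagonal'_phaseQ (fun b => q b t) x, ← Matrix.blockDiagonal'_mul,
      ← Matrix.blockDiagonal'_mul]

end block

end Vale.Agent.P362
end
end

section

section

/-!
Quantum query toolkit, part 2: outcome distributions of `T`-query quantum algorithms, and the
deferred measurement principle (`QDist.bind`).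
-/

set_option linter.unusedSectionVars false

namespace Vale.Agent.P362

open Matrix

open Classical in
/-- `QDist T p`: some `T`-query quantum algorithm has, on every input `x`, outcome law `p x`. -/
def QDist {ι A : Type} (T : ℕ) (p : (ι → Bool) → A → ℝ) : Prop :=
  ∃ (β : Type) (_ : Fintype β) (_ : DecidableEq β) (V : (ι → Bool) → Matrix β β ℂ) (b0 : β)
    (out : β → A), QF T V ∧
      ∀ x a, p x a = ∑ b, if out b = a then ‖V x b b0‖ ^ 2 else 0

/-- The columns of a unitary matrix have norm one. -/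
theorem unitary_col {β : Type} [Fintype β] [DecidableEq β] {M : Matrix β β ℂ}
    (hM : M ∈ Matrix.unitaryGroup β ℂ) (b0 : β) : ∑ b, ‖M b b0‖ ^ 2 = 1 := by
  rw [Matrix.mem_unitaryGroup_iff'] at hM
  have h := congrFun (congrFun hM b0) b0
  rw [Matrix.star_eq_conjTranspose, Matrix.mul_apply, Matrix.one_apply_eq] at h
  simp only [Matrix.conjTranspose_apply] at h
  have h2 : ∀ b, star (M b b0) * M b b0 = ((‖M b b0‖ ^ 2 : ℝ) : ℂ) := by
    intro b
    have := Complex.conj_mul' (M b b0)
    simpa only [RCLike.star_def, Complex.ofReal_pow] using this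
  simp only [h2] at h
  exact_mod_cast h

namespace QDist

variable {ι A B : Type}

theorem nonneg {T : ℕ} {p : (ι → Bool) → A → ℝ} (h : QDist T p) (x : ι → Bool) (a : A) :
    0 ≤ p x a := by
  classical
  obtain ⟨β, _, _, V, b0, out, -, hp⟩ := h
  rw [hp]
  apply Finset.sum_nonneg
  intro b _
  split_ifs <;> positivity

theorem sum_eq_one [Fintype A] {T : ℕ} {p : (ι → Bool) → A → ℝ} (h : QDist T p)
    (x : ι → Bool) : ∑ a, p x a = 1 := by
  classical
  obtain ⟨β, _, _, V, b0, out, hV, hp⟩ := h
  simp only [hp]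
  rw [Finset.sum_comm]
  rw [← unitary_col (hV.mem x) b0]
  apply Finset.sum_congr rfl
  intro b _
  simp only [Finset.sum_ite_eq, Finset.mem_univ, ↓reduceIte]

theorem mono {S T : ℕ} {p : (ι → Bool) → A → ℝ} (h : QDist S p) (hST : S ≤ T) : QDist T p := by
  obtain ⟨β, i1, i2, V, b0, out, hV, hp⟩ := h
  exact ⟨β, i1, i2, V, b0, out, hV.mono hST, hp⟩

theorem congr {S T : ℕ} {p p' : (ι → Bool) → A → ℝ} (h : QDist S p) (hST : S = T)
    (hp : ∀ x a, p x a = p' x a) : QDist T p' := by
  subst hST
  have : p = p' := by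
    funext x a
    exact hp x a
  subst this
  exact h

open Classical in
theorem pure (a0 : A) : QDist 0 (fun (_ : ι → Bool) a => if a0 = a then 1 else 0) := by
  refine ⟨Unit, inferInstance, inferInstance, fun _ => 1, (), fun _ => a0,
    QF.const (one_mem _), ?_⟩
  intro x a
  simp only [Finset.univ_unique, PUnit.default_eq_unit, one_apply_eq, norm_one, one_pow, Finset.sum_ite_irrel, Finset.sum_const, Finset.card_singleton, one_smul, Finset.sum_const_zero]

open Classical in
theorem map [Fintype A] {T : ℕ} {p : (ι → Bool) → A → ℝ} (h : QDist T p) (g : A → B) :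
    QDist T (fun x c => ∑ a, if g a = c then p x a else 0) := by
  obtain ⟨β, i1, i2, V, b0, out, hV, hp⟩ := h
  refine ⟨β, i1, i2, V, b0, fun b => g (out b), hV, ?_⟩
  intro x c
  simp only [hp]
  have h1 : ∀ a, (if g a = c then ∑ b, (if out b = a then ‖V x b b0‖ ^ 2 else 0) else 0)
      = ∑ b, (if g a = c then (if out b = a then ‖V x b b0‖ ^ 2 else 0) else 0) := by
    intro a
    split_ifs <;> simp
  simp only [h1]
  rw [Finset.sum_comm]
  apply Finset.sum_congr rfl
  intro b _
  rw [Finset.sum_eq_single (out b)]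
  · simp
  · intro a _ ha
    have : ¬ (out b = a) := fun h => ha h.symm
    simp [this]
  · simp only [Finset.mem_univ, not_true_eq_false, ↓reduceIte, ite_eq_right_iff, ne_eq, OfNat.ofNat_ne_zero, not_false_eq_true, pow_eq_zero_iff, norm_eq_zero, IsEmpty.forall_iff]

/-- Deferred measurement: run an algorithm, then another one chosen by the first outcome. -/
theorem bind [Fintype A] {S T : ℕ} {p : (ι → Bool) → A → ℝ} {q : A → (ι → Bool) → B → ℝ}
    (hp : QDist S p) (hq : ∀ a, QDist T (q a)) :
    QDist (S + T) (fun x c => ∑ a, p x a * q a x c) := by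
  classical
  obtain ⟨β, _, _, V, b0, out, hV, hp⟩ := hp
  choose γ i1 i2 W c0 out' hW hq using hq
  let e : β → (Σ b : β, γ (out b)) := fun b => ⟨b, c0 (out b)⟩
  have he : Function.Injective e := by
    intro b b' h
    exact congrArg Sigma.fst h
  refine ⟨Σ b : β, γ (out b), inferInstance, inferInstance,
    fun x => Matrix.blockDiagonal' (fun b => W (out b) x) * extM e (V x),
    e b0, fun s => out' (out s.1) s.2, ?_, ?_⟩
  · refine ((QF.blocks (fun b => hW (out b))).mul (hV.ext he)).congr (by omega) ?_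
    intro x
    rfl
  · intro x c
    have hamp : ∀ s : (Σ b : β, γ (out b)),
        (Matrix.blockDiagonal' (fun b => W (out b) x) * extM e (V x)) s (e b0)
          = W (out s.1) x s.2 (c0 (out s.1)) * V x s.1 b0 := by
      intro s
      have h1 : (Matrix.blockDiagonal' (fun b => W (out b) x) * extM e (V x)) s (e b0)
          = (Matrix.blockDiagonal' (fun b => W (out b) x) * (extM e (V x) * embM e)) s b0 := by
        rw [← Matrix.mul_assoc, Matrix.mul_apply (N := embM e)]
        rw [Finset.sum_eq_single (e b0)]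
        · simp [embM_apply]
        · intro t _ ht
          simp [embM_apply, ht]
        · simp only [Finset.mem_univ, not_true_eq_false, mul_eq_zero, IsEmpty.forall_iff]
      rw [h1, extM_mul_embM he, ← Matrix.mul_assoc, Matrix.mul_apply]
      rw [Finset.sum_eq_single s.1]
      · congr 1
        rw [Matrix.mul_apply, Finset.sum_eq_single (e s.1)]
        · obtain ⟨b, t⟩ := s
          simp [e, embM_apply, Matrix.blockDiagonal'_apply_eq]
        · intro t _ ht
          simp [embM_apply, ht]
        · simp only [Finset.mem_univ, not_true_eq_false, mul_eq_zero, IsEmpty.forall_iff]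
      · intro b _ hb
        rw [Matrix.mul_apply, Finset.sum_eq_single (e b)]
        · obtain ⟨b', t⟩ := s
          have hb' : b' ≠ b := fun h => hb h.symm
          simp only [e]
          rw [Matrix.blockDiagonal'_apply_ne _ _ _ hb']
          simp
        · intro t _ ht
          simp [embM_apply, ht]
        · simp only [Finset.mem_univ, not_true_eq_false, mul_eq_zero, IsEmpty.forall_iff]
      · simp only [Finset.mem_univ, not_true_eq_false, mul_eq_zero, IsEmpty.forall_iff]
    simp only [hamp, hp, hq]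
    simp only [Finset.sum_mul]
    rw [Finset.sum_comm]
    rw [Fintype.sum_sigma]
    apply Finset.sum_congr rfl
    intro b _
    rw [Finset.sum_eq_single (out b)]
    · simp only [if_true]
      rw [Finset.mul_sum]
      apply Finset.sum_congr rfl
      intro t _
      split_ifs
      · rw [norm_mul, mul_pow, mul_comm]
      · simp
    · intro a _ ha
      have : ¬ (out b = a) := fun h => ha h.symm
      simp only [this, ↓reduceIte, zero_mul]
    · simp only [Finset.mem_univ, not_true_eq_false, ↓reduceIte, mul_eq_zero, ne_eq, OfNat.ofNat_ne_zero, not_false_eq_true, pow_eq_zero_iff, norm_eq_zero, IsEmpty.forall_iff]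

end QDist

end Vale.Agent.P362
end
end

section

section

/-!
Quantum query toolkit, part 3: the circuit model (`runC`, `Prep`, `Ach`) and the matrix families
`QF`, `QDist` are the same notion; monad laws for `Ach`.
-/

set_option linter.unusedSectionVars false

namespace Vale.Agent.P362

open Matrix

section circ

variable {ι W : Type} [Fintype W] [DecidableEq W]

/-- The matrix of a circuit step. -/
noncomputable def QStep.mat (x : ι → Bool) : QStep ι W → Matrix W W ℂ
  | .uni U => U.1
  | .qry q => phaseQ q x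

/-- The matrix of a circuit. -/
noncomputable def circM (x : ι → Bool) : List (QStep ι W) → Matrix W W ℂ
  | [] => 1
  | s :: c => circM x c * s.mat x

omit [Fintype W] in
theorem phaseQ_eq (q : W → Option ι) (x : ι → Bool) :
    phaseQ q x = Matrix.diagonal fun w => phase x (q w) := by
  rw [phaseQ]
  rfl

theorem QStep.app_eq (x : ι → Bool) (s : QStep ι W) (ψ : W → ℂ) :
    s.app x ψ = (s.mat x).mulVec ψ := by
  cases s with
  | uni U => rfl
  | qry q =>
    rw [QStep.app_qry, QStep.mat, phaseQ_eq]
    funext w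
    rw [Matrix.mulVec_diagonal]

theorem runC_eq (x : ι → Bool) (c : List (QStep ι W)) (ψ : W → ℂ) :
    runC x c ψ = (circM x c).mulVec ψ := by
  induction c generalizing ψ with
  | nil => rw [runC_nil, circM, Matrix.one_mulVec]
  | cons s c ih => rw [runC_cons, ih, circM, QStep.app_eq, Matrix.mulVec_mulVec]

theorem circM_append (x : ι → Bool) (c d : List (QStep ι W)) :
    circM x (c ++ d) = circM x d * circM x c := by
  induction c with
  | nil => rw [List.nil_append, circM, Matrix.mul_one]
  | cons s c ih => rw [List.cons_append, circM, circM, ih, Matrix.mul_assoc]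

theorem qcost_app (c d : List (QStep ι W)) : qcost (c ++ d) = qcost c + qcost d := by
  induction c with
  | nil => rw [List.nil_append, qcost_nil, zero_add]
  | cons s c ih => rw [List.cons_append, qcost_cons, qcost_cons, ih, add_assoc]

/-- A circuit gives a `QF` family. -/
theorem QF.of_circ (c : List (QStep ι W)) : QF (qcost c) (fun x => circM x c) := by
  induction c with
  | nil => exact QF.const (one_mem _)
  | cons s c ih =>
    cases s with
    | uni U =>
      have h : QF 0 (fun _ : ι → Bool => U.1) := QF.const U.2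
      refine (ih.mul h).congr ?_ fun x => rfl
      rw [qcost_cons, QStep.cost_uni]
      omega
    | qry q =>
      refine (ih.mul (QF.query q)).congr ?_ fun x => rfl
      rw [qcost_cons, QStep.cost_qry]
      omega

/-- A `QF` family is given by a circuit. -/
theorem QF.exists_circ {T : ℕ} {V : (ι → Bool) → Matrix W W ℂ} (h : QF T V) :
    ∃ c : List (QStep ι W), qcost c = T ∧ ∀ x, circM x c = V x := by
  obtain ⟨U, q, hU, hV⟩ := h
  have key : ∀ t, ∃ c : List (QStep ι W), qcost c = t ∧ ∀ x, circM x c = seqP U q x t := by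
    intro t
    induction t with
    | zero =>
      refine ⟨[QStep.uni ⟨U 0, hU 0⟩], rfl, fun x => ?_⟩
      simp [circM, QStep.mat, seqP]
    | succ t ih =>
      obtain ⟨c, hc, hm⟩ := ih
      refine ⟨c ++ [QStep.qry (q t), QStep.uni ⟨U (t + 1), hU (t + 1)⟩], ?_, fun x => ?_⟩
      · rw [qcost_app, hc, qcost_cons, qcost_cons, qcost_nil, QStep.cost_qry, QStep.cost_uni]
      · rw [circM_append, hm]
        simp [circM, QStep.mat, seqP]
  obtain ⟨c, hc, hm⟩ := key T
  exact ⟨c, hc, fun x => by rw [hm, hV]⟩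

theorem mulVec_single_apply' {β γ : Type} [Fintype β] [DecidableEq β] (M : Matrix γ β ℂ)
    (w0 : β) (w : γ) : M.mulVec (Pi.single w0 1) w = M w w0 := by
  rw [Matrix.mulVec_single_one]
  rfl

/-- `Prep` in terms of `QF`. -/
theorem prep_iff {T : ℕ} {Ψ : (ι → Bool) → W → ℂ} :
    Prep T Ψ ↔ ∃ (V : (ι → Bool) → Matrix W W ℂ) (w0 : W), QF T V ∧ ∀ x w, V x w w0 = Ψ x w := by
  constructor
  · rintro ⟨c, w0, hc, h⟩
    refine ⟨fun x => circM x c, w0, (QF.of_circ c).mono hc, fun x w => ?_⟩
    rw [← h x, runC_eq, mulVec_single_apply']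
  · rintro ⟨V, w0, hV, h⟩
    obtain ⟨c, hc, hm⟩ := hV.exists_circ
    refine ⟨c, w0, hc.le, fun x => ?_⟩
    funext w
    rw [runC_eq, mulVec_single_apply', hm, h]

end circ

section ach

variable {ι Ω Ω' : Type}

theorem Ach.toQDist [DecidableEq Ω] {T : ℕ} {μ : (ι → Bool) → Ω → ℝ} (h : Ach T μ) :
    QDist T μ := by
  obtain ⟨W, i1, i2, c, w0, out, hc, h⟩ := h
  refine ⟨W, i1, i2, fun x => circM x c, w0, out, (QF.of_circ c).mono hc, fun x a => ?_⟩
  rw [h x a]
  refine Finset.sum_congr rfl fun w _ => ?_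
  rw [runC_eq, mulVec_single_apply']
  split_ifs <;> rfl

theorem QDist.toAch [DecidableEq Ω] {T : ℕ} {μ : (ι → Bool) → Ω → ℝ} (h : QDist T μ) :
    Ach T μ := by
  obtain ⟨W, i1, i2, V, w0, out, hV, h⟩ := h
  obtain ⟨c, hc, hm⟩ := hV.exists_circ
  refine ⟨W, i1, i2, c, w0, out, hc.le, fun x a => ?_⟩
  rw [h x a]
  refine Finset.sum_congr rfl fun w _ => ?_
  rw [runC_eq, mulVec_single_apply', hm]
  split_ifs <;> rfl

theorem Ach.nonneg [DecidableEq Ω] {T : ℕ} {μ : (ι → Bool) → Ω → ℝ} (h : Ach T μ)
    (x : ι → Bool) (a : Ω) : 0 ≤ μ x a := h.toQDist.nonneg x a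

theorem Ach.sum_eq_one [DecidableEq Ω] [Fintype Ω] {T : ℕ} {μ : (ι → Bool) → Ω → ℝ}
    (h : Ach T μ) (x : ι → Bool) : ∑ a, μ x a = 1 := h.toQDist.sum_eq_one x

theorem Ach.mono [DecidableEq Ω] {S T : ℕ} {μ : (ι → Bool) → Ω → ℝ} (h : Ach S μ)
    (hST : S ≤ T) : Ach T μ := (h.toQDist.mono hST).toAch

theorem Ach.congr [DecidableEq Ω] {S T : ℕ} {μ μ' : (ι → Bool) → Ω → ℝ} (h : Ach S μ)
    (hST : S = T) (hμ : ∀ x a, μ x a = μ' x a) : Ach T μ' := (h.toQDist.congr hST hμ).toAch

theorem Ach.pure [DecidableEq Ω] (a0 : Ω) :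
    Ach 0 (fun (_ : ι → Bool) a => if a0 = a then (1 : ℝ) else 0) := by
  refine ((QDist.pure (ι := ι) a0).congr rfl fun x a => ?_).toAch
  split_ifs <;> rfl

theorem Ach.map [DecidableEq Ω] [Fintype Ω] [DecidableEq Ω'] {T : ℕ}
    {μ : (ι → Bool) → Ω → ℝ} (h : Ach T μ) (g : Ω → Ω') :
    Ach T (fun x c => ∑ a, if g a = c then μ x a else 0) := by
  refine ((h.toQDist.map g).congr rfl fun x a => ?_).toAch
  refine Finset.sum_congr rfl fun w _ => ?_
  split_ifs <;> rfl

/-- Deferred measurement: run an algorithm, then another one chosen by the first outcome. -/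
theorem Ach.bind [DecidableEq Ω] [Fintype Ω] [DecidableEq Ω'] {S T : ℕ}
    {μ : (ι → Bool) → Ω → ℝ} {ν : Ω → (ι → Bool) → Ω' → ℝ}
    (hμ : Ach S μ) (hν : ∀ a, Ach T (ν a)) :
    Ach (S + T) (fun x c => ∑ a, μ x a * ν a x c) :=
  (hμ.toQDist.bind fun a => (hν a).toQDist).toAch

end ach

end Vale.Agent.P362
end
end

section

section

/-!
Quantum query toolkit, part 4: decision trees as quantum algorithms and as clean phase oracles.
-/

set_option linter.unusedSectionVars false
set_option linter.unusedSimpArgs false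

namespace Vale.Agent.P362

open Matrix

/-- `1/√2` -/
noncomputable def cH : ℂ := ((1 / Real.sqrt 2 : ℝ) : ℂ)

theorem cH_mul : cH * cH = 1 / 2 := by
  unfold cH
  rw [← Complex.ofReal_mul]
  have h : (1 / Real.sqrt 2) * (1 / Real.sqrt 2) = (1 / 2 : ℝ) := by
    rw [div_mul_div_comm, one_mul, Real.mul_self_sqrt (by norm_num)]
  rw [h]
  push_cast
  rfl

theorem cH_star : star cH = cH := by
  unfold cH
  simp

/-- The Hadamard gate on one bit. -/
noncomputable def hadB : Matrix Bool Bool ℂ := fun a b =>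
  if a && b then -cH else cH

theorem hadB_conjTranspose : hadBᴴ = hadB := by
  ext a b
  rw [Matrix.conjTranspose_apply]
  unfold hadB
  cases a <;> cases b <;> simp only [Bool.and_true, Bool.and_false, Bool.false_eq_true,
    if_true, if_false, star_neg, cH_star]

theorem hadB_mul_self : hadB * hadB = 1 := by
  ext a b
  rw [Matrix.mul_apply, Fintype.sum_bool]
  unfold hadB
  have h := cH_mul
  cases a <;> cases b <;> simp only [Bool.and_true, Bool.and_false, Bool.false_and,
    Bool.true_and, if_true, if_false, Bool.false_eq_true, neg_mul, mul_neg, neg_neg] <;>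
    rw [h] <;> norm_num [Matrix.one_apply]

theorem hadB_mem : hadB ∈ Matrix.unitaryGroup Bool ℂ := by
  rw [Matrix.mem_unitaryGroup_iff, Matrix.star_eq_conjTranspose, hadB_conjTranspose,
    hadB_mul_self]

end Vale.Agent.P362
end
end

section

section

/-!
Bridge from the phase-query circuit model to the official query model `QuantComputes`.
-/

set_option linter.unusedSectionVars false
set_option linter.unusedSimpArgs false

namespace Vale.Agent.P362

open Matrix
open scoped Kronecker

theorem mul_embM_apply {α β γ : Type} [Fintype γ] [DecidableEq γ] (M : Matrix α γ ℂ)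
    (g : β → γ) (a : α) (b : β) : (M * embM g) a b = M a (g b) := by
  rw [Matrix.mul_apply, Finset.sum_eq_single (g b)]
  · simp [embM_apply]
  · intro t _ ht
    simp [embM_apply, ht]
  · simp only [Finset.mem_univ, not_true_eq_false, mul_eq_zero, IsEmpty.forall_iff]

theorem embM_mem {γ : Type} [Fintype γ] [DecidableEq γ] {σ : γ → γ}
    (hσ : Function.Injective σ) : embM σ ∈ Matrix.unitaryGroup γ ℂ := by
  rw [Matrix.mem_unitaryGroup_iff', Matrix.star_eq_conjTranspose, embM_star_mul hσ]

theorem oracle_mul_apply {ι : Type} [Fintype ι] [DecidableEq ι] {β : Type} (m : ℕ)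
    (x : ι → Bool) (M : Matrix (ι × Bool × Fin m) β ℂ) (a : ι × Bool × Fin m) (b : β) :
    (oracle m x * M) a b = M (a.1, xor a.2.1 (x a.1), a.2.2) b := by
  rw [Matrix.mul_apply, Finset.sum_eq_single (a.1, xor a.2.1 (x a.1), a.2.2)]
  · simp [oracle]
  · intro t _ ht
    have : ¬ (a = (t.1, xor t.2.1 (x t.1), t.2.2)) := by
      intro h
      apply ht
      rw [h]
      simp
    simp [oracle, this]
  · simp only [Finset.mem_univ, not_true_eq_false, mul_eq_zero, IsEmpty.forall_iff]

section sim

variable {ι : Type} [Fintype ι] [DecidableEq ι] {m : ℕ} (i0 : ι)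

/-- Hadamard on the answer register. -/
noncomputable def hadS (ι : Type) [DecidableEq ι] (m : ℕ) :
    Matrix (ι × Bool × Fin m) (ι × Bool × Fin m) ℂ :=
  (1 : Matrix ι ι ℂ) ⊗ₖ (hadB ⊗ₖ (1 : Matrix (Fin m) (Fin m) ℂ))

theorem hadS_mem : hadS ι m ∈ Matrix.unitaryGroup (ι × Bool × Fin m) ℂ :=
  Matrix.kronecker_mem_unitary (one_mem _) (Matrix.kronecker_mem_unitary hadB_mem (one_mem _))

/-- Move the query register from `i0` to the queried index and set the answer register. -/
def prepS (q : Fin m → Option ι) (s : ι × Bool × Fin m) : ι × Bool × Fin m :=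
  (Equiv.swap i0 ((q s.2.2).getD i0) s.1, xor s.2.1 (q s.2.2).isSome, s.2.2)

theorem prepS_injective (q : Fin m → Option ι) : Function.Injective (prepS i0 q) := by
  rintro ⟨i, b, z⟩ ⟨i', b', z'⟩ h
  simp only [prepS, Prod.mk.injEq] at h
  obtain ⟨h1, h2, h3⟩ := h
  subst h3
  have h1' := (Equiv.swap i0 ((q z).getD i0)).injective h1
  subst h1'
  have h2' : b = b' := by
    revert h2
    cases b <;> cases b' <;> cases (q z).isSome <;> simp
  subst h2'
  rfl

/-- The change of basis which turns the official query into a phase query. -/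
noncomputable def rotS (q : Fin m → Option ι) :
    Matrix (ι × Bool × Fin m) (ι × Bool × Fin m) ℂ :=
  hadS ι m * embM (prepS i0 q)

theorem rotS_mem (q : Fin m → Option ι) :
    rotS i0 q ∈ Matrix.unitaryGroup (ι × Bool × Fin m) ℂ :=
  mul_mem hadS_mem (embM_mem (prepS_injective i0 q))

/-- The rest position of the workspace basis state `z`. -/
def restS (z : Fin m) : ι × Bool × Fin m := (i0, false, z)

theorem restS_injective : Function.Injective (restS i0 : Fin m → ι × Bool × Fin m) := by
  intro z z' h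
  simpa [restS] using h

/-- The isometry onto the rest positions. -/
noncomputable def restM (m : ℕ) : Matrix (ι × Bool × Fin m) (Fin m) ℂ := embM (restS i0)

theorem rotS_restS (q : Fin m → Option ι) (a : ι × Bool × Fin m) (z : Fin m) :
    (rotS i0 q * restM i0 m) a z =
      if a.1 = (q z).getD i0 ∧ a.2.2 = z then hadB a.2.1 (q z).isSome else 0 := by
  rw [restM, mul_embM_apply, rotS, mul_embM_apply]
  obtain ⟨i, b, z'⟩ := a
  simp only [hadS, prepS, restS, Matrix.kroneckerMap_apply, Equiv.swap_apply_left,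
    Bool.false_xor, Matrix.one_apply]
  by_cases h1 : i = (q z).getD i0 <;> by_cases h2 : z' = z <;> simp [h1, h2]

theorem oracle_rotS (q : Fin m → Option ι) (x : ι → Bool) :
    oracle m x * (rotS i0 q * restM i0 m) =
      rotS i0 q * restM i0 m * phaseQ q x := by
  ext a z
  rw [oracle_mul_apply, phaseQ_eq, Matrix.mul_diagonal, rotS_restS, rotS_restS]
  obtain ⟨i, b, z'⟩ := a
  dsimp only
  by_cases h : i = (q z).getD i0 ∧ z' = z
  · rw [if_pos h, if_pos h]
    obtain ⟨h1, h2⟩ := h
    subst h2
    cases hq : q z' with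
    | none =>
      simp [hadB]
    | some v =>
      rw [hq] at h1
      simp only [Option.getD_some] at h1
      subst h1
      cases hx : x i <;> cases b <;> simp [hadB, hx]
  · rw [if_neg h, if_neg h, zero_mul]

end sim

theorem quantComputes_of_ach {ι : Type} [Fintype ι] [DecidableEq ι] [Nonempty ι]
    (f : (ι → Bool) → Bool) (T : ℕ) (μ : (ι → Bool) → Bool → ℝ) (hμ : Ach T μ)
    (h : ∀ x, 2 / 3 ≤ μ x (f x)) : QuantComputes f T := by
  obtain ⟨β, i1, i2, V, b0, out, hV, hout⟩ := hμ.toQDist
  obtain ⟨i0⟩ := ‹Nonempty ι›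
  -- transport to `Fin m`
  let m := Fintype.card β
  let φ : β ≃ Fin m := Fintype.equivFin β
  have hV' := hV.ext φ.injective
  obtain ⟨U, q, hU, hUq⟩ := hV'
  have hVφ : ∀ x b, seqP U q x T (φ b) (φ b0) = V x b b0 := by
    intro x b
    have hUq' : extM φ (V x) = seqP U q x T := hUq x
    rw [← hUq', ← mul_embM_apply (extM φ (V x)) φ (φ b) b0, extM_mul_embM φ.injective,
      Matrix.mul_apply, Finset.sum_eq_single b]
    · simp [embM_apply]
    · intro c _ hc
      have : ¬ (φ b = φ c) := fun h => hc (φ.injective h).symm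
      simp [embM_apply, this]
    · simp only [Finset.mem_univ, not_true_eq_false, mul_eq_zero, IsEmpty.forall_iff]
  let D : ℕ → Matrix (ι × Bool × Fin m) (ι × Bool × Fin m) ℂ := fun t =>
    if t < T then rotS i0 (q t) else 1
  have hD : ∀ t, D t ∈ Matrix.unitaryGroup (ι × Bool × Fin m) ℂ := by
    intro t
    simp only [D]
    split_ifs
    · exact rotS_mem i0 _
    · exact one_mem _
  let U' : ℕ → Matrix (ι × Bool × Fin m) (ι × Bool × Fin m) ℂ := fun t =>
    match t with
    | 0 => D 0 * extM (restS i0) (U 0)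
    | t + 1 => D (t + 1) * extM (restS i0) (U (t + 1)) * (rotS i0 (q t))ᴴ
  have hU' : ∀ t, U' t ∈ Matrix.unitaryGroup (ι × Bool × Fin m) ℂ := by
    intro t
    cases t with
    | zero => exact mul_mem (hD 0) (extM_mem (restS_injective i0) (hU 0))
    | succ t =>
      exact mul_mem (mul_mem (hD (t + 1)) (extM_mem (restS_injective i0) (hU (t + 1))))
        (conjTranspose_mem (rotS_mem i0 (q t)))
  let A : P362.QAlg ι :=
    { m := m
      U := fun t => ⟨U' t, hU' t⟩
      start := restS i0 (φ b0)
      out := fun s => out (φ.symm s.2.2) }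
  have hst : ∀ x, ∀ t ≤ T, A.state x t =
      (D t * (restM i0 m * seqP U q x t)).mulVec (Pi.single (φ b0) 1) := by
    intro x t ht
    induction t with
    | zero =>
      show (D 0 * extM (restS i0) (U 0)).mulVec (Pi.single (restS i0 (φ b0)) 1) = _
      funext s
      rw [mulVec_single_apply', mulVec_single_apply']
      have e1 : (D 0 * extM (restS i0) (U 0)) s (restS i0 (φ b0)) =
          (D 0 * extM (restS i0) (U 0) * restM i0 m) s (φ b0) :=
        (mul_embM_apply _ _ _ _).symm
      rw [e1, Matrix.mul_assoc, restM, extM_mul_embM (restS_injective i0)]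
      rfl
    | succ t ih =>
      have ih' := ih (by omega)
      have hDt : D t = rotS i0 (q t) := by
        simp only [D]
        rw [if_pos (by omega)]
      have h1 : (rotS i0 (q t))ᴴ * rotS i0 (q t) = 1 := by
        have := rotS_mem i0 (q t)
        rw [Matrix.mem_unitaryGroup_iff', Matrix.star_eq_conjTranspose] at this
        exact this
      have hmain : D (t + 1) * extM (restS i0) (U (t + 1)) * (rotS i0 (q t))ᴴ *
            (oracle m x * (rotS i0 (q t) * (restM i0 m * seqP U q x t)))
            = D (t + 1) * (restM i0 m * seqP U q x (t + 1)) := by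
        calc
          D (t + 1) * extM (restS i0) (U (t + 1)) * (rotS i0 (q t))ᴴ *
              (oracle m x * (rotS i0 (q t) * (restM i0 m * seqP U q x t)))
            = D (t + 1) * extM (restS i0) (U (t + 1)) * (rotS i0 (q t))ᴴ *
              ((oracle m x * (rotS i0 (q t) * restM i0 m)) * seqP U q x t) := by
              simp only [Matrix.mul_assoc]
          _ = D (t + 1) * extM (restS i0) (U (t + 1)) * (rotS i0 (q t))ᴴ *
              ((rotS i0 (q t) * restM i0 m * phaseQ (q t) x) * seqP U q x t) := by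
              rw [oracle_rotS]
          _ = D (t + 1) * (extM (restS i0) (U (t + 1)) * (((rotS i0 (q t))ᴴ * rotS i0 (q t)) *
              (restM i0 m * (phaseQ (q t) x * seqP U q x t)))) := by
              simp only [Matrix.mul_assoc]
          _ = D (t + 1) * ((extM (restS i0) (U (t + 1)) * restM i0 m) *
              (phaseQ (q t) x * seqP U q x t)) := by
              rw [h1, Matrix.one_mul]
              simp only [Matrix.mul_assoc]
          _ = D (t + 1) * (restM i0 m * seqP U q x (t + 1)) := by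
              rw [restM, extM_mul_embM (restS_injective i0)]
              simp only [Matrix.mul_assoc, seqP]
      have hstep : A.state x (t + 1) = (U' (t + 1)).mulVec ((oracle m x).mulVec
          (A.state x t)) := rfl
      rw [hstep, ih', hDt, ← hmain]
      rw [Matrix.mulVec_mulVec, Matrix.mulVec_mulVec, Matrix.mul_assoc]
  refine ⟨A, fun x => ?_⟩
  refine (h x).trans (le_of_eq ?_)
  rw [hout x (f x), QAlg.prob]
  have hfin : ∀ s : ι × Bool × Fin m, A.state x T s =
      if s.1 = i0 ∧ s.2.1 = false then V x (φ.symm s.2.2) b0 else 0 := by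
    intro s
    rw [hst x T le_rfl]
    have hDT : D T = 1 := by
      simp only [D]
      rw [if_neg (lt_irrefl T)]
    rw [hDT, Matrix.one_mul, mulVec_single_apply', Matrix.mul_apply]
    obtain ⟨i, b, z⟩ := s
    dsimp only
    rw [Finset.sum_eq_single z]
    · by_cases hc : i = i0 ∧ b = false
      · obtain ⟨rfl, rfl⟩ := hc
        have : seqP U q x T z (φ b0) = V x (φ.symm z) b0 := by
          rw [← hVφ x (φ.symm z), Equiv.apply_symm_apply]
        simp [restM, embM_apply, restS, this]
      · rw [if_neg hc, restM, embM_apply, if_neg, zero_mul]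
        intro h'
        apply hc
        simp only [restS, Prod.mk.injEq] at h'
        exact ⟨h'.1, h'.2.1⟩
    · intro z' _ hz'
      rw [restM, embM_apply, if_neg, zero_mul]
      intro h'
      apply hz'
      simp only [restS, Prod.mk.injEq] at h'
      exact h'.2.2.symm
    · simp only [Finset.mem_univ, not_true_eq_false, mul_eq_zero, IsEmpty.forall_iff]
  have hS : ∑ w : ι × Bool × Fin m, (if A.out w = f x then ‖A.state x T w‖ ^ 2 else 0) =
      ∑ z : Fin m, (if out (φ.symm z) = f x then ‖V x (φ.symm z) b0‖ ^ 2 else 0) := by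
    rw [Fintype.sum_prod_type, Finset.sum_eq_single i0]
    · rw [Fintype.sum_prod_type, Fintype.sum_bool]
      have h1 : ∀ z : Fin m, (if A.out (i0, true, z) = f x then ‖A.state x T (i0, true, z)‖ ^ 2
          else 0) = 0 := by
        intro z
        rw [hfin]
        simp
      simp only [h1, Finset.sum_const_zero, zero_add]
      refine Finset.sum_congr rfl fun z _ => ?_
      rw [hfin]
      simp [A]
    · intro i _ hi
      refine Finset.sum_eq_zero fun s _ => ?_
      rw [hfin]
      simp [hi]
    · simp only [Finset.mem_univ, not_true_eq_false, IsEmpty.forall_iff]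
  refine Eq.trans ?_ hS.symm
  have e2 := Equiv.sum_comp φ.symm (fun b => if out b = f x then ‖V x b b0‖ ^ 2 else 0)
  refine Eq.trans (Finset.sum_congr rfl fun z _ => ?_) e2.symm
  split_ifs <;> rfl

end Vale.Agent.P362
end
end

section

section

/-! Renaming the input positions: randomized and quantum query complexity are invariant. -/

namespace Vale.Agent.P362.Tr

open Matrix

variable {ι κ : Type}

/-! ### decision trees -/

/-- rename the variables of a tree -/
def mapT (e : ι → κ) : DT ι → DT κ
  | .leaf b => .leaf b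
  | .node i t0 t1 => .node (e i) (mapT e t0) (mapT e t1)

theorem mapT_eval (e : ι → κ) (t : DT ι) (y : κ → Bool) :
    (mapT e t).eval y = t.eval (fun i => y (e i)) := by
  induction t with
  | leaf b => rfl
  | node i t0 t1 h0 h1 => simp only [mapT, DT.eval_node, h1, h0]

theorem mapT_depth (e : ι → κ) (t : DT ι) : (mapT e t).depth = t.depth := by
  induction t with
  | leaf b => rfl
  | node i t0 t1 h0 h1 => simp only [mapT, DT.depth_node, h0, h1]

/-- randomized algorithms can be pulled back along a renaming of variables. -/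
theorem rand_pull (e : ι → κ) (f : (ι → Bool) → Bool) (g : (κ → Bool) → Bool)
    (hfg : ∀ x : κ → Bool, f (fun i => x (e i)) = g x) (T : ℕ) (h : RandComputes f T) :
    RandComputes g T := by
  obtain ⟨p, hp, hx⟩ := h
  refine ⟨p.map (mapT e), ?_, ?_⟩
  · intro t ht
    rw [PMF.support_map] at ht
    obtain ⟨t', ht', rfl⟩ := ht
    rw [mapT_depth]
    exact hp t' ht'
  · intro x
    rw [PMF.toOuterMeasure_map_apply]
    have hset : (mapT e) ⁻¹' {t | t.eval x = g x} = {t | t.eval (fun i => x (e i)) =
        f (fun i => x (e i))} := by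
      ext t
      simp only [Set.mem_preimage, Set.mem_ofPred_eq, mapT_eval, hfg]
    rw [hset]
    exact hx _

theorem rand_iff (e : ι ≃ κ) (f : (ι → Bool) → Bool) (T : ℕ) :
    RandComputes (fun y : κ → Bool => f (fun i => y (e i))) T ↔ RandComputes f T := by
  constructor
  · intro h
    refine rand_pull e.symm _ f ?_ T h
    intro x
    simp
  · intro h
    exact rand_pull e f _ (fun x => rfl) T h

theorem R_equiv (e : ι ≃ κ) (f : (ι → Bool) → Bool) :
    R (fun y : κ → Bool => f (fun i => y (e i))) = R f := by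
  unfold R
  congr 1
  ext T
  exact rand_iff e f T

/-! ### every function on finitely many bits has a decision tree -/

theorem exists_tree_aux [DecidableEq ι] (f : (ι → Bool) → Bool) :
    ∀ (S : Finset ι) (z : ι → Bool),
      ∃ t : DT ι, ∀ x : ι → Bool, (∀ i, i ∉ S → x i = z i) → t.eval x = f x := by
  intro S
  induction S using Finset.induction_on with
  | empty =>
    intro z
    refine ⟨.leaf (f z), fun x hx => ?_⟩
    have : x = z := funext fun i => hx i (Finset.notMem_empty i)
    rw [this]
    rfl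
  | insert a S ha ih =>
    intro z
    obtain ⟨t0, h0⟩ := ih (Function.update z a false)
    obtain ⟨t1, h1⟩ := ih (Function.update z a true)
    refine ⟨.node a t0 t1, fun x hx => ?_⟩
    rw [DT.eval_node]
    cases hxa : x a with
    | false =>
      simp only [Bool.false_eq_true, if_false]
      refine h0 x fun i hi => ?_
      by_cases hia : i = a
      · subst hia
        simp [hxa]
      · rw [Function.update_of_ne hia]
        exact hx i (by simp [hia, hi])
    | true =>
      simp only [if_true]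
      refine h1 x fun i hi => ?_
      by_cases hia : i = a
      · subst hia
        simp [hxa]
      · rw [Function.update_of_ne hia]
        exact hx i (by simp [hia, hi])

theorem exists_tree [Fintype ι] [DecidableEq ι] (f : (ι → Bool) → Bool) :
    ∃ t : DT ι, ∀ x, t.eval x = f x := by
  obtain ⟨t, ht⟩ := exists_tree_aux f Finset.univ (fun _ => false)
  exact ⟨t, fun x => ht x fun i hi => absurd (Finset.mem_univ i) hi⟩

theorem rand_of_tree (f : (ι → Bool) → Bool) (t : DT ι) (T : ℕ) (ht : t.depth ≤ T)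
    (h : ∀ x, t.eval x = f x) : RandComputes f T := by
  refine ⟨PMF.pure t, ?_, ?_⟩
  · intro t' ht'
    rw [PMF.support_pure, Set.mem_singleton_iff] at ht'
    rw [ht']
    exact ht
  · intro x
    rw [PMF.toOuterMeasure_pure_apply, if_pos (show t ∈ {t : DT ι | t.eval x = f x} from h x)]
    exact ENNReal.div_le_of_le_mul (by norm_num)

theorem exists_rand [Fintype ι] [DecidableEq ι] (f : (ι → Bool) → Bool) :
    ∃ T, RandComputes f T := by
  obtain ⟨t, ht⟩ := exists_tree f
  exact ⟨t.depth, rand_of_tree f t _ le_rfl ht⟩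

/-- the infimum in the definition of `R` is attained -/
theorem rand_R [Fintype ι] [DecidableEq ι] (f : (ι → Bool) → Bool) : RandComputes f (R f) :=
  Nat.sInf_mem (exists_rand f)

theorem Q_le [Fintype ι] [DecidableEq ι] {f : (ι → Bool) → Bool} {T : ℕ}
    (h : QuantComputes f T) : Q f ≤ T := Nat.sInf_le h

/-! ### quantum algorithms -/

section Quant

variable [DecidableEq ι] [DecidableEq κ]

/-- renaming of basis states -/
def ren (e : ι ≃ κ) (m : ℕ) : ι × Bool × Fin m ≃ κ × Bool × Fin m :=
  e.prodCongr (Equiv.refl _)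

theorem oracle_ren (e : ι ≃ κ) (m : ℕ) (y : κ → Bool) :
    oracle m y = (oracle m (fun i => y (e i))).submatrix (ren e m).symm (ren e m).symm := by
  ext a b
  obtain ⟨a1, a2, a3⟩ := a
  obtain ⟨b1, b2, b3⟩ := b
  simp only [oracle, Matrix.submatrix_apply, ren, Equiv.prodCongr_symm, Equiv.refl_symm,
    Equiv.prodCongr_apply, Prod.map, Equiv.refl_apply, Equiv.apply_symm_apply, Prod.mk.injEq,
    EmbeddingLike.apply_eq_iff_eq]

variable [Fintype ι] [Fintype κ]

theorem unitary_ren (e : ι ≃ κ) (m : ℕ) (U : Matrix.unitaryGroup (ι × Bool × Fin m) ℂ) :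
    (U.1.submatrix (ren e m).symm (ren e m).symm) ∈
      Matrix.unitaryGroup (κ × Bool × Fin m) ℂ := by
  rw [Matrix.mem_unitaryGroup_iff, Matrix.star_eq_conjTranspose, Matrix.conjTranspose_submatrix,
    Matrix.submatrix_mul_equiv, ← Matrix.star_eq_conjTranspose,
    Matrix.mem_unitaryGroup_iff.mp U.2, Matrix.submatrix_one_equiv]

/-- renamed algorithm -/
def algRen (e : ι ≃ κ) (A : QAlg ι) : QAlg κ where
  m := A.m
  U := fun t => ⟨(A.U t).1.submatrix (ren e A.m).symm (ren e A.m).symm, unitary_ren e A.m (A.U t)⟩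
  start := ren e A.m A.start
  out := fun w => A.out ((ren e A.m).symm w)

theorem state_ren (e : ι ≃ κ) (A : QAlg ι) (y : κ → Bool) (T : ℕ) :
    (algRen e A).state y T = A.state (fun i => y (e i)) T ∘ (ren e A.m).symm := by
  induction T with
  | zero =>
    change ((A.U 0).1.submatrix (ren e A.m).symm (ren e A.m).symm).mulVec
      (Pi.single (ren e A.m A.start) 1) =
      ((A.U 0).1.mulVec (Pi.single A.start 1)) ∘ (ren e A.m).symm
    rw [Matrix.submatrix_mulVec_equiv]
    congr 2
    funext w
    simp only [Function.comp, Equiv.symm_symm, Pi.single_apply, EmbeddingLike.apply_eq_iff_eq]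
  | succ T ih =>
    have h1 : (algRen e A).state y (T + 1) =
        ((A.U (T + 1)).1.submatrix (ren e A.m).symm (ren e A.m).symm).mulVec
          ((oracle A.m y).mulVec ((algRen e A).state y T)) := rfl
    have h2 : A.state (fun i => y (e i)) (T + 1) =
        (A.U (T + 1)).1.mulVec ((oracle A.m (fun i => y (e i))).mulVec
          (A.state (fun i => y (e i)) T)) := rfl
    have h3 : ∀ v : ι × Bool × Fin A.m → ℂ, (v ∘ (ren e A.m).symm) ∘ (ren e A.m).symm.symm = v := by
      intro v
      funext w
      simp only [Function.comp, Equiv.symm_symm, Equiv.symm_apply_apply]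
    rw [h1, ih, h2, oracle_ren e A.m y, Matrix.submatrix_mulVec_equiv,
      Matrix.submatrix_mulVec_equiv, h3, h3]

theorem prob_ren (e : ι ≃ κ) (A : QAlg ι) (y : κ → Bool) (T : ℕ) (b : Bool) :
    (algRen e A).prob T y b = A.prob T (fun i => y (e i)) b := by
  unfold QAlg.prob
  rw [state_ren]
  refine Fintype.sum_equiv (ren e A.m).symm _ _ fun w => ?_
  rfl

theorem quant_push (e : ι ≃ κ) (f : (ι → Bool) → Bool) (T : ℕ) (h : QuantComputes f T) :
    QuantComputes (fun y : κ → Bool => f (fun i => y (e i))) T := by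
  obtain ⟨A, hA⟩ := h
  refine ⟨algRen e A, fun y => ?_⟩
  rw [prob_ren]
  exact hA _

theorem quant_iff (e : ι ≃ κ) (f : (ι → Bool) → Bool) (T : ℕ) :
    QuantComputes (fun y : κ → Bool => f (fun i => y (e i))) T ↔ QuantComputes f T := by
  constructor
  · intro h
    have h2 := quant_push e.symm _ T h
    simpa using h2
  · exact quant_push e f T

theorem Q_equiv (e : ι ≃ κ) (f : (ι → Bool) → Bool) :
    Q (fun y : κ → Bool => f (fun i => y (e i))) = Q f := by
  unfold Q
  congr 1
  ext T
  exact quant_iff e f T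

end Quant

end Vale.Agent.P362.Tr
end
end

section

section

/-! Basic combinatorial / analytic objects for the lower bound (all internal). -/

namespace Vale.Agent.P362

/-- index set `{0,1}^n` of size `N = 2^n` -/
abbrev Idx (n : ℕ) := Fin n → Bool

/-- `true ↦ -1`, `false ↦ 1` -/
def sgZ (b : Bool) : ℤ := if b then -1 else 1

/-- real version of `sgZ` -/
noncomputable def sgR (b : Bool) : ℝ := if b then -1 else 1

/-- the character `(-1)^{⟨a,b⟩}` -/
def chi {n : ℕ} (a b : Idx n) : ℤ := ∏ t : Fin n, if (a t && b t) then -1 else 1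

/-- unnormalized Hadamard transform -/
def had {n : ℕ} (u : Idx n → ℤ) : Idx n → ℤ := fun z => ∑ y, chi z y * u y

/-- the unnormalized state after `s` stages: `φ_0 = 1`, `φ_{s+1} = H' (F^s · φ_s)` -/
def phi {n : ℕ} (F : ℕ → Idx n → Bool) : ℕ → Idx n → ℤ
  | 0 => fun _ => 1
  | s + 1 => had (fun y => sgZ (F s y) * phi F s y)

theorem phi_zero {n : ℕ} (F : ℕ → Idx n → Bool) : phi F 0 = fun _ => 1 := rfl
theorem phi_succ {n : ℕ} (F : ℕ → Idx n → Bool) (s : ℕ) :
    phi F (s + 1) = had (fun y => sgZ (F s y) * phi F s y) := rfl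

/-- data of one row: `k+1` blocks of `N` bits -/
abbrev Data (k n : ℕ) := Fin (k + 1) × Idx n → Bool

/-- extend the block index to `ℕ` -/
def extF {k n : ℕ} (F : Data k n) : ℕ → Idx n → Bool :=
  fun s i => if h : s < k + 1 then F (⟨s, h⟩, i) else false

/-- unnormalized output amplitude at `l` -/
def amp {k n : ℕ} (F : Data k n) (l : Idx n) : ℤ := phi (extF F) (k + 1) l

/-- normalized output amplitude `Φ_l = N^{-(k+2)/2} φ(l)` -/
noncomputable def Amp {k n : ℕ} (F : Data k n) (l : Idx n) : ℝ :=
  (amp F l : ℝ) / (Real.sqrt (2 ^ n)) ^ (k + 2)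

/-- entries of the normalized Hadamard matrix -/
noncomputable def KH {n : ℕ} (i j : Idx n) : ℝ := (chi i j : ℝ) / Real.sqrt (2 ^ n)

/-- latent variables: `k` vectors in `[-1/2,1/2]^N`; latent `s` (0-based) links block `s`
(through `v`) and block `s+1` (directly) -/
abbrev Lat (k n : ℕ) := Fin k × Idx n → ℝ

/-- `v_s(j) = (1/2) sin((K A_s)_j)` -/
noncomputable def vv {k n : ℕ} (A : Lat k n) (s : Fin k) (j : Idx n) : ℝ :=
  (1 / 2) * Real.sin (∑ i, KH j i * A (s, i))

/-- mean of bit `(s,i)` given the latents; the last block carries the factor `t * χ_l(i)` -/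
noncomputable def meanP {k n : ℕ} (l : Idx n) (t : ℝ) (A : Lat k n) :
    Fin (k + 1) × Idx n → ℝ := fun p =>
  (Fin.cases (motive := fun _ => ℝ) 1 (fun s => A (s, p.2)) p.1) *
  (Fin.lastCases (motive := fun _ => ℝ) (t * (chi l p.2 : ℝ)) (fun s => vv A s p.2) p.1)

/-- weight of `x` under the product measure on `{0,1}^V` with means `P` (of `sgR`) -/
noncomputable def pw {V : Type} [Fintype V] (P : V → ℝ) (x : V → Bool) : ℝ :=
  ∏ p, (1 + P p * sgR (x p)) / 2

/-- uniform probability measure on `[-1/2,1/2]` -/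
noncomputable def unif : MeasureTheory.Measure ℝ :=
  MeasureTheory.volume.restrict (Set.Icc (-1 / 2 : ℝ) (1 / 2))

/-- product measure on the latents -/
noncomputable def latM (k n : ℕ) : MeasureTheory.Measure (Lat k n) :=
  MeasureTheory.Measure.pi (fun _ => unif)

/-- the distribution `W_{l,t}` on the data of a row -/
noncomputable def Wt {k n : ℕ} (l : Idx n) (t : ℝ) (F : Data k n) : ℝ :=
  ∫ A, pw (meanP l t A) F ∂(latM k n)

/-- `∂_τ h~ (P)` where `τ` picks one variable in every block -/
noncomputable def dext {κ n : ℕ} (τ : Fin κ → Idx n) (h : (Fin κ × Idx n → Bool) → ℝ)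
    (P : Fin κ × Idx n → ℝ) : ℝ :=
  ∑ x, h x * ∏ p : Fin κ × Idx n,
    (if τ p.1 = p.2 then sgR (x p) / 2 else (1 + P p * sgR (x p)) / 2)

end Vale.Agent.P362
end
end

section

section

/-!
# P362: multilinear extensions and decision trees (common interface of the hardness block)
-/

namespace Vale.Agent.P362

open Finset

/-- sign of a bit: `false ↦ 1`, `true ↦ -1`. -/
def sg (b : Bool) : ℝ := if b then -1 else 1

@[simp] theorem sg_true : sg true = -1 := rfl
@[simp] theorem sg_false : sg false = 1 := rfl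

theorem abs_sg (b : Bool) : |sg b| = 1 := by cases b <;> simp

variable {V : Type*} [Fintype V] [DecidableEq V]

/-- multilinear extension: the expectation of `h x` when the bits `x v` are independent and
`sg (x v)` has mean `P v`. -/
noncomputable def mext (h : (V → Bool) → ℝ) (P : V → ℝ) : ℝ :=
  ∑ x : V → Bool, (∏ v, (1 + sg (x v) * P v) / 2) * h x

/-- mixed derivative of the multilinear extension in the variables of `T`. -/
noncomputable def dmext (T : Finset V) (h : (V → Bool) → ℝ) (P : V → ℝ) : ℝ :=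
  ∑ x : V → Bool, (∏ v, if v ∈ T then sg (x v) / 2 else (1 + sg (x v) * P v) / 2) * h x

theorem dmext_empty (h : (V → Bool) → ℝ) (P : V → ℝ) : dmext ∅ h P = mext h P := by
  simp only [dmext, notMem_empty, ↓reduceIte, prod_div_distrib, prod_const, card_univ, mext]

/-- the set `{(b, τ b) : b}` of variables attached to a tuple. -/
def tset {κ : ℕ} {I : Type*} [DecidableEq I] (τ : Fin κ → I) : Finset (Fin κ × I) :=
  univ.image fun b => (b, τ b)

/-- decision trees with real leaves over the variables `V`. -/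
inductive DTree (V : Type*) : Type _
  | leaf : ℝ → DTree V
  | node : V → DTree V → DTree V → DTree V

namespace DTree

variable {V : Type*}

end DTree

end Vale.Agent.P362
end
end

section

section

/-!
# P362: calculus of multilinear extensions
-/

namespace Vale.Agent.P362.Stn

open Finset

variable {V : Type*} [Fintype V] [DecidableEq V]

theorem continuous_dmext (T : Finset V) (h : (V → Bool) → ℝ) :
    Continuous fun P : V → ℝ => dmext T h P := by
  unfold dmext
  refine continuous_finsetSum _ fun x _ => (continuous_finsetProd _ fun v _ => ?_).mul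
    continuous_const
  split_ifs
  · exact continuous_const
  · fun_prop

theorem hasDerivAt_dmext (T : Finset V) (h : (V → Bool) → ℝ) {P : ℝ → V → ℝ} {P' : V → ℝ} {a : ℝ}
    (hP : ∀ v, HasDerivAt (fun t => P t v) (P' v) a) :
    HasDerivAt (fun t => dmext T h (P t))
      (∑ v, if v ∈ T then 0 else dmext (insert v T) h (P a) * P' v) a := by
  have hg : ∀ (x : V → Bool) (v : V), HasDerivAt
      (fun t => if v ∈ T then sg (x v) / 2 else (1 + sg (x v) * P t v) / 2)
      (if v ∈ T then 0 else sg (x v) / 2 * P' v) a := by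
    intro x v
    by_cases hv : v ∈ T
    · simp only [hv, if_true]
      exact hasDerivAt_const _ _
    · simp only [hv, if_false]
      have h1 := (((hP v).const_mul (sg (x v))).const_add 1).div_const 2
      exact h1.congr_deriv (by ring)
  have hsum : HasDerivAt (fun t => dmext T h (P t))
      (∑ x : V → Bool, (∑ v, (∏ w ∈ univ.erase v,
        (if w ∈ T then sg (x w) / 2 else (1 + sg (x w) * P a w) / 2)) •
          (if v ∈ T then (0 : ℝ) else sg (x v) / 2 * P' v)) * h x) a := by
    unfold dmext
    refine HasDerivAt.fun_sum fun x _ => HasDerivAt.mul_const ?_ (h x)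
    exact HasDerivAt.fun_finsetProd (u := univ)
      (f := fun v t => if v ∈ T then sg (x v) / 2 else (1 + sg (x v) * P t v) / 2)
      fun v _ => hg x v
  refine hsum.congr_deriv ?_
  simp only [Finset.sum_mul]
  rw [Finset.sum_comm]
  refine Finset.sum_congr rfl fun v _ => ?_
  by_cases hv : v ∈ T
  · simp only [hv, ↓reduceIte, smul_eq_mul, mul_zero, zero_mul, sum_const_zero]
  · simp only [hv, if_false]
    unfold dmext
    rw [Finset.sum_mul]
    refine Finset.sum_congr rfl fun x _ => ?_
    rw [← Finset.mul_prod_erase univ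
      (fun w => if w ∈ insert v T then sg (x w) / 2 else (1 + sg (x w) * P a w) / 2)
      (Finset.mem_univ v)]
    have hprod : ∏ w ∈ univ.erase v,
        (if w ∈ insert v T then sg (x w) / 2 else (1 + sg (x w) * P a w) / 2)
        = ∏ w ∈ univ.erase v,
        (if w ∈ T then sg (x w) / 2 else (1 + sg (x w) * P a w) / 2) := by
      refine Finset.prod_congr rfl fun w hw => ?_
      have hwv : w ≠ v := Finset.ne_of_mem_erase hw
      simp [Finset.mem_insert, hwv]
    rw [hprod]
    simp only [Finset.mem_insert_self, if_true, smul_eq_mul]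
    ring

end Vale.Agent.P362.Stn
end
end

section

section

/-!
# P362: recursion of the mixed derivatives of multilinear extensions along a queried variable
-/

open Finset

namespace Vale.Agent.P362.L1Aux

variable {V : Type*} [Fintype V] [DecidableEq V]

/-- probability of the bit `b` when the sign has mean `p` -/
noncomputable def pr (p : ℝ) (b : Bool) : ℝ := (1 + sg b * p) / 2

theorem sum_pr (p : ℝ) : ∑ b, pr p b = 1 := by simp only [Fintype.univ_bool, pr, mem_singleton, Bool.true_eq_false, not_false_eq_true, sum_insert, sg_true, neg_mul, one_mul, sum_singleton, sg_false]; ring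

theorem pr_nonneg {p : ℝ} (hp : |p| ≤ 1) (b : Bool) : 0 ≤ pr p b := by
  have := abs_le.1 hp
  cases b <;> simp [pr] <;> linarith

/-- splitting a sum over the cube along one coordinate -/
theorem sum_cube_split (v : V) (g : (V → Bool) → ℝ) :
    ∑ x, g x = ∑ b, (∑ x, g (Function.update x v b)) / 2 := by
  rw [Fintype.sum_bool]
  have h : ∀ b : Bool, ∑ x, g (Function.update x v b) = 2 * ∑ x with x v = b, g x := by
    intro b
    have h1 : ∑ x, g (Function.update x v b) =
        ∑ x with x v = b, g (Function.update x v b) + ∑ x with ¬ x v = b, g (Function.update x v b) :=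
      (sum_filter_add_sum_filter_not _ _ _).symm
    have h2 : ∑ x with x v = b, g (Function.update x v b) = ∑ x with x v = b, g x := by
      apply sum_congr rfl
      intro x hx
      rw [mem_filter] at hx
      rw [← hx.2, Function.update_eq_self]
    have h3 : ∑ x with ¬ x v = b, g (Function.update x v b) = ∑ x with x v = b, g x := by
      apply sum_nbij' (fun x => Function.update x v b) (fun x => Function.update x v (!b))
      · intro x hx; simp
      · intro x hx; simp
      · intro x hx
        rw [mem_filter] at hx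
        have : x v = !b := by
          cases hb : x v <;> cases b <;> simp_all
        rw [Function.update_idem, ← this, Function.update_eq_self]
      · intro x hx
        rw [mem_filter] at hx
        rw [Function.update_idem, ← hx.2, Function.update_eq_self]
      · intro x hx; rfl
    rw [h1, h2, h3]; ring
  rw [h, h]
  have h4 : ∑ x, g x = ∑ x with x v = true, g x + ∑ x with ¬ x v = true, g x :=
    (sum_filter_add_sum_filter_not _ _ _).symm
  rw [h4]
  simp only [Bool.not_eq_true]
  ring

theorem prod_update_split (v : V) (x : V → Bool) (b : Bool) (c : V → Bool → ℝ) :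
    ∏ u, c u (Function.update x v b u) = c v b * ∏ u ∈ univ.erase v, c u (x u) := by
  rw [← mul_prod_erase univ _ (mem_univ v)]
  congr 1
  · simp
  · apply prod_congr rfl
    intro u hu
    rw [Function.update_of_ne (ne_of_mem_erase hu)]

/-- restriction of a function -/
def restr (f : (V → Bool) → ℝ) (v : V) (b : Bool) : (V → Bool) → ℝ :=
  fun x => f (Function.update x v b)

omit [Fintype V] in
theorem restr_update (f : (V → Bool) → ℝ) (v : V) (b c : Bool) (x : V → Bool) :
    restr f v b (Function.update x v c) = restr f v b x := by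
  simp [restr]

/-- general weight sum -/
theorem sum_mul_prod_split (f : (V → Bool) → ℝ) (v : V) (c : V → Bool → ℝ) :
    ∑ x, (∏ u, c u (x u)) * f x =
      ∑ b, c v b * ((∑ x, (∏ u ∈ univ.erase v, c u (x u)) * restr f v b x) / 2) := by
  rw [sum_cube_split v]
  apply sum_congr rfl
  intro b _
  rw [← mul_div_assoc, mul_sum]
  congr 1
  apply sum_congr rfl
  intro x _
  rw [prod_update_split v x b c]
  simp only [restr]
  ring

/-- if `g` ignores `v` -/
theorem sum_ignore (g : (V → Bool) → ℝ) (v : V) (hg : ∀ x b, g (Function.update x v b) = g x)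
    (c : V → Bool → ℝ) :
    ∑ x, (∏ u, c u (x u)) * g x =
      (∑ b, c v b) * ((∑ x, (∏ u ∈ univ.erase v, c u (x u)) * g x) / 2) := by
  rw [sum_mul_prod_split g v c, sum_mul]
  apply sum_congr rfl
  intro b _
  have : restr g v b = g := by
    funext x; exact hg x b
  rw [this]

/-- the derivative in a direction which `g` ignores vanishes -/
theorem dmext_ignore (g : (V → Bool) → ℝ) (v : V) (hg : ∀ x b, g (Function.update x v b) = g x)
    (S : Finset V) (P : V → ℝ) (hv : v ∈ S) : dmext S g P = 0 := by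
  have := sum_ignore g v hg (fun u b => if u ∈ S then sg b / 2 else pr (P u) b)
  have h0 : ∑ b, (if v ∈ S then sg b / 2 else pr (P v) b) = 0 := by
    rw [Fintype.sum_bool]
    simp only [hv, ↓reduceIte, sg_true, sg_false, one_div]
    norm_num
  rw [h0, zero_mul] at this
  exact this

theorem dmext_restr_mem (f : (V → Bool) → ℝ) (v : V) (b : Bool) (S : Finset V) (P : V → ℝ)
    (hv : v ∈ S) : dmext S (restr f v b) P = 0 :=
  dmext_ignore _ v (fun x c => restr_update f v b c x) S P hv

/-- the basic recursion, `v ∉ S` -/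
theorem dmext_split_notMem (f : (V → Bool) → ℝ) (v : V) (S : Finset V) (P : V → ℝ)
    (hv : v ∉ S) : dmext S f P = ∑ b, pr (P v) b * dmext S (restr f v b) P := by
  have h1 := sum_mul_prod_split f v (fun u b => if u ∈ S then sg b / 2 else pr (P u) b)
  refine h1.trans ?_
  apply sum_congr rfl
  intro b _
  have h2 := sum_ignore (restr f v b) v (fun x c => restr_update f v b c x)
    (fun u b => if u ∈ S then sg b / 2 else pr (P u) b)
  have h3 : dmext S (restr f v b) P = _ := h2
  rw [h3]
  simp only [hv, if_false]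
  rw [sum_pr, one_mul]

/-- the basic recursion, `v ∈ S` -/
theorem dmext_split_mem (f : (V → Bool) → ℝ) (v : V) (S : Finset V) (P : V → ℝ)
    (hv : v ∈ S) : dmext S f P = ∑ b, sg b / 2 * dmext (S.erase v) (restr f v b) P := by
  have h1 := sum_mul_prod_split f v (fun u b => if u ∈ S then sg b / 2 else pr (P u) b)
  refine h1.trans ?_
  apply sum_congr rfl
  intro b _
  have h2 := sum_ignore (restr f v b) v (fun x c => restr_update f v b c x)
    (fun u b => if u ∈ S.erase v then sg b / 2 else pr (P u) b)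
  have h3 : dmext (S.erase v) (restr f v b) P = _ := h2
  rw [h3]
  simp only [hv, if_true, mem_erase, ne_eq, not_true_eq_false, false_and, if_false]
  rw [sum_pr, one_mul]
  congr 2
  apply sum_congr rfl
  intro x _
  congr 1
  apply prod_congr rfl
  intro u hu
  have := ne_of_mem_erase hu
  simp [this]

theorem dmext_const (c : ℝ) (S : Finset V) (P : V → ℝ) :
    dmext S (fun _ => c) P = if S = ∅ then c else 0 := by
  split_ifs with h
  · subst h
    rw [dmext_empty, mext]
    rw [← sum_mul]
    have : ∑ x : V → Bool, ∏ v, (1 + sg (x v) * P v) / 2 = ∏ v, ∑ b, pr (P v) b := by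
      rw [prod_univ_sum, Fintype.piFinset_univ]
      rfl
    rw [this, prod_congr rfl (fun v _ => sum_pr (P v))]
    simp only [prod_const_one, one_mul]
  · obtain ⟨v, hv⟩ := Finset.nonempty_of_ne_empty h
    exact dmext_ignore _ v (fun _ _ => rfl) S P hv

/-- decision tree depth as a predicate on bounded functions -/
inductive HasDepth : ℕ → ((V → Bool) → ℝ) → Prop
  | const (n : ℕ) (c : ℝ) (hc : |c| ≤ 1) : HasDepth n (fun _ => c)
  | query (n : ℕ) (f : (V → Bool) → ℝ) (v : V) (h : ∀ b, HasDepth n (restr f v b)) :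
      HasDepth (n + 1) f

omit [Fintype V] in
theorem HasDepth.restr {n : ℕ} {f : (V → Bool) → ℝ} (h : HasDepth n f) (v : V) (b : Bool) :
    HasDepth n (restr f v b) := by
  induction h generalizing v b with
  | const n c hc => exact HasDepth.const n c hc
  | query n f u h ih =>
    apply HasDepth.query n _ u
    intro c
    by_cases huv : u = v
    · subst huv
      have : Vale.Agent.P362.L1Aux.restr (Vale.Agent.P362.L1Aux.restr f u b) u c
          = Vale.Agent.P362.L1Aux.restr f u b := by
        funext x; simp [Vale.Agent.P362.L1Aux.restr]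
      rw [this]
      exact h b
    · have : Vale.Agent.P362.L1Aux.restr (Vale.Agent.P362.L1Aux.restr f v b) u c
          = Vale.Agent.P362.L1Aux.restr (Vale.Agent.P362.L1Aux.restr f u c) v b := by
        funext x
        simp only [Vale.Agent.P362.L1Aux.restr]
        rw [Function.update_comm huv]
      rw [this]
      exact ih c v b

omit [Fintype V] in
theorem HasDepth.mono {n m : ℕ} {f : (V → Bool) → ℝ} (h : HasDepth n f) (hnm : n ≤ m) :
    HasDepth m f := by
  induction h generalizing m with
  | const n c hc => exact HasDepth.const m c hc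
  | query n f u h ih =>
    obtain ⟨k, rfl⟩ : ∃ k, m = k + 1 := ⟨m - 1, by omega⟩
    exact HasDepth.query k f u fun b => ih b (by omega)

end Vale.Agent.P362.L1Aux
end
end

section

section

/-!
# P362: resampling one coordinate of a product measure, Stein identity for the uniform law
-/

namespace Vale.Agent.P362.Stn

open MeasureTheory Set

section Resample

variable {ι : Type*} [Fintype ι] [DecidableEq ι] {X : ι → Type*} [∀ i, MeasurableSpace (X i)]

omit [Fintype ι] in
theorem measurable_upd (i : ι) :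
    Measurable (fun p : (∀ j, X j) × X i => Function.update p.1 i p.2) := by
  refine measurable_pi_lambda _ fun j => ?_
  by_cases h : j = i
  · subst h
    simpa using measurable_snd
  · simp only [Function.update_of_ne h]
    exact (measurable_pi_apply j).comp measurable_fst

theorem measurePreserving_upd (μ : ∀ i, Measure (X i)) [∀ i, IsProbabilityMeasure (μ i)] (i : ι) :
    MeasurePreserving (fun p : (∀ j, X j) × X i => Function.update p.1 i p.2)
      ((Measure.pi μ).prod (μ i)) (Measure.pi μ) := by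
  refine ⟨measurable_upd i, ?_⟩
  symm
  refine Measure.pi_eq fun s hs => ?_
  rw [Measure.map_apply (measurable_upd i) (MeasurableSet.univ_pi hs)]
  have hpre : (fun p : (∀ j, X j) × X i => Function.update p.1 i p.2) ⁻¹' (univ.pi s)
      = (univ.pi (Function.update s i univ)) ×ˢ (s i) := by
    ext p
    simp only [mem_preimage, mem_pi, mem_univ, true_imp_iff, mem_prod]
    constructor
    · intro h
      refine ⟨fun j => ?_, ?_⟩
      · by_cases hj : j = i
        · subst hj; simp
        · have := h j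
          rw [Function.update_of_ne hj] at this ⊢
          exact this
      · have := h i
        simpa using this
    · rintro ⟨h1, h2⟩ j
      by_cases hj : j = i
      · subst hj; simpa using h2
      · have := h1 j
        rw [Function.update_of_ne hj] at this ⊢
        exact this
  rw [hpre, Measure.prod_prod, Measure.pi_pi]
  rw [← Finset.mul_prod_erase Finset.univ (fun j => μ j (Function.update s i univ j))
    (Finset.mem_univ i), ← Finset.mul_prod_erase Finset.univ (fun j => μ j (s j))
    (Finset.mem_univ i)]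
  simp only [Function.update_self, measure_univ, one_mul]
  rw [mul_comm]
  congr 1
  refine Finset.prod_congr rfl fun j hj => ?_
  rw [Function.update_of_ne (Finset.ne_of_mem_erase hj)]

theorem integral_resample (μ : ∀ i, Measure (X i)) [∀ i, IsProbabilityMeasure (μ i)] (i : ι)
    {F : (∀ j, X j) → ℝ} (hF : Integrable F (Measure.pi μ)) :
    ∫ A, F A ∂(Measure.pi μ)
      = ∫ A, ∫ a, F (Function.update A i a) ∂(μ i) ∂(Measure.pi μ) := by
  have mp := measurePreserving_upd μ i
  have h1 : ∫ A, F A ∂(Measure.pi μ)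
      = ∫ p : (∀ j, X j) × X i, F (Function.update p.1 i p.2) ∂((Measure.pi μ).prod (μ i)) := by
    conv_lhs => rw [← mp.map_eq]
    rw [integral_map mp.aemeasurable]
    rw [mp.map_eq]
    exact hF.aestronglyMeasurable
  rw [h1, integral_prod]
  exact (mp.integrable_comp hF.aestronglyMeasurable).2 hF

end Resample

/-- uniform law on `[-1/2, 1/2]`. -/
noncomputable def nu : Measure ℝ := volume.restrict (Icc (-(1/2) : ℝ) (1/2))

instance : IsProbabilityMeasure nu := by
  constructor
  rw [nu, Measure.restrict_apply_univ, Real.volume_Icc]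
  norm_num

theorem ae_nu : ∀ᵐ a ∂nu, a ∈ Icc (-(1/2) : ℝ) (1/2) :=
  ae_restrict_mem measurableSet_Icc

theorem integral_nu (g : ℝ → ℝ) : ∫ a, g a ∂nu = ∫ a in (-(1/2) : ℝ)..(1/2), g a := by
  rw [nu, intervalIntegral.integral_of_le (by norm_num), integral_Icc_eq_integral_Ioc]

/-- the Stein kernel of the uniform law on `[-1/2, 1/2]`. -/
noncomputable def kk (a : ℝ) : ℝ := 1/8 - a^2/2

theorem continuous_kk : Continuous kk := by unfold kk; fun_prop

theorem kk_nonneg {a : ℝ} (h : a ∈ Icc (-(1/2) : ℝ) (1/2)) : 0 ≤ kk a := by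
  unfold kk; nlinarith only [h.1, h.2]

theorem kk_le (a : ℝ) : kk a ≤ 1/8 := by
  unfold kk; nlinarith [sq_nonneg a]

theorem stein_one {g g' : ℝ → ℝ} (hg : ∀ a, HasDerivAt g (g' a) a) (hg' : Continuous g') :
    ∫ a, a * g a ∂nu = ∫ a, kk a * g' a ∂nu := by
  rw [integral_nu, integral_nu]
  have hk : ∀ a, HasDerivAt kk (-a) a := by
    intro a
    have h := ((hasDerivAt_pow 2 a).div_const 2).const_sub (1/8)
    have h2 : HasDerivAt (fun x : ℝ => 1/8 - x^2/2) (-a) a := h.congr_deriv (by norm_num)
    exact h2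
  have hgc : Continuous g := continuous_iff_continuousAt.2 fun a => (hg a).continuousAt
  have h := intervalIntegral.integral_mul_deriv_eq_deriv_mul (a := -(1/2)) (b := 1/2)
    (u := kk) (u' := fun a => -a) (v := g) (v' := g')
    (fun x _ => hk x) (fun x _ => hg x)
    (continuous_neg.intervalIntegrable _ _) (hg'.intervalIntegrable _ _)
  rw [h]
  have e1 : kk (1/2) = 0 := by unfold kk; norm_num
  have e2 : kk (-(1/2)) = 0 := by unfold kk; norm_num
  rw [e1, e2]
  simp only [neg_mul, intervalIntegral.integral_neg]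
  ring

end Vale.Agent.P362.Stn
end
end

section

section

/-!
# P362: layered latent variables with the uniform law, and the Stein identity for one of them
-/

namespace Vale.Agent.P362.Stn

open MeasureTheory Set

variable {κ : ℕ} {I : Type*} [Fintype I]

/-- law of one layer of latent variables. -/
noncomputable def muI (I : Type*) [Fintype I] : Measure (I → ℝ) := Measure.pi fun _ => nu

instance : IsProbabilityMeasure (muI I) := by unfold muI; infer_instance

/-- law of all latent variables. -/
noncomputable def muA (κ : ℕ) (I : Type*) [Fintype I] : Measure (Fin κ → I → ℝ) :=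
  Measure.pi fun _ => muI I

instance : IsProbabilityMeasure (muA κ I) := by unfold muA; infer_instance

theorem ae_muI : ∀ᵐ A ∂(muI I), ∀ i, A i ∈ Icc (-(1/2) : ℝ) (1/2) := by
  rw [ae_all_iff]
  intro i
  have mp := measurePreserving_eval (fun _ : I => nu) i
  exact mp.quasiMeasurePreserving.ae ae_nu

theorem ae_muA : ∀ᵐ A ∂(muA κ I), ∀ s i, A s i ∈ Icc (-(1/2) : ℝ) (1/2) := by
  rw [ae_all_iff]
  intro s
  have mp := measurePreserving_eval (fun _ : Fin κ => muI I) s
  exact mp.quasiMeasurePreserving.ae ae_muI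

/-- the cube of admissible values of the latent variables. -/
def cube (κ : ℕ) (I : Type*) : Set (Fin κ → I → ℝ) :=
  {A | ∀ s i, A s i ∈ Icc (-(1/2) : ℝ) (1/2)}

omit [Fintype I] in
theorem isCompact_cube : IsCompact (cube κ I) := by
  have : cube κ I = univ.pi fun _ : Fin κ => univ.pi fun _ : I => Icc (-(1/2) : ℝ) (1/2) := by
    ext A
    simp only [cube, mem_ofPred_eq, mem_pi, mem_univ, true_imp_iff]
  rw [this]
  exact isCompact_univ_pi fun _ => isCompact_univ_pi fun _ => isCompact_Icc

theorem ae_cube : ∀ᵐ A ∂(muA κ I), A ∈ cube κ I := ae_muA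

theorem integrable_muA {F : (Fin κ → I → ℝ) → ℝ} (hF : Continuous F) :
    Integrable F (muA κ I) := by
  obtain ⟨C, hC⟩ := isCompact_cube.exists_bound_of_continuousOn (hF.continuousOn (s := cube κ I))
  refine Integrable.of_bound hF.aestronglyMeasurable C ?_
  filter_upwards [ae_cube] with A hA using hC A hA

theorem integrable_muI {F : (I → ℝ) → ℝ} (hF : Continuous F) :
    Integrable F (muI I) := by
  have hc : IsCompact (univ.pi fun _ : I => Icc (-(1/2) : ℝ) (1/2)) :=
    isCompact_univ_pi fun _ => isCompact_Icc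
  obtain ⟨C, hC⟩ := hc.exists_bound_of_continuousOn (hF.continuousOn)
  refine Integrable.of_bound hF.aestronglyMeasurable C ?_
  filter_upwards [ae_muI] with A hA using hC A (fun i _ => hA i)

variable [DecidableEq I]

/-- replace the latent variable `(s, i)` by `a`. -/
def upd (A : Fin κ → I → ℝ) (s : Fin κ) (i : I) (a : ℝ) : Fin κ → I → ℝ :=
  Function.update A s (Function.update (A s) i a)

omit [Fintype I] in
@[simp] theorem upd_same (A : Fin κ → I → ℝ) (s : Fin κ) (i : I) (a : ℝ) :
    upd A s i a s i = a := by simp [upd]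

omit [Fintype I] in
theorem upd_self (A : Fin κ → I → ℝ) (s : Fin κ) (i : I) : upd A s i (A s i) = A := by
  simp [upd]

omit [Fintype I] in
theorem upd_ne (A : Fin κ → I → ℝ) {s r : Fin κ} (i : I) (a : ℝ) (h : r ≠ s) :
    upd A s i a r = A r := by simp [upd, Function.update_of_ne h]

omit [Fintype I] in
theorem upd_layer (A : Fin κ → I → ℝ) (s : Fin κ) (i : I) (a : ℝ) :
    upd A s i a s = Function.update (A s) i a := by simp [upd]

omit [Fintype I] in
@[simp] theorem upd_upd (A : Fin κ → I → ℝ) (s : Fin κ) (i : I) (a b : ℝ) :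
    upd (upd A s i a) s i b = upd A s i b := by simp [upd]

omit [Fintype I] in
theorem continuous_upd (s : Fin κ) (i : I) :
    Continuous fun p : (Fin κ → I → ℝ) × ℝ => upd p.1 s i p.2 := by
  unfold upd
  exact continuous_fst.update s
    (((continuous_apply s).comp continuous_fst).update i continuous_snd)

theorem integral_upd {F : (Fin κ → I → ℝ) → ℝ} (hF : Continuous F) (s : Fin κ) (i : I) :
    ∫ A, F A ∂(muA κ I) = ∫ A, ∫ a, F (upd A s i a) ∂nu ∂(muA κ I) := by
  have h1 : ∫ A, F A ∂(muA κ I)
      = ∫ A, ∫ B, F (Function.update A s B) ∂(muI I) ∂(muA κ I) := by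
    unfold muA
    exact integral_resample (fun _ : Fin κ => muI I) s (integrable_muA hF)
  have h2 : ∀ A : Fin κ → I → ℝ, ∫ B, F (Function.update A s B) ∂(muI I)
      = ∫ B, ∫ a, F (Function.update A s (Function.update B i a)) ∂nu ∂(muI I) := by
    intro A
    have hc : Continuous fun B : I → ℝ => F (Function.update A s B) :=
      hF.comp (continuous_const.update s continuous_id)
    unfold muI
    exact integral_resample (fun _ : I => nu) i (integrable_muI hc)
  -- the inner integral as a function of the full latent vector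
  have hH : Continuous fun A : Fin κ → I → ℝ => ∫ a, F (upd A s i a) ∂nu := by
    unfold nu
    have := continuous_parametric_integral_of_continuous
      (f := fun (A : Fin κ → I → ℝ) (a : ℝ) => F (upd A s i a))
      (μ := volume) (s := Icc (-(1/2) : ℝ) (1/2))
      (by
        have := hF.comp (continuous_upd (κ := κ) (I := I) s i)
        exact this) isCompact_Icc
    exact this
  have h3 : ∫ A, (∫ a, F (upd A s i a) ∂nu) ∂(muA κ I)
      = ∫ A, ∫ B, (∫ a, F (upd (Function.update A s B) s i a) ∂nu) ∂(muI I) ∂(muA κ I) := by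
    unfold muA
    exact integral_resample (fun _ : Fin κ => muI I) s (integrable_muA hH)
  rw [h1, h3]
  refine integral_congr_ae (Filter.Eventually.of_forall fun A => ?_)
  simp only
  rw [h2]
  simp [upd]

theorem stein_muA {F F' : (Fin κ → I → ℝ) → ℝ} (hF : Continuous F) (hF' : Continuous F')
    (s : Fin κ) (i : I)
    (hd : ∀ A, HasDerivAt (fun a => F (upd A s i a)) (F' A) (A s i)) :
    ∫ A, A s i * F A ∂(muA κ I) = ∫ A, kk (A s i) * F' A ∂(muA κ I) := by
  have hc : Continuous fun A : Fin κ → I → ℝ => A s i := by fun_prop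
  rw [integral_upd (F := fun A => A s i * F A) (hc.mul hF) s i,
    integral_upd (F := fun A => kk (A s i) * F' A) ((continuous_kk.comp hc).mul hF') s i]
  refine integral_congr_ae (Filter.Eventually.of_forall fun A => ?_)
  simp only [upd_same]
  refine stein_one (g := fun a => F (upd A s i a)) (g' := fun a => F' (upd A s i a))
    (fun a => ?_) ?_
  · have := hd (upd A s i a)
    simpa using this
  · exact hF'.comp ((continuous_upd s i).comp (by fun_prop : Continuous fun a : ℝ => (A, a)))

end Vale.Agent.P362.Stn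
end
end

section

section

/-!
# P362: the layered distribution and the iterated Stein identity
-/

namespace Vale.Agent.P362.Stn

open MeasureTheory Finset

variable {m : ℕ} {I : Type*} [Fintype I]

/-- half the sine of the linear form. -/
noncomputable def sl (K : I → I → ℝ) (a : I → ℝ) (j : I) : ℝ := Real.sin (∑ i, K j i * a i) / 2

/-- half the cosine of the linear form. -/
noncomputable def cl (K : I → I → ℝ) (a : I → ℝ) (j : I) : ℝ := Real.cos (∑ i, K j i * a i) / 2

/-- first factor of the mean: the latent variable of the own layer (none in layer `0`). -/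
def alpha (A : Fin (m + 1) → I → ℝ) (b : Fin (m + 1)) (i : I) : ℝ := if b = 0 then 1 else A b i

/-- second factor of the mean: a smooth function of the next layer (`u` in the last layer). -/
noncomputable def beta (K : I → I → ℝ) (u : I → ℝ) (A : Fin (m + 1) → I → ℝ) (b : Fin (m + 1))
    (i : I) : ℝ :=
  if h : (b : ℕ) + 1 < m + 1 then sl K (A ⟨b + 1, h⟩) i else u i

/-- the means of the signs given the latent variables. -/
noncomputable def meanP (K : I → I → ℝ) (u : I → ℝ) (A : Fin (m + 1) → I → ℝ)
    (v : Fin (m + 1) × I) : ℝ :=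
  alpha A v.1 v.2 * beta K u A v.1 v.2

theorem beta_castSucc (K : I → I → ℝ) (u : I → ℝ) (A : Fin (m + 1) → I → ℝ) (r : Fin m) (i : I) :
    beta K u A r.castSucc i = sl K (A r.succ) i := by
  unfold beta
  have h : ((r.castSucc : Fin (m + 1)) : ℕ) + 1 < m + 1 := by simp
  rw [dif_pos h]
  rfl

theorem beta_last (K : I → I → ℝ) (u : I → ℝ) (A : Fin (m + 1) → I → ℝ) (i : I) :
    beta K u A (Fin.last m) i = u i := by
  unfold beta
  rw [dif_neg (by simp)]

theorem continuous_sl (K : I → I → ℝ) (j : I) : Continuous fun a : I → ℝ => sl K a j := by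
  unfold sl; fun_prop

theorem continuous_cl (K : I → I → ℝ) (j : I) : Continuous fun a : I → ℝ => cl K a j := by
  unfold cl; fun_prop

omit [Fintype I] in
theorem continuous_alpha (b : Fin (m + 1)) (i : I) :
    Continuous fun A : Fin (m + 1) → I → ℝ => alpha A b i := by
  unfold alpha
  split_ifs
  · exact continuous_const
  · fun_prop

theorem continuous_beta (K : I → I → ℝ) (b : Fin (m + 1)) (i : I) :
    Continuous fun p : (I → ℝ) × (Fin (m + 1) → I → ℝ) => beta K p.1 p.2 b i := by
  unfold beta
  split_ifs with h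
  · exact (continuous_sl K i).comp ((continuous_apply _).comp continuous_snd)
  · fun_prop

theorem continuous_meanP (K : I → I → ℝ) :
    Continuous fun p : (I → ℝ) × (Fin (m + 1) → I → ℝ) => meanP K p.1 p.2 := by
  unfold meanP
  exact continuous_pi fun v => ((continuous_alpha v.1 v.2).comp continuous_snd).mul
    (continuous_beta K v.1 v.2)

theorem continuous_meanP' (K : I → I → ℝ) (u : I → ℝ) :
    Continuous fun A : Fin (m + 1) → I → ℝ => meanP K u A :=
  (continuous_meanP K).comp (by fun_prop : Continuous fun A : Fin (m + 1) → I → ℝ => (u, A))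

variable [DecidableEq I]

/-- the derivative of the means with respect to the latent variable `(r.succ, i)`. -/
noncomputable def dP (K : I → I → ℝ) (u : I → ℝ) (A : Fin (m + 1) → I → ℝ) (r : Fin m) (i : I)
    (v : Fin (m + 1) × I) : ℝ :=
  if v = (r.succ, i) then beta K u A r.succ i
  else if v.1 = r.castSucc then alpha A r.castSucc v.2 * (cl K (A r.succ) v.2 * K v.2 i)
  else 0

theorem beta_upd (K : I → I → ℝ) (u : I → ℝ) (A : Fin (m + 1) → I → ℝ) (r : Fin m) (i j : I)
    (a : ℝ) (b : Fin (m + 1)) (hb : b ≠ r.castSucc) :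
    beta K u (upd A r.succ i a) b j = beta K u A b j := by
  unfold beta
  split_ifs with h
  · rw [upd_ne]
    intro h2
    apply hb
    have h3 := congrArg Fin.val h2
    simp only [Fin.val_succ] at h3
    ext
    simp only [Fin.val_castSucc]
    omega
  · rfl

theorem hasDerivAt_meanP (K : I → I → ℝ) (u : I → ℝ) (A : Fin (m + 1) → I → ℝ) (r : Fin m) (i : I)
    (v : Fin (m + 1) × I) :
    HasDerivAt (fun a => meanP K u (upd A r.succ i a) v) (dP K u A r i v) (A r.succ i) := by
  obtain ⟨b, j⟩ := v
  have hsc : r.castSucc ≠ r.succ := (Fin.castSucc_lt_succ).ne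
  by_cases hb : b = r.succ
  · subst hb
    have hbeta : ∀ a, beta K u (upd A r.succ i a) r.succ j = beta K u A r.succ j :=
      fun a => beta_upd K u A r i j a r.succ (Ne.symm hsc)
    have halpha : ∀ a, alpha (upd A r.succ i a) r.succ j = if j = i then a else A r.succ j := by
      intro a
      unfold alpha
      rw [if_neg (Fin.succ_ne_zero r), upd_layer]
      by_cases hj : j = i
      · subst hj; simp
      · simp [hj]
    have hfun : (fun a => meanP K u (upd A r.succ i a) (r.succ, j))
        = fun a => (if j = i then a else A r.succ j) * beta K u A r.succ j := by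
      funext a
      unfold meanP
      simp only
      rw [hbeta, halpha]
    rw [hfun]
    by_cases hj : j = i
    · subst hj
      simp only [if_true, dP]
      exact ((hasDerivAt_id _).mul_const _).congr_deriv (one_mul _)
    · simp only [hj, if_false, dP]
      have h1 : ¬ ((r.succ, j) = (r.succ, i)) := by
        intro h; exact hj (Prod.mk.inj h).2
      rw [if_neg h1, if_neg (Ne.symm hsc)]
      exact hasDerivAt_const _ _
  · have halpha : ∀ a, alpha (upd A r.succ i a) b j = alpha A b j := by
      intro a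
      unfold alpha
      rw [upd_ne _ _ _ hb]
    have h1 : ¬ ((b, j) = (r.succ, i)) := by
      intro h; exact hb (Prod.mk.inj h).1
    by_cases hb2 : b = r.castSucc
    · subst hb2
      have hfun : (fun a => meanP K u (upd A r.succ i a) (r.castSucc, j))
          = fun a => alpha A r.castSucc j * sl K (Function.update (A r.succ) i a) j := by
        funext a
        unfold meanP
        simp only
        rw [halpha, beta_castSucc, upd_layer]
      rw [hfun]
      unfold dP
      rw [if_neg h1, if_pos rfl]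
      refine HasDerivAt.const_mul _ ?_
      unfold sl cl
      have hlin : HasDerivAt (fun a => ∑ k, K j k * Function.update (A r.succ) i a k)
          (K j i) (A r.succ i) := by
        have h2 : ∀ k ∈ (univ : Finset I), HasDerivAt
            (fun a => K j k * Function.update (A r.succ) i a k)
            (if k = i then K j i else 0) (A r.succ i) := by
          intro k _
          by_cases hk : k = i
          · subst hk
            simp only [Function.update_self, if_true]
            exact ((hasDerivAt_id _).const_mul _).congr_deriv (mul_one _)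
          · simp only [Function.update_of_ne hk, hk, if_false]
            exact hasDerivAt_const _ _
        have h3 := HasDerivAt.fun_sum h2
        refine h3.congr_deriv ?_
        simp only [sum_ite_eq', mem_univ, ↓reduceIte]
      have h4 := (hlin.sin).div_const 2
      refine h4.congr_deriv ?_
      rw [Function.update_eq_self]
      ring
    · have hfun : (fun a => meanP K u (upd A r.succ i a) (b, j))
          = fun _ => meanP K u A (b, j) := by
        funext a
        unfold meanP
        simp only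
        rw [halpha, beta_upd K u A r i j a b hb2]
      rw [hfun]
      unfold dP
      rw [if_neg h1, if_neg hb2]
      exact hasDerivAt_const _ _

theorem sum_dmext_dP (K : I → I → ℝ) (u : I → ℝ) (A : Fin (m + 1) → I → ℝ) (r : Fin m) (i : I)
    (T : Finset (Fin (m + 1) × I)) (hT : (r.succ, i) ∈ T) (hT' : ∀ j, (r.castSucc, j) ∉ T)
    (f : Fin (m + 1) × I → ℝ) :
    (∑ v, if v ∈ T then 0 else f v * dP K u A r i v)
      = ∑ j, f (r.castSucc, j) * (alpha A r.castSucc j * (cl K (A r.succ) j * K j i)) := by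
  rw [Fintype.sum_prod_type]
  rw [Finset.sum_eq_single r.castSucc]
  · refine Finset.sum_congr rfl fun j _ => ?_
    rw [if_neg (hT' j)]
    unfold dP
    have h1 : ¬ ((r.castSucc, j) = (r.succ, i)) := by
      intro h
      exact absurd (Prod.mk.inj h).1 (Fin.castSucc_lt_succ).ne
    rw [if_neg h1, if_pos rfl]
  · intro b _ hb
    refine Finset.sum_eq_zero fun j _ => ?_
    by_cases hv : (b, j) ∈ T
    · rw [if_pos hv]
    · rw [if_neg hv]
      unfold dP
      have h1 : ¬ ((b, j) = (r.succ, i)) := by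
        intro h; rw [h] at hv; exact hv hT
      rw [if_neg h1, if_neg hb, mul_zero]
  · intro h; exact absurd (Finset.mem_univ _) h

/-- One Stein step. -/
theorem stein_step (K : I → I → ℝ) (u : I → ℝ) (h : (Fin (m + 1) × I → Bool) → ℝ)
    (r : Fin m) (i : I) (T : Finset (Fin (m + 1) × I)) (hT : (r.succ, i) ∈ T)
    (hT' : ∀ j, (r.castSucc, j) ∉ T) {c : (Fin (m + 1) → I → ℝ) → ℝ} (hc : Continuous c)
    (hc' : ∀ A a, c (upd A r.succ i a) = c A) :
    ∫ A, A r.succ i * (c A * dmext T h (meanP K u A)) ∂(muA (m + 1) I)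
      = ∑ j, ∫ A, (c A * (kk (A r.succ i) * (cl K (A r.succ) j * K j i))) *
          alpha A r.castSucc j * dmext (insert (r.castSucc, j) T) h (meanP K u A)
          ∂(muA (m + 1) I) := by
  have hcm := continuous_meanP' (m := m) K u
  have hF : Continuous fun A : Fin (m + 1) → I → ℝ => c A * dmext T h (meanP K u A) :=
    hc.mul ((continuous_dmext T h).comp hcm)
  have hterm : ∀ j, Continuous fun A : Fin (m + 1) → I → ℝ =>
      dmext (insert (r.castSucc, j) T) h (meanP K u A) *
        (alpha A r.castSucc j * (cl K (A r.succ) j * K j i)) := by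
    intro j
    exact ((continuous_dmext _ h).comp hcm).mul ((continuous_alpha _ _).mul
      (((continuous_cl K j).comp (continuous_apply _)).mul continuous_const))
  have hF' : Continuous fun A : Fin (m + 1) → I → ℝ => c A *
      ∑ j, dmext (insert (r.castSucc, j) T) h (meanP K u A) *
        (alpha A r.castSucc j * (cl K (A r.succ) j * K j i)) :=
    hc.mul (continuous_finsetSum _ fun j _ => hterm j)
  have key := stein_muA hF hF' r.succ i (fun A => by
    have h1 := hasDerivAt_dmext T h (P := fun a => meanP K u (upd A r.succ i a))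
      (P' := dP K u A r i) (a := A r.succ i) (hasDerivAt_meanP K u A r i)
    have h2 := h1.const_mul (c A)
    rw [upd_self, sum_dmext_dP K u A r i T hT hT'
      (fun v => dmext (insert v T) h (meanP K u A))] at h2
    simpa only [hc'] using h2)
  rw [key, ← integral_finsetSum]
  · refine integral_congr_ae (Filter.Eventually.of_forall fun A => ?_)
    simp only
    rw [Finset.mul_sum, Finset.mul_sum]
    refine Finset.sum_congr rfl fun j _ => ?_
    ring
  · intro j _
    refine integrable_muA ?_
    refine ((hc.mul ((continuous_kk.comp (by fun_prop)).mul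
      (((continuous_cl K j).comp (continuous_apply _)).mul continuous_const))).mul
      (continuous_alpha _ _)).mul ((continuous_dmext _ h).comp hcm)

end Vale.Agent.P362.Stn
end
end

section

section

/-!
# P362: the iterated Stein identity and the resulting bound on the advantage
-/

namespace Vale.Agent.P362.Stn

open MeasureTheory Finset

theorem sum_sum_update {ι J : Type*} [Fintype ι] [DecidableEq ι] [Fintype J] (b : ι)
    (G : (ι → J) → ℝ) :
    ∑ τ : ι → J, ∑ j : J, G (Function.update τ b j) = (Fintype.card J : ℝ) * ∑ τ : ι → J, G τ := by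
  classical
  let φ : (ι → J) × J → (ι → J) × J := fun p => (Function.update p.1 b p.2, p.1 b)
  have hφ : Function.Involutive φ := by
    intro p
    obtain ⟨τ, j⟩ := p
    simp only [φ, Function.update_idem, Function.update_eq_self, Function.update_self]
  calc ∑ τ : ι → J, ∑ j : J, G (Function.update τ b j)
      = ∑ p : (ι → J) × J, G (φ p).1 := by
        rw [Fintype.sum_prod_type]
    _ = ∑ p : (ι → J) × J, G p.1 := by
        exact Equiv.sum_comp (Function.Involutive.toPerm φ hφ) (fun p => G p.1)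
    _ = (Fintype.card J : ℝ) * ∑ τ : ι → J, G τ := by
        rw [Fintype.sum_prod_type, Finset.mul_sum]
        simp only [sum_const, card_univ, nsmul_eq_mul]

variable {m : ℕ} {I : Type*} [Fintype I] [DecidableEq I]

/-- the variables `(b, τ b)` with `r ≤ b`. -/
def TT (r : ℕ) (τ : Fin (m + 1) → I) : Finset (Fin (m + 1) × I) :=
  univ.filter fun v => r ≤ (v.1 : ℕ) ∧ v.2 = τ v.1

/-- the factor produced by the Stein step between the layers `b` and `b + 1`. -/
noncomputable def fac (K : I → I → ℝ) (τ : Fin (m + 1) → I) (A : Fin (m + 1) → I → ℝ)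
    (b : Fin m) : ℝ :=
  kk (A b.succ (τ b.succ)) * (cl K (A b.succ) (τ b.castSucc) * K (τ b.castSucc) (τ b.succ))

/-- product of the factors of the layers `≥ r`. -/
noncomputable def cc (K : I → I → ℝ) (r : ℕ) (τ : Fin (m + 1) → I) (A : Fin (m + 1) → I → ℝ) :
    ℝ :=
  ∏ b ∈ univ.filter (fun b : Fin m => r ≤ (b : ℕ)), fac K τ A b

theorem continuous_fac (K : I → I → ℝ) (τ : Fin (m + 1) → I) (b : Fin m) :
    Continuous fun A : Fin (m + 1) → I → ℝ => fac K τ A b := by
  unfold fac
  exact (continuous_kk.comp (by fun_prop)).mul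
    (((continuous_cl K _).comp (continuous_apply _)).mul continuous_const)

theorem continuous_cc (K : I → I → ℝ) (r : ℕ) (τ : Fin (m + 1) → I) :
    Continuous fun A : Fin (m + 1) → I → ℝ => cc K r τ A := by
  unfold cc
  exact continuous_finsetProd _ fun b _ => continuous_fac K τ b

/-- the partial sums of the iterated Stein identity. -/
noncomputable def SS (K : I → I → ℝ) (u χ : I → ℝ) (h : (Fin (m + 1) × I → Bool) → ℝ)
    (r : Fin (m + 1)) : ℝ :=
  ∑ τ : Fin (m + 1) → I, χ (τ (Fin.last m)) *
    ∫ A, cc K r τ A * alpha A r (τ r) * dmext (TT r τ) h (meanP K u A) ∂(muA (m + 1) I)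

theorem cc_upd (K : I → I → ℝ) (r : Fin m) (τ : Fin (m + 1) → I) (A : Fin (m + 1) → I → ℝ) (i : I)
    (a : ℝ) : cc K (r + 1 : ℕ) τ (upd A r.succ i a) = cc K (r + 1 : ℕ) τ A := by
  unfold cc
  refine Finset.prod_congr rfl fun b hb => ?_
  have hb' : (r : ℕ) + 1 ≤ b := by simpa only [Order.add_one_le_iff, Fin.val_fin_lt, mem_filter, mem_univ, true_and] using hb
  unfold fac
  rw [upd_ne]
  intro h
  have := congrArg Fin.val h
  simp only [Fin.val_succ] at this
  omega

theorem cc_update (K : I → I → ℝ) (r : Fin m) (τ : Fin (m + 1) → I) (A : Fin (m + 1) → I → ℝ)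
    (j : I) : cc K (r : ℕ) (Function.update τ r.castSucc j) A
      = cc K (r + 1 : ℕ) τ A *
        (kk (A r.succ (τ r.succ)) * (cl K (A r.succ) j * K j (τ r.succ))) := by
  unfold cc
  have hfilter : univ.filter (fun b : Fin m => (r : ℕ) ≤ (b : ℕ))
      = insert r (univ.filter (fun b : Fin m => (r : ℕ) + 1 ≤ (b : ℕ))) := by
    ext b
    simp only [Finset.mem_filter, Finset.mem_univ, true_and, Finset.mem_insert]
    constructor
    · intro hb
      by_cases h : b = r
      · exact Or.inl h
      · right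
        have : (b : ℕ) ≠ r := fun h2 => h (Fin.ext h2)
        omega
    · rintro (h | h)
      · rw [h]
      · omega
  rw [hfilter, Finset.prod_insert (by simp only [Order.add_one_le_iff, Fin.val_fin_lt, mem_filter, mem_univ, lt_self_iff_false, and_false, not_false_eq_true])]
  rw [mul_comm]
  congr 1
  · refine Finset.prod_congr rfl fun b hb => ?_
    have hb' : (r : ℕ) + 1 ≤ b := by simpa only [Order.add_one_le_iff, Fin.val_fin_lt, mem_filter, mem_univ, true_and] using hb
    unfold fac
    have h1 : b.castSucc ≠ r.castSucc := by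
      intro h
      have := congrArg Fin.val h
      simp only [Fin.val_castSucc] at this
      omega
    have h2 : b.succ ≠ r.castSucc := by
      intro h
      have := congrArg Fin.val h
      simp only [Fin.val_castSucc, Fin.val_succ] at this
      omega
    rw [Function.update_of_ne h1, Function.update_of_ne h2]
  · unfold fac
    have h2 : r.succ ≠ r.castSucc := (Fin.castSucc_lt_succ).ne'
    rw [Function.update_self, Function.update_of_ne h2]

theorem TT_update (r : Fin m) (τ : Fin (m + 1) → I) (j : I) :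
    TT (r : ℕ) (Function.update τ r.castSucc j) = insert (r.castSucc, j) (TT (r + 1 : ℕ) τ) := by
  ext v
  obtain ⟨b, i⟩ := v
  simp only [TT, Finset.mem_filter, Finset.mem_univ, true_and, Finset.mem_insert]
  by_cases hb : b = r.castSucc
  · subst hb
    simp only [Fin.val_castSucc, Std.le_refl, Function.update_self, true_and, Prod.mk.injEq, add_le_iff_nonpos_right, nonpos_iff_eq_zero, one_ne_zero, false_and, or_false]
  · rw [Function.update_of_ne hb]
    have h1 : ¬ ((b, i) = (r.castSucc, j)) := fun h => hb (Prod.mk.inj h).1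
    simp only [h1, false_or]
    have h2 : (b : ℕ) ≠ r := by
      intro h
      apply hb
      ext
      simpa using h
    constructor
    · rintro ⟨h3, h4⟩
      exact ⟨by omega, h4⟩
    · rintro ⟨h3, h4⟩
      exact ⟨by omega, h4⟩

theorem SS_step (K : I → I → ℝ) (u χ : I → ℝ) (h : (Fin (m + 1) × I → Bool) → ℝ) (r : Fin m) :
    SS K u χ h r.succ = (Fintype.card I : ℝ) * SS K u χ h r.castSucc := by
  unfold SS
  rw [← sum_sum_update r.castSucc (fun τ : Fin (m + 1) → I => χ (τ (Fin.last m)) *
    ∫ A, cc K (r.castSucc : Fin (m + 1)) τ A * alpha A r.castSucc (τ r.castSucc) *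
      dmext (TT (r.castSucc : Fin (m + 1)) τ) h (meanP K u A) ∂(muA (m + 1) I))]
  refine Finset.sum_congr rfl fun τ _ => ?_
  have hlast : Fin.last m ≠ r.castSucc := (Fin.castSucc_lt_last r).ne'
  simp only [Function.update_of_ne hlast, Function.update_self]
  rw [← Finset.mul_sum]
  congr 1
  have hT : (r.succ, τ r.succ) ∈ TT (r + 1 : ℕ) τ := by simp only [TT, Order.add_one_le_iff, mem_filter, mem_univ, Fin.val_succ, lt_add_iff_pos_right, Order.lt_one_iff, and_self]
  have hT' : ∀ j, (r.castSucc, j) ∉ TT (r + 1 : ℕ) τ := by intro j; simp only [TT, Order.add_one_le_iff, mem_filter, mem_univ, Fin.val_castSucc, lt_self_iff_false, false_and, and_false, not_false_eq_true]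
  have key := stein_step K u h r (τ r.succ) (TT (r + 1 : ℕ) τ) hT hT'
    (continuous_cc K (r + 1 : ℕ) τ) (cc_upd K r τ · (τ r.succ) ·)
  have hl : ∀ A : Fin (m + 1) → I → ℝ,
      cc K (r.succ : Fin (m + 1)) τ A * alpha A r.succ (τ r.succ) *
        dmext (TT (r.succ : Fin (m + 1)) τ) h (meanP K u A)
      = A r.succ (τ r.succ) * (cc K (r + 1 : ℕ) τ A *
        dmext (TT (r + 1 : ℕ) τ) h (meanP K u A)) := by
    intro A
    unfold alpha
    rw [if_neg (Fin.succ_ne_zero r)]
    simp only [Fin.val_succ]
    ring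
  simp only [hl]
  rw [key]
  refine Finset.sum_congr rfl fun j _ => ?_
  refine integral_congr_ae (Filter.Eventually.of_forall fun A => ?_)
  simp only [Fin.val_castSucc]
  rw [cc_update, TT_update]

theorem SS_all (K : I → I → ℝ) (u χ : I → ℝ) (h : (Fin (m + 1) × I → Bool) → ℝ) (r : Fin (m + 1)) :
    SS K u χ h r = (Fintype.card I : ℝ) ^ (r : ℕ) * SS K u χ h 0 := by
  induction r using Fin.induction with
  | zero => simp only [Fin.coe_ofNat_eq_mod, Nat.zero_mod, pow_zero, one_mul]
  | succ r ih =>
    rw [SS_step, ih, Fin.val_castSucc, Fin.val_succ, pow_succ]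
    ring

theorem sum_last (f : I → ℝ) :
    ∑ τ : Fin (m + 1) → I, f (τ (Fin.last m)) = (Fintype.card I : ℝ) ^ m * ∑ i, f i := by
  have h1 : ∀ k : ℕ, ∀ g : I → ℝ, ∑ τ : Fin k → I, (∑ i, g i) = (Fintype.card I : ℝ) ^ k * ∑ i, g i := by
    intro k g
    rw [Finset.sum_const, Finset.card_univ, Fintype.card_fun, Fintype.card_fin, nsmul_eq_mul]
    push_cast
    ring
  rw [← h1 m f]
  rw [← (Fin.snocEquiv (fun _ : Fin (m + 1) => I)).sum_comp]
  rw [Fintype.sum_prod_type_right]
  refine Finset.sum_congr rfl fun τ _ => ?_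
  refine Finset.sum_congr rfl fun i _ => ?_
  simp [Fin.snocEquiv]

end Vale.Agent.P362.Stn
end
end

section

section

/-!
# P362: the advantage of a function with small derivative sums against the layered distribution
-/

namespace Vale.Agent.P362.Stn

open MeasureTheory Finset

variable {m : ℕ} {I : Type*} [Fintype I] [DecidableEq I]

/-- expectation of `h` under the layered distribution with last-layer vector `u`. -/
noncomputable def EW (K : I → I → ℝ) (u : I → ℝ) (h : (Fin (m + 1) × I → Bool) → ℝ) : ℝ :=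
  ∫ A, mext h (meanP K u A) ∂(muA (m + 1) I)

omit [DecidableEq I] in
theorem abs_sl_le (K : I → I → ℝ) (a : I → ℝ) (j : I) : |sl K a j| ≤ 1/2 := by
  unfold sl
  rw [abs_div, abs_two]
  have := Real.abs_sin_le_one (∑ i, K j i * a i)
  linarith

omit [DecidableEq I] in
theorem abs_cl_le (K : I → I → ℝ) (a : I → ℝ) (j : I) : |cl K a j| ≤ 1/2 := by
  unfold cl
  rw [abs_div, abs_two]
  have := Real.abs_cos_le_one (∑ i, K j i * a i)
  linarith

omit [DecidableEq I] in
theorem abs_meanP_le (hm : 1 ≤ m) (K : I → I → ℝ) (u : I → ℝ) (hu : ∀ i, |u i| ≤ 1)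
    {A : Fin (m + 1) → I → ℝ} (hA : A ∈ cube (m + 1) I) (v : Fin (m + 1) × I) :
    |meanP K u A v| ≤ 1/2 := by
  obtain ⟨b, j⟩ := v
  unfold meanP
  simp only
  rw [abs_mul]
  have hAb : |A b j| ≤ 1/2 := by
    rw [abs_le]
    have := hA b j
    exact ⟨this.1, this.2⟩
  have halpha : |alpha A b j| ≤ 1 := by
    unfold alpha
    split_ifs
    · simp
    · linarith only [hAb]
  by_cases hb : (b : ℕ) + 1 < m + 1
  · have hbeta : |beta K u A b j| ≤ 1/2 := by
      unfold beta
      rw [dif_pos hb]
      exact abs_sl_le K _ j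
    nlinarith only [hbeta, halpha, abs_nonneg (beta K u A b j)]
  · have hb0 : b ≠ 0 := by
      intro h
      rw [h] at hb
      simp only [Fin.coe_ofNat_eq_mod, Nat.zero_mod, zero_add, lt_add_iff_pos_left, not_lt, nonpos_iff_eq_zero] at hb
      omega
    have halpha2 : |alpha A b j| ≤ 1/2 := by
      unfold alpha
      rw [if_neg hb0]
      exact hAb
    have hbeta : |beta K u A b j| ≤ 1 := by
      unfold beta
      rw [dif_neg hb]
      exact hu j
    nlinarith only [hbeta, halpha2, abs_nonneg (beta K u A b j)]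

omit [DecidableEq I] in
theorem abs_fac_le (K : I → I → ℝ) {q : ℝ} (hK : ∀ i j, |K i j| ≤ q)
    (τ : Fin (m + 1) → I) {A : Fin (m + 1) → I → ℝ} (hA : A ∈ cube (m + 1) I) (b : Fin m) :
    |fac K τ A b| ≤ q / 16 := by
  unfold fac
  rw [abs_mul, abs_mul]
  have h1 : |kk (A b.succ (τ b.succ))| ≤ 1/8 := by
    rw [abs_of_nonneg (kk_nonneg (hA b.succ (τ b.succ)))]
    exact kk_le _
  have h2 := abs_cl_le K (A b.succ) (τ b.castSucc)
  have h3 := hK (τ b.castSucc) (τ b.succ)
  have h4 : |cl K (A b.succ) (τ b.castSucc)| * |K (τ b.castSucc) (τ b.succ)| ≤ 1/2 * q :=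
    mul_le_mul h2 h3 (abs_nonneg _) (by norm_num)
  calc |kk (A b.succ (τ b.succ))| * (|cl K (A b.succ) (τ b.castSucc)| *
        |K (τ b.castSucc) (τ b.succ)|)
      ≤ 1/8 * (1/2 * q) := mul_le_mul h1 h4 (by positivity) (by norm_num)
    _ = q / 16 := by ring

omit [DecidableEq I] in
theorem abs_cc_le (K : I → I → ℝ) {q : ℝ} (hK : ∀ i j, |K i j| ≤ q)
    (τ : Fin (m + 1) → I) {A : Fin (m + 1) → I → ℝ} (hA : A ∈ cube (m + 1) I) :
    |cc K 0 τ A| ≤ (q / 16) ^ m := by
  unfold cc
  rw [Finset.abs_prod]
  have h0 : univ.filter (fun b : Fin m => 0 ≤ (b : ℕ)) = univ := by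
    ext b; simp only [zero_le, filter_true, mem_univ]
  rw [h0]
  calc ∏ b : Fin m, |fac K τ A b| ≤ ∏ _b : Fin m, q / 16 :=
        Finset.prod_le_prod (fun b _ => abs_nonneg _) fun b _ => abs_fac_le K hK τ hA b
    _ = (q / 16) ^ m := by rw [Finset.prod_const, Finset.card_univ, Fintype.card_fin]

theorem TT_zero (τ : Fin (m + 1) → I) : TT 0 τ = tset τ := by
  ext v
  obtain ⟨b, i⟩ := v
  simp only [TT, tset, Finset.mem_filter, Finset.mem_univ, true_and, Finset.mem_image,
    Nat.zero_le]
  constructor
  · rintro h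
    exact ⟨b, by rw [h]⟩
  · rintro ⟨b', h⟩
    obtain ⟨h1, h2⟩ := Prod.mk.inj h
    subst h1
    exact h2.symm

theorem TT_last (τ : Fin (m + 1) → I) : TT m τ = {(Fin.last m, τ (Fin.last m))} := by
  ext v
  obtain ⟨b, i⟩ := v
  simp only [TT, Finset.mem_filter, Finset.mem_univ, true_and, Finset.mem_singleton]
  constructor
  · rintro ⟨h1, h2⟩
    have hb : b = Fin.last m := by
      ext
      simp only [Fin.val_last]
      omega
    subst hb
    rw [h2]
  · intro h
    obtain ⟨h1, h2⟩ := Prod.mk.inj h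
    subst h1
    exact ⟨by simp, h2⟩

omit [DecidableEq I] in
theorem cc_last (K : I → I → ℝ) (τ : Fin (m + 1) → I) (A : Fin (m + 1) → I → ℝ) :
    cc K m τ A = 1 := by
  unfold cc
  have h0 : univ.filter (fun b : Fin m => m ≤ (b : ℕ)) = ∅ := by
    ext b; simp only [mem_filter, mem_univ, true_and, notMem_empty, iff_false, not_le, Fin.is_lt]
  rw [h0, Finset.prod_empty]

/-- the `t`-derivative equals the full iterated Stein sum. -/
theorem SS_last (K : I → I → ℝ) (u χ : I → ℝ) (h : (Fin (m + 1) × I → Bool) → ℝ) :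
    SS K u χ h (Fin.last m) = (Fintype.card I : ℝ) ^ m *
      ∑ i, χ i * ∫ A, alpha A (Fin.last m) i * dmext {(Fin.last m, i)} h (meanP K u A)
        ∂(muA (m + 1) I) := by
  rw [← sum_last (m := m) (fun i => χ i * ∫ A, alpha A (Fin.last m) i *
    dmext {(Fin.last m, i)} h (meanP K u A) ∂(muA (m + 1) I))]
  unfold SS
  refine Finset.sum_congr rfl fun τ _ => ?_
  simp only [Fin.val_last, cc_last, one_mul, TT_last]

theorem deriv_eq_SS [Nonempty I] (K : I → I → ℝ) (u χ : I → ℝ)
    (h : (Fin (m + 1) × I → Bool) → ℝ) :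
    ∑ i, χ i * ∫ A, alpha A (Fin.last m) i * dmext {(Fin.last m, i)} h (meanP K u A)
        ∂(muA (m + 1) I) = SS K u χ h 0 := by
  have h1 := SS_last K u χ h
  rw [SS_all K u χ h (Fin.last m), Fin.val_last] at h1
  have hN : (Fintype.card I : ℝ) ^ m ≠ 0 := pow_ne_zero _ (Nat.cast_ne_zero.2 Fintype.card_ne_zero)
  exact (mul_left_cancel₀ hN h1).symm

theorem abs_SS_le (hm : 1 ≤ m) (K : I → I → ℝ) {q : ℝ} (hq : 0 ≤ q)
    (hK : ∀ i j, |K i j| ≤ q) (u χ : I → ℝ) (hu : ∀ i, |u i| ≤ 1) (hχ : ∀ i, |χ i| ≤ 1)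
    (h : (Fin (m + 1) × I → Bool) → ℝ) {L : ℝ}
    (hL : ∀ P : Fin (m + 1) × I → ℝ, (∀ v, |P v| ≤ 1/2) →
      ∑ τ : Fin (m + 1) → I, |dmext (tset τ) h P| ≤ L) :
    |SS K u χ h 0| ≤ (q / 16) ^ m * L := by
  have hcm := continuous_meanP' (m := m) K u
  have hcd : ∀ T, Continuous fun A : Fin (m + 1) → I → ℝ => dmext T h (meanP K u A) :=
    fun T => (continuous_dmext T h).comp hcm
  have h1 : |SS K u χ h 0| ≤ ∑ τ : Fin (m + 1) → I,
      ∫ A, (q / 16) ^ m * |dmext (tset τ) h (meanP K u A)| ∂(muA (m + 1) I) := by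
    unfold SS
    refine (Finset.abs_sum_le_sum_abs _ _).trans (Finset.sum_le_sum fun τ _ => ?_)
    rw [abs_mul]
    refine (mul_le_of_le_one_left (abs_nonneg _) (hχ _)).trans ?_
    refine (abs_integral_le_integral_abs).trans ?_
    refine integral_mono_ae ?_ ?_ ?_
    · refine (integrable_muA ?_).abs
      exact ((continuous_cc K _ τ).mul (continuous_alpha _ _)).mul (hcd _)
    · exact integrable_muA (continuous_const.mul (hcd _).abs)
    · filter_upwards [ae_cube] with A hA
      rw [abs_mul, abs_mul]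
      have ha : alpha A 0 (τ 0) = 1 := by simp [alpha]
      rw [ha, abs_one, mul_one]
      simp only [Fin.val_zero, TT_zero]
      exact mul_le_mul_of_nonneg_right (abs_cc_le K hK τ hA) (abs_nonneg _)
  refine h1.trans ?_
  have hint : ∀ τ : Fin (m + 1) → I, Integrable (fun A : Fin (m + 1) → I → ℝ =>
      (q / 16) ^ m * |dmext (tset τ) h (meanP K u A)|) (muA (m + 1) I) :=
    fun τ => integrable_muA (continuous_const.mul (hcd _).abs)
  rw [← integral_finsetSum _ (fun τ _ => hint τ)]
  have h2 : ∫ A, ∑ τ : Fin (m + 1) → I, (q / 16) ^ m * |dmext (tset τ) h (meanP K u A)|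
      ∂(muA (m + 1) I) ≤ ∫ _A, (q / 16) ^ m * L ∂(muA (m + 1) I) := by
    refine integral_mono_ae ?_ (integrable_const _) ?_
    · exact integrable_finsetSum _ fun τ _ => hint τ
    · filter_upwards [ae_cube] with A hA
      rw [← Finset.mul_sum]
      exact mul_le_mul_of_nonneg_left (hL _ (abs_meanP_le hm K u hu hA)) (by (clear * - hq; positivity))
  refine h2.trans ?_
  simp

/-- derivative of the expectation along `t ↦ t χ`. -/
theorem hasDerivAt_EW (K : I → I → ℝ) (χ : I → ℝ) (h : (Fin (m + 1) × I → Bool) → ℝ) (t : ℝ) :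
    HasDerivAt (fun t : ℝ => EW K (fun i => t * χ i) h)
      (∑ i, χ i * ∫ A, alpha A (Fin.last m) i *
        dmext {(Fin.last m, i)} h (meanP K (fun i => t * χ i) A) ∂(muA (m + 1) I)) t := by
  classical
  set G : ℝ → (Fin (m + 1) → I → ℝ) → ℝ := fun t A =>
    ∑ i, χ i * (alpha A (Fin.last m) i *
      dmext {(Fin.last m, i)} h (meanP K (fun i => t * χ i) A)) with hG
  have hcP : Continuous fun p : ℝ × (Fin (m + 1) → I → ℝ) => meanP K (fun i => p.1 * χ i) p.2 := by
    have h1 : Continuous fun p : ℝ × (Fin (m + 1) → I → ℝ) => ((fun i => p.1 * χ i), p.2) := by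
      fun_prop
    exact (continuous_meanP K).comp h1
  have hcG : Continuous fun p : ℝ × (Fin (m + 1) → I → ℝ) => G p.1 p.2 := by
    rw [hG]
    refine continuous_finsetSum _ fun i _ => continuous_const.mul ?_
    exact ((continuous_alpha _ _).comp continuous_snd).mul ((continuous_dmext _ h).comp hcP)
  have hGt : ∀ t, Continuous fun A : Fin (m + 1) → I → ℝ => G t A := by
    intro t
    exact hcG.comp (by fun_prop : Continuous fun A : Fin (m + 1) → I → ℝ => (t, A))
  have hd : ∀ (A : Fin (m + 1) → I → ℝ) (t : ℝ),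
      HasDerivAt (fun t : ℝ => mext h (meanP K (fun i => t * χ i) A)) (G t A) t := by
    intro A t
    have hP : ∀ v : Fin (m + 1) × I, HasDerivAt (fun t : ℝ => meanP K (fun i => t * χ i) A v)
        (if v.1 = Fin.last m then alpha A v.1 v.2 * χ v.2 else 0) t := by
      intro v
      obtain ⟨b, j⟩ := v
      by_cases hb : b = Fin.last m
      · subst hb
        simp only [if_true]
        have hfun : (fun t : ℝ => meanP K (fun i => t * χ i) A (Fin.last m, j))
            = fun t => alpha A (Fin.last m) j * (t * χ j) := by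
          funext t
          unfold meanP
          simp only
          rw [beta_last]
        rw [hfun]
        exact (((hasDerivAt_id t).mul_const (χ j)).const_mul _).congr_deriv (by ring)
      · simp only [hb, if_false]
        have hb' : (b : ℕ) + 1 < m + 1 := by
          have := b.isLt
          have h3 : (b : ℕ) ≠ m := fun h => hb (Fin.ext (by simpa using h))
          omega
        have hfun : (fun t : ℝ => meanP K (fun i => t * χ i) A (b, j))
            = fun _ => meanP K (fun _ => 0) A (b, j) := by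
          funext t
          unfold meanP beta
          simp only
          rw [dif_pos hb', dif_pos hb']
        rw [hfun]
        exact hasDerivAt_const _ _
    have h1 := hasDerivAt_dmext ∅ h (P := fun t => meanP K (fun i => t * χ i) A)
      (P' := fun v => if v.1 = Fin.last m then alpha A v.1 v.2 * χ v.2 else 0) (a := t) hP
    simp only [dmext_empty] at h1
    refine h1.congr_deriv ?_
    rw [Fintype.sum_prod_type, Finset.sum_eq_single (Fin.last m)]
    · rw [hG]
      refine Finset.sum_congr rfl fun j _ => ?_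
      simp only [Finset.notMem_empty, if_false, if_true, insert_empty_eq]
      ring
    · intro b _ hb
      refine Finset.sum_eq_zero fun j _ => ?_
      simp [hb]
    · intro hne; exact absurd (Finset.mem_univ _) hne
  have hcF : ∀ t : ℝ, Continuous fun A : Fin (m + 1) → I → ℝ =>
      mext h (meanP K (fun i => t * χ i) A) := by
    intro t
    have := (continuous_dmext ∅ h).comp (continuous_meanP' (m := m) K (fun i => t * χ i))
    simpa [Function.comp_def, dmext_empty] using this
  have hcomp : IsCompact ((Metric.closedBall t 1) ×ˢ (cube (m + 1) I)) :=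
    (isCompact_closedBall t 1).prod isCompact_cube
  obtain ⟨C, hC⟩ := hcomp.exists_bound_of_continuousOn hcG.continuousOn
  have main := hasDerivAt_integral_of_dominated_loc_of_deriv_le (𝕜 := ℝ) (μ := muA (m + 1) I)
    (F := fun t A => mext h (meanP K (fun i => t * χ i) A)) (F' := G) (x₀ := t)
    (s := Metric.closedBall t 1) (bound := fun _ => C)
    (Metric.closedBall_mem_nhds t one_pos)
    (Filter.Eventually.of_forall fun t => (hcF t).aestronglyMeasurable)
    (integrable_muA (hcF t)) (hGt t).aestronglyMeasurable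
    (by
      filter_upwards [ae_cube] with A hA t' ht'
      exact hC (t', A) ⟨ht', hA⟩)
    (integrable_const C)
    (Filter.Eventually.of_forall fun A t' _ => hd A t')
  refine main.2.congr_deriv ?_
  rw [hG]
  simp only
  rw [integral_finsetSum]
  · refine Finset.sum_congr rfl fun i _ => ?_
    rw [integral_const_mul]
  · intro i _
    refine integrable_muA (continuous_const.mul ((continuous_alpha _ _).mul
      ((continuous_dmext _ h).comp (continuous_meanP' (m := m) K _))))

/-- **Advantage bound.** -/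
theorem adv_bound [Nonempty I] (hm : 1 ≤ m) (K : I → I → ℝ) {q : ℝ} (hq : 0 ≤ q)
    (hK : ∀ i j, |K i j| ≤ q) (χ : I → ℝ) (hχ : ∀ i, |χ i| ≤ 1)
    (h : (Fin (m + 1) × I → Bool) → ℝ) {L : ℝ}
    (hL : ∀ P : Fin (m + 1) × I → ℝ, (∀ v, |P v| ≤ 1/2) →
      ∑ τ : Fin (m + 1) → I, |dmext (tset τ) h P| ≤ L) :
    |EW K χ h - EW K (fun _ => 0) h| ≤ (q / 16) ^ m * L := by
  have h1 := norm_image_sub_le_of_norm_deriv_le_segment_01'
    (f := fun t : ℝ => EW K (fun i => t * χ i) h)
    (f' := fun t => ∑ i, χ i * ∫ A, alpha A (Fin.last m) i *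
        dmext {(Fin.last m, i)} h (meanP K (fun i => t * χ i) A) ∂(muA (m + 1) I))
    (C := (q / 16) ^ m * L)
    (fun t _ => (hasDerivAt_EW K χ h t).hasDerivWithinAt)
    (fun t ht => by
      rw [deriv_eq_SS]
      refine abs_SS_le hm K hq hK _ χ ?_ hχ h hL
      intro i
      rw [abs_mul, abs_of_nonneg ht.1]
      exact mul_le_one₀ ht.2.le (abs_nonneg _) (hχ i))
  simpa only [ge_iff_le, one_mul, zero_mul, Real.norm_eq_abs] using h1

end Vale.Agent.P362.Stn
end
end

section

section

/-!
# P362: the L1 bound for the mixed derivatives of a decision tree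
-/

open Finset

namespace Vale.Agent.P362.L1Aux

section TwoPoint

/-- second order expansion with an explicit remainder -/
theorem pow_taylor (q y : ℝ) (n : ℕ) :
    |(q + y) ^ (n + 2) - q ^ (n + 2) - (n + 2) * q ^ (n + 1) * y| ≤
      ((n + 2) * (n + 1) / 2) * y ^ 2 * (|q| + |y|) ^ n := by
  induction n with
  | zero =>
    have : (q + y) ^ (0 + 2) - q ^ (0 + 2) - ((0 : ℕ) + 2) * q ^ (0 + 1) * y = y ^ 2 := by
      push_cast; ring
    rw [this, abs_of_nonneg (sq_nonneg y)]
    norm_num
  | succ n ih =>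
    have e : (q + y) ^ (n + 1 + 2) - q ^ (n + 1 + 2) - ((n + 1 : ℕ) + 2) * q ^ (n + 1 + 1) * y
        = (q + y) * ((q + y) ^ (n + 2) - q ^ (n + 2) - (n + 2) * q ^ (n + 1) * y)
          + (n + 2) * q ^ (n + 1) * y ^ 2 := by
      push_cast; ring
    rw [e]
    have h1 : |(q + y) * ((q + y) ^ (n + 2) - q ^ (n + 2) - (n + 2) * q ^ (n + 1) * y)| ≤
        (|q| + |y|) * (((n + 2) * (n + 1) / 2) * y ^ 2 * (|q| + |y|) ^ n) := by
      rw [abs_mul]
      exact mul_le_mul (abs_add_le q y) ih (abs_nonneg _) (by positivity)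
    have h2 : |(n + 2) * q ^ (n + 1) * y ^ 2| ≤ (n + 2) * y ^ 2 * (|q| + |y|) ^ (n + 1) := by
      rw [abs_mul, abs_mul, abs_of_nonneg (by positivity : (0 : ℝ) ≤ n + 2), abs_pow,
        abs_of_nonneg (sq_nonneg y)]
      have : |q| ^ (n + 1) ≤ (|q| + |y|) ^ (n + 1) :=
        pow_le_pow_left₀ (abs_nonneg q) (by linarith only [abs_nonneg y]) _
      nlinarith only [mul_le_mul_of_nonneg_left this (by positivity : (0 : ℝ) ≤ (n + 2) * y ^ 2)]
    refine (abs_add_le _ _).trans ((add_le_add h1 h2).trans (le_of_eq ?_))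
    push_cast
    ring

/-- the constant of the two point inequality -/
noncomputable def tpc (p : ℕ) : ℝ := 4 + 2 ^ (p + 1) * (2 * p - 1)

theorem tpc_pos {p : ℕ} (hp : 1 ≤ p) : 0 < tpc p := by
  have : (1 : ℝ) ≤ p := by exact_mod_cast hp
  have : (0 : ℝ) < 2 * p - 1 := by linarith only [this]
  unfold tpc
  positivity

/-- lower binomial estimate -/
theorem add_pow_ge {X Y : ℝ} (hX : 0 ≤ X) (hY : 0 ≤ Y) (n : ℕ) :
    X ^ (n + 1) + (n + 1) * X ^ n * Y ≤ (X + Y) ^ (n + 1) := by
  induction n with
  | zero => simp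
  | succ n ih =>
    have h1 : (X + Y) ^ (n + 1 + 1) = (X + Y) * (X + Y) ^ (n + 1) := by ring
    rw [h1]
    have h2 := mul_le_mul_of_nonneg_left ih (add_nonneg hX hY)
    refine le_trans ?_ h2
    have h3 : 0 ≤ Y * ((n + 1) * X ^ n * Y) := by (clear * - hY hX; positivity)
    push_cast
    ring_nf at h3 ⊢
    linarith only [h3]

/-- one value of the two point inequality -/
theorem two_point_aux {p : ℕ} (hp : 1 ≤ p) (q d φ : ℝ) (hφ : |φ| ≤ 2) :
    (q + φ * d) ^ (2 * p) ≤
      q ^ (2 * p) + 2 * p * q ^ (2 * p - 1) * (φ * d) +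
        4 * p * (2 * p - 1) * 2 ^ (p - 1) * d ^ 2 * (q ^ 2 + 4 * d ^ 2) ^ (p - 1) := by
  obtain ⟨k, rfl⟩ : ∃ k, p = k + 1 := ⟨p - 1, by omega⟩
  have h := (abs_le.1 (pow_taylor q (φ * d) (2 * k))).2
  have e1 : 2 * (k + 1) = 2 * k + 2 := by ring
  have e2 : 2 * k + 2 - 1 = 2 * k + 1 := by omega
  rw [e1, e2, Nat.add_sub_cancel]
  have hs : |q| + |φ * d| ≤ |q| + 2 * |d| := by
    rw [abs_mul]
    have := mul_le_mul_of_nonneg_right hφ (abs_nonneg d)
    linarith only [this]
  have hsq : (|q| + |φ * d|) ^ 2 ≤ 2 * (q ^ 2 + 4 * d ^ 2) := by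
    have h1 : (|q| + |φ * d|) ^ 2 ≤ (|q| + 2 * |d|) ^ 2 :=
      pow_le_pow_left₀ (by (clear * -; positivity)) hs 2
    have h2 : (|q| + 2 * |d|) ^ 2 ≤ 2 * (q ^ 2 + 4 * d ^ 2) := by
      have := sq_nonneg (|q| - 2 * |d|)
      have h3 := sq_abs q
      have h4 := sq_abs d
      linarith
    exact h1.trans h2
  have hpow : (|q| + |φ * d|) ^ (2 * k) ≤ 2 ^ k * (q ^ 2 + 4 * d ^ 2) ^ k := by
    rw [pow_mul, ← mul_pow]
    exact pow_le_pow_left₀ (by (clear * -; positivity)) hsq k
  have hφ2 : (φ * d) ^ 2 ≤ 4 * d ^ 2 := by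
    rw [mul_pow]
    have : φ ^ 2 ≤ 4 := by
      have := sq_le_sq' (by linarith only [(abs_le.1 hφ).1]) (abs_le.1 hφ).2
      linarith only [this]
    nlinarith only [this]
  have hfin : ((2 * k : ℕ) + 2 : ℝ) * ((2 * k : ℕ) + 1) / 2 * (φ * d) ^ 2 *
      (|q| + |φ * d|) ^ (2 * k) ≤
      4 * ((k + 1 : ℕ) : ℝ) * (2 * ((k + 1 : ℕ) : ℝ) - 1) * 2 ^ k * d ^ 2 *
        (q ^ 2 + 4 * d ^ 2) ^ k := by
    have h5 : (φ * d) ^ 2 * (|q| + |φ * d|) ^ (2 * k) ≤
        4 * d ^ 2 * (2 ^ k * (q ^ 2 + 4 * d ^ 2) ^ k) :=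
      mul_le_mul hφ2 hpow (by (clear * -; positivity)) (by positivity)
    have h6 := mul_le_mul_of_nonneg_left h5
      (by (clear * -; positivity) : (0 : ℝ) ≤ ((2 * k : ℕ) + 2 : ℝ) * ((2 * k : ℕ) + 1) / 2)
    push_cast at h6 ⊢
    nlinarith only [h6]
  push_cast at h hfin ⊢
  linarith only [h, hfin]

/-- the two point inequality -/
theorem two_point {p : ℕ} (hp : 1 ≤ p) (q d : ℝ) (w φ : Bool → ℝ) (hw : ∀ b, 0 ≤ w b)
    (hw1 : ∑ b, w b = 1) (hφ : ∀ b, |φ b| ≤ 2) (hm : ∑ b, w b * φ b = 0) :
    ∑ b, w b * (q + φ b * d) ^ (2 * p) ≤ (q ^ 2 + tpc p * d ^ 2) ^ p := by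
  have h1 : ∑ b, w b * (q + φ b * d) ^ (2 * p) ≤
      q ^ (2 * p) + 4 * p * (2 * p - 1) * 2 ^ (p - 1) * d ^ 2 * (q ^ 2 + 4 * d ^ 2) ^ (p - 1) := by
    have h2 : ∑ b, w b * (q + φ b * d) ^ (2 * p) ≤ ∑ b, w b * (
      q ^ (2 * p) + 2 * p * q ^ (2 * p - 1) * (φ b * d) +
        4 * p * (2 * p - 1) * 2 ^ (p - 1) * d ^ 2 * (q ^ 2 + 4 * d ^ 2) ^ (p - 1)) :=
      sum_le_sum fun b _ => mul_le_mul_of_nonneg_left (two_point_aux hp q d (φ b) (hφ b)) (hw b)
    refine h2.trans (le_of_eq ?_)
    rw [Fintype.sum_bool] at hw1 hm ⊢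
    linear_combination (q ^ (2 * p) + 4 * p * (2 * p - 1) * 2 ^ (p - 1) * d ^ 2 *
      (q ^ 2 + 4 * d ^ 2) ^ (p - 1)) * hw1 + (2 * p * q ^ (2 * p - 1) * d) * hm
  refine h1.trans ?_
  obtain ⟨k, rfl⟩ : ∃ k, p = k + 1 := ⟨p - 1, by omega⟩
  rw [Nat.add_sub_cancel]
  have hk : (0 : ℝ) ≤ 2 * ((k + 1 : ℕ) : ℝ) - 1 := by push_cast; linarith only []
  have h3 := add_pow_ge (X := q ^ 2 + 4 * d ^ 2)
    (Y := 2 ^ (k + 2) * (2 * ((k + 1 : ℕ) : ℝ) - 1) * d ^ 2) (by (clear * -; positivity))
    (mul_nonneg (mul_nonneg (by positivity) hk) (sq_nonneg d)) k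
  have h4 : q ^ (2 * (k + 1)) ≤ (q ^ 2 + 4 * d ^ 2) ^ (k + 1) := by
    rw [pow_mul]
    exact pow_le_pow_left₀ (sq_nonneg q) (by nlinarith only []) _
  have h5 : q ^ 2 + 4 * d ^ 2 + 2 ^ (k + 2) * (2 * ((k + 1 : ℕ) : ℝ) - 1) * d ^ 2 =
      q ^ 2 + tpc (k + 1) * d ^ 2 := by
    unfold tpc; ring
  rw [h5] at h3
  refine le_trans ?_ h3
  have h6 : 4 * ((k + 1 : ℕ) : ℝ) * (2 * ((k + 1 : ℕ) : ℝ) - 1) * 2 ^ k * d ^ 2 *
      (q ^ 2 + 4 * d ^ 2) ^ k =
      (k + 1) * (q ^ 2 + 4 * d ^ 2) ^ k * (2 ^ (k + 2) * (2 * ((k + 1 : ℕ) : ℝ) - 1) * d ^ 2) := by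
    push_cast; ring
  rw [h6]
  linarith only [h4]

/-- splitting a power of a sum -/
theorem add_pow_le_split {x y η : ℝ} (hx : 0 ≤ x) (hy : 0 ≤ y) (hη : 0 < η) (n : ℕ) :
    (x + y) ^ (n + 1) ≤ (1 + η) ^ n * x ^ (n + 1) + ((1 + η) / η) ^ n * y ^ (n + 1) := by
  have hc : ConvexOn ℝ (Set.Ici (0 : ℝ)) (fun x : ℝ => x ^ (n + 1)) := convexOn_pow (n + 1)
  have hx' : (1 + η) * x ∈ Set.Ici (0 : ℝ) := by simp only [Set.mem_Ici]; positivity
  have hy' : (1 + η) / η * y ∈ Set.Ici (0 : ℝ) := by simp only [Set.mem_Ici]; positivity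
  have ha' : (0 : ℝ) ≤ 1 / (1 + η) := by positivity
  have hb' : (0 : ℝ) ≤ η / (1 + η) := by positivity
  have hab' : 1 / (1 + η) + η / (1 + η) = 1 := by field_simp
  have hconv := hc.2 hx' hy' ha' hb' hab'
  simp only [smul_eq_mul] at hconv
  have e1 : 1 / (1 + η) * ((1 + η) * x) + η / (1 + η) * ((1 + η) / η * y) = x + y := by
    field_simp
  rw [e1] at hconv
  refine hconv.trans (le_of_eq ?_)
  rw [mul_pow, mul_pow]
  have h1 : (1 + η) ≠ 0 := by positivity
  have h2 : η ≠ 0 := hη.ne'
  have e2 : 1 / (1 + η) * ((1 + η) ^ (n + 1) * x ^ (n + 1)) = (1 + η) ^ n * x ^ (n + 1) := by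
    rw [pow_succ (1 + η)]; (clear * - h1 hη; field_simp)
  have e3 : η / (1 + η) * (((1 + η) / η) ^ (n + 1) * y ^ (n + 1)) =
      ((1 + η) / η) ^ n * y ^ (n + 1) := by
    rw [pow_succ ((1 + η) / η)]
    generalize ((1 + η) / η) ^ n = z
    (clear * - h2 h1; field_simp)
  rw [e2, e3]

end TwoPoint

section State

variable {κ : ℕ} {I : Type*} [Fintype I] [DecidableEq I]

/-- the variables of a partial tuple -/
def supp (w : Fin κ → Option I) : Finset (Fin κ × I) := univ.filter fun v => w v.1 = some v.2

theorem mem_supp {w : Fin κ → Option I} {v : Fin κ × I} : v ∈ supp w ↔ w v.1 = some v.2 := by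
  simp only [supp, mem_filter, mem_univ, true_and]

/-- number of chosen blocks -/
def cnt (w : Fin κ → Option I) : ℕ := (univ.filter fun b => w b ≠ none).card

/-- the pairing of a state with the derivatives -/
noncomputable def val (q : (Fin κ → Option I) → ℝ) (h : (Fin κ × I → Bool) → ℝ)
    (P : Fin κ × I → ℝ) : ℝ := ∑ w, q w * dmext (supp w) h P

/-- the new state after the variable `v` has been read with result `b` -/
noncomputable def nxt (q : (Fin κ → Option I) → ℝ) (v : Fin κ × I) (φ : ℝ) :
    (Fin κ → Option I) → ℝ :=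
  fun w => q w + (if w v.1 = none then φ * q (Function.update w v.1 (some v.2)) else 0)

/-- the score of a variable -/
noncomputable def phi (p : ℝ) (b : Bool) : ℝ := sg b / (1 + sg b * p)

theorem one_add_pos {p : ℝ} (hp : |p| ≤ 1 / 2) (b : Bool) : 1 / 2 ≤ 1 + sg b * p := by
  have := abs_le.1 hp
  cases b <;> simp <;> linarith only [this]

theorem abs_phi_le {p : ℝ} (hp : |p| ≤ 1 / 2) (b : Bool) : |phi p b| ≤ 2 := by
  have h := one_add_pos hp b
  rw [phi, abs_div, abs_sg, abs_of_pos (by linarith only [h])]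
  rw [div_le_iff₀ (by linarith only [h])]
  linarith only [h]

theorem pr_mul_phi {p : ℝ} (hp : |p| ≤ 1 / 2) (b : Bool) : pr p b * phi p b = sg b / 2 := by
  have h := one_add_pos hp b
  have : (1 + sg b * p) ≠ 0 := by linarith only [h]
  rw [pr, phi]
  field_simp

theorem sum_pr_mul_phi {p : ℝ} (hp : |p| ≤ 1 / 2) : ∑ b, pr p b * phi p b = 0 := by
  rw [Fintype.sum_bool, pr_mul_phi hp, pr_mul_phi hp]
  simp only [sg_true, sg_false, one_div]
  norm_num

theorem supp_erase (w : Fin κ → Option I) (v : Fin κ × I) (hv : w v.1 = some v.2) :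
    (supp w).erase v = supp (Function.update w v.1 none) := by
  ext u
  rw [mem_erase, mem_supp, mem_supp]
  by_cases h : u.1 = v.1
  · rw [h, hv, Function.update_self]
    constructor
    · rintro ⟨h1, h2⟩
      exact absurd (Prod.ext h (Option.some.inj h2).symm) h1
    · intro h1; exact absurd h1 (by simp)
  · rw [Function.update_of_ne h]
    constructor
    · exact fun h1 => h1.2
    · exact fun h1 => ⟨fun h2 => h (by rw [h2]), h1⟩

/-- reindexing of partial tuples containing `v` -/
theorem sum_reindex (v : Fin κ × I) (g : (Fin κ → Option I) → ℝ) :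
    ∑ w with w v.1 = some v.2, g w =
      ∑ w with w v.1 = none, g (Function.update w v.1 (some v.2)) := by
  apply sum_nbij' (fun w => Function.update w v.1 none) (fun w => Function.update w v.1 (some v.2))
  · intro w _; simp only [mem_filter, mem_univ, Function.update_self, and_self]
  · intro w _; simp only [mem_filter, mem_univ, Function.update_self, and_self]
  · intro w hw
    rw [mem_filter] at hw
    rw [Function.update_idem, ← hw.2, Function.update_eq_self]
  · intro w hw
    rw [mem_filter] at hw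
    rw [Function.update_idem, ← hw.2, Function.update_eq_self]
  · intro w hw
    rw [mem_filter] at hw
    rw [Function.update_idem, ← hw.2, Function.update_eq_self]

theorem val_split (q : (Fin κ → Option I) → ℝ) (h : (Fin κ × I → Bool) → ℝ)
    (P : Fin κ × I → ℝ) (v : Fin κ × I) (hP : |P v| ≤ 1 / 2) :
    val q h P = ∑ b, pr (P v) b * val (nxt q v (phi (P v) b)) (restr h v b) P := by
  have h1 : val q h P =
      ∑ w with w v.1 = some v.2, q w * dmext (supp w) h P +
      ∑ w with ¬ w v.1 = some v.2, q w * dmext (supp w) h P :=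
    (sum_filter_add_sum_filter_not _ _ _).symm
  have h2 : ∑ w with ¬ w v.1 = some v.2, q w * dmext (supp w) h P =
      ∑ b, pr (P v) b * ∑ w, q w * dmext (supp w) (restr h v b) P := by
    simp only [mul_sum]
    rw [sum_comm]
    rw [← sum_filter_add_sum_filter_not univ (fun w : Fin κ → Option I => w v.1 = some v.2)
      (fun w => ∑ b, pr (P v) b * (q w * dmext (supp w) (restr h v b) P))]
    have h3 : ∑ w with w v.1 = some v.2,
        ∑ b, pr (P v) b * (q w * dmext (supp w) (restr h v b) P) = 0 := by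
      apply sum_eq_zero
      intro w hw
      rw [mem_filter] at hw
      apply sum_eq_zero
      intro b _
      rw [dmext_restr_mem h v b (supp w) P (mem_supp.2 hw.2)]
      ring
    rw [h3, zero_add]
    apply sum_congr rfl
    intro w hw
    rw [mem_filter] at hw
    rw [dmext_split_notMem h v (supp w) P (fun hh => hw.2 (mem_supp.1 hh)), mul_sum]
    apply sum_congr rfl
    intro b _
    ring
  have h4 : ∑ w with w v.1 = some v.2, q w * dmext (supp w) h P =
      ∑ b, pr (P v) b * ∑ w, (if w v.1 = none then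
        phi (P v) b * q (Function.update w v.1 (some v.2)) else 0) *
        dmext (supp w) (restr h v b) P := by
    rw [sum_reindex v (fun w => q w * dmext (supp w) h P)]
    simp only [mul_sum]
    rw [sum_comm, sum_filter]
    apply sum_congr rfl
    intro w _
    split_ifs with hw
    · rw [dmext_split_mem h v _ P (mem_supp.2 (by simp))]
      rw [supp_erase _ v (by simp), Function.update_idem]
      have : Function.update w v.1 none = w := by rw [← hw, Function.update_eq_self]
      rw [this, mul_sum]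
      apply sum_congr rfl
      intro b _
      rw [← pr_mul_phi hP b]
      ring
    · simp
  rw [h1, h2, h4, ← sum_add_distrib]
  apply sum_congr rfl
  intro b _
  rw [← mul_add, ← sum_add_distrib]
  congr 1
  unfold val nxt
  apply sum_congr rfl
  intro w _
  ring

/-- the potential -/
noncomputable def pot (lam : ℝ) (p : ℕ) (q : (Fin κ → Option I) → ℝ) : ℝ :=
  ∑ w, lam ^ (p * cnt w) * q w ^ (2 * p)

omit [Fintype I] [DecidableEq I] in
theorem cnt_update (w : Fin κ → Option I) (b : Fin κ) (i : I) (hw : w b = none) :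
    cnt (Function.update w b (some i)) = cnt w + 1 := by
  unfold cnt
  rw [← card_insert_of_notMem (s := univ.filter fun b => w b ≠ none) (a := b)
    (by simp only [ne_eq, mem_filter, mem_univ, hw, not_true_eq_false, and_false, not_false_eq_true])]
  congr 1
  ext c
  by_cases h : c = b
  · subst h; simp only [ne_eq, mem_filter, mem_univ, Function.update_self, reduceCtorEq, not_false_eq_true, and_self, mem_insert, true_and, true_or]
  · simp only [ne_eq, mem_filter, mem_univ, h, not_false_eq_true, Function.update_of_ne, true_and, mem_insert, false_or]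

theorem pot_growth {p : ℕ} (hp : 1 ≤ p) {lam : ℝ} (hlam : 0 < lam)
    (q : (Fin κ → Option I) → ℝ) (v : Fin κ × I) {P : ℝ} (hP : |P| ≤ 1 / 2) :
    ∑ b, pr P b * pot lam p (nxt q v (phi P b)) ≤ (1 + tpc p / lam) ^ p * pot lam p q := by
  have hC := tpc_pos hp
  set η : ℝ := tpc p / lam with hη
  have hη0 : 0 < η := by positivity
  obtain ⟨k, rfl⟩ : ∃ k, p = k + 1 := ⟨p - 1, by omega⟩
  have hstep : ∀ w : Fin κ → Option I, ∑ b, pr P b * (nxt q v (phi P b) w) ^ (2 * (k + 1)) ≤
      (1 + η) ^ k * q w ^ (2 * (k + 1)) + (if w v.1 = none then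
        ((1 + η) / η) ^ k * (tpc (k + 1) ^ (k + 1) *
          q (Function.update w v.1 (some v.2)) ^ (2 * (k + 1))) else 0) := by
    intro w
    unfold nxt
    split_ifs with hw
    · set y := q (Function.update w v.1 (some v.2))
      have h1 := two_point hp (q w) y (fun b => pr P b) (fun b => phi P b)
        (fun b => pr_nonneg (by linarith only [hP]) b) (sum_pr P) (fun b => abs_phi_le hP b)
        (sum_pr_mul_phi hP)
      refine h1.trans ?_
      have h2 := add_pow_le_split (x := q w ^ 2) (y := tpc (k + 1) * y ^ 2) (sq_nonneg _)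
        (by (clear * - hC; positivity)) hη0 k
      refine h2.trans (le_of_eq ?_)
      rw [mul_pow, ← pow_mul, ← pow_mul]
    · simp only [add_zero]
      rw [← sum_mul, sum_pr, one_mul]
      have h3 : (0 : ℝ) ≤ q w ^ (2 * (k + 1)) := by rw [pow_mul]; (clear * -; positivity)
      have h4 : (1 : ℝ) ≤ (1 + η) ^ k := one_le_pow₀ (by linarith only [hη0])
      nlinarith only [h3, h4]
  have h5 : ∑ b, pr P b * pot lam (k + 1) (nxt q v (phi P b)) =
      ∑ w, lam ^ ((k + 1) * cnt w) * ∑ b, pr P b * (nxt q v (phi P b) w) ^ (2 * (k + 1)) := by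
    unfold pot
    simp only [mul_sum]
    rw [sum_comm]
    apply sum_congr rfl
    intro w _
    apply sum_congr rfl
    intro b _
    ring
  rw [h5]
  have h6 : ∑ w, lam ^ ((k + 1) * cnt w) *
      ∑ b, pr P b * (nxt q v (phi P b) w) ^ (2 * (k + 1)) ≤
      ∑ w, lam ^ ((k + 1) * cnt w) * ((1 + η) ^ k * q w ^ (2 * (k + 1)) + (if w v.1 = none then
        ((1 + η) / η) ^ k * (tpc (k + 1) ^ (k + 1) *
          q (Function.update w v.1 (some v.2)) ^ (2 * (k + 1))) else 0)) :=
    sum_le_sum fun w _ => mul_le_mul_of_nonneg_left (hstep w) (by positivity)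
  refine h6.trans ?_
  have h6' : ∑ w, lam ^ ((k + 1) * cnt w) * ((1 + η) ^ k * q w ^ (2 * (k + 1)) +
        (if w v.1 = none then
        ((1 + η) / η) ^ k * (tpc (k + 1) ^ (k + 1) *
          q (Function.update w v.1 (some v.2)) ^ (2 * (k + 1))) else 0)) =
      ∑ w, lam ^ ((k + 1) * cnt w) * ((1 + η) ^ k * q w ^ (2 * (k + 1))) +
      ∑ w, lam ^ ((k + 1) * cnt w) * (if w v.1 = none then
        ((1 + η) / η) ^ k * (tpc (k + 1) ^ (k + 1) *
          q (Function.update w v.1 (some v.2)) ^ (2 * (k + 1))) else 0) := by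
    rw [← sum_add_distrib]
    exact sum_congr rfl fun w _ => mul_add _ _ _
  rw [h6']
  have h7 : ∑ w, lam ^ ((k + 1) * cnt w) * (if w v.1 = none then
        ((1 + η) / η) ^ k * (tpc (k + 1) ^ (k + 1) *
          q (Function.update w v.1 (some v.2)) ^ (2 * (k + 1))) else 0) ≤
      (1 + η) ^ k * η * pot lam (k + 1) q := by
    have h8 : ∑ w, lam ^ ((k + 1) * cnt w) * (if w v.1 = none then
        ((1 + η) / η) ^ k * (tpc (k + 1) ^ (k + 1) *
          q (Function.update w v.1 (some v.2)) ^ (2 * (k + 1))) else 0) =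
        (1 + η) ^ k * η * ∑ w with w v.1 = some v.2,
          lam ^ ((k + 1) * cnt w) * q w ^ (2 * (k + 1)) := by
      rw [sum_reindex v (fun w => lam ^ ((k + 1) * cnt w) * q w ^ (2 * (k + 1))), mul_sum,
        sum_filter]
      apply sum_congr rfl
      intro w _
      split_ifs with hw
      · rw [cnt_update w v.1 v.2 hw]
        have e1 : tpc (k + 1) = η * lam := by rw [hη]; field_simp
        have e2 : (k + 1) * (cnt w + 1) = (k + 1) * cnt w + (k + 1) := by ring
        rw [e2, pow_add lam ((k + 1) * cnt w) (k + 1)]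
        generalize q (Function.update w v.1 (some v.2)) ^ (2 * (k + 1)) = Y
        generalize lam ^ ((k + 1) * cnt w) = Z
        rw [e1, mul_pow η lam (k + 1), pow_succ η k, div_pow]
        have : η ≠ 0 := hη0.ne'
        (clear * - hη0 hlam this; field_simp)
      · simp
    rw [h8]
    apply mul_le_mul_of_nonneg_left _ (by positivity)
    unfold pot
    apply sum_le_sum_of_subset_of_nonneg (filter_subset _ _)
    intro w _ _
    have h3 : (0 : ℝ) ≤ q w ^ (2 * (k + 1)) := by rw [pow_mul]; (clear * -; positivity)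
    (clear * - hlam h3; positivity)
  have h9 : ∑ w, lam ^ ((k + 1) * cnt w) * ((1 + η) ^ k * q w ^ (2 * (k + 1))) =
      (1 + η) ^ k * pot lam (k + 1) q := by
    unfold pot
    rw [mul_sum]
    apply sum_congr rfl
    intro w _
    ring
  rw [h9]
  have h10 : (1 + η) ^ (k + 1) * pot lam (k + 1) q =
    (1 + η) ^ k * pot lam (k + 1) q + (1 + η) ^ k * η * pot lam (k + 1) q := by ring
  rw [h10]
  linarith only [h7]

theorem supp_eq_empty (w : Fin κ → Option I) : supp w = ∅ ↔ w = fun _ => none := by
  constructor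
  · intro h
    funext b
    rcases hb : w b with _ | i
    · rfl
    · have : (b, i) ∈ supp w := mem_supp.2 hb
      rw [h] at this
      exact absurd this (notMem_empty _)
  · rintro rfl
    ext v
    simp [mem_supp]

omit [DecidableEq I] in
theorem pot_nonneg {lam : ℝ} (hlam : 0 < lam) (p : ℕ) (q : (Fin κ → Option I) → ℝ) :
    0 ≤ pot lam p q := by
  apply sum_nonneg
  intro w _
  have h3 : (0 : ℝ) ≤ q w ^ (2 * p) := by rw [pow_mul]; positivity
  positivity

/-- main induction -/
theorem val_pow_le {p : ℕ} (hp : 1 ≤ p) {lam : ℝ} (hlam : 0 < lam)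
    {P : Fin κ × I → ℝ} (hP : ∀ v, |P v| ≤ 1 / 2) {n : ℕ} {h : (Fin κ × I → Bool) → ℝ}
    (hh : HasDepth n h) : ∀ q : (Fin κ → Option I) → ℝ,
    val q h P ^ (2 * p) ≤ ((1 + tpc p / lam) ^ p) ^ n * pot lam p q := by
  have hC := tpc_pos hp
  have hη0 : 0 < tpc p / lam := by positivity
  have h1η : (1 : ℝ) ≤ (1 + tpc p / lam) ^ p := one_le_pow₀ (by linarith only [hη0])
  induction hh with
  | const n c hc =>
    intro q
    have h1 : val q (fun _ => c) P = q (fun _ => none) * c := by
      unfold val
      rw [Fintype.sum_eq_single (fun _ => none)]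
      · rw [dmext_const, if_pos ((supp_eq_empty _).2 rfl)]
      · intro w hw
        rw [dmext_const, if_neg (fun hh => hw ((supp_eq_empty w).1 hh))]
        ring
    rw [h1, mul_pow]
    have h2 : c ^ (2 * p) ≤ 1 := by
      rw [pow_mul]
      exact pow_le_one₀ (sq_nonneg c) ((sq_le_one_iff_abs_le_one c).2 hc)
    have h3 : (0 : ℝ) ≤ q (fun _ => none) ^ (2 * p) := by rw [pow_mul]; (clear * -; positivity)
    have h4 : q (fun _ => none) ^ (2 * p) ≤ pot lam p q := by
      have h5 : lam ^ (p * cnt (fun _ : Fin κ => (none : Option I))) *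
          q (fun _ => none) ^ (2 * p) ≤ pot lam p q := by
        unfold pot
        apply single_le_sum (f := fun w => lam ^ (p * cnt w) * q w ^ (2 * p)) _ (mem_univ _)
        intro w _
        have h3 : (0 : ℝ) ≤ q w ^ (2 * p) := by rw [pow_mul]; (clear * -; positivity)
        (clear * - hlam h3; positivity)
      have h6 : cnt (fun _ : Fin κ => (none : Option I)) = 0 := by simp [cnt]
      rw [h6] at h5
      simpa only [ge_iff_le, mul_zero, pow_zero, one_mul] using h5
    have h7 : (1 : ℝ) ≤ ((1 + tpc p / lam) ^ p) ^ n := one_le_pow₀ h1η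
    have h8 := pot_nonneg hlam p q
    calc q (fun _ => none) ^ (2 * p) * c ^ (2 * p) ≤ q (fun _ => none) ^ (2 * p) * 1 :=
          mul_le_mul_of_nonneg_left h2 h3
      _ ≤ 1 * pot lam p q := by linarith only [h4]
      _ ≤ _ := mul_le_mul_of_nonneg_right h7 h8
  | query n f v hb ih =>
    intro q
    have h1 := val_split q f P v (hP v)
    have hPv := hP v
    have hconv : ConvexOn ℝ Set.univ (fun x : ℝ => x ^ (2 * p)) := (even_two_mul p).convexOn_pow
    have h2 := hconv.map_sum_le (t := univ) (w := fun b => pr (P v) b)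
      (p := fun b => val (nxt q v (phi (P v) b)) (restr f v b) P)
      (fun b _ => pr_nonneg (by linarith only [hPv]) b) (sum_pr (P v)) (fun _ _ => Set.mem_univ _)
    simp only [smul_eq_mul] at h2
    rw [← h1] at h2
    refine h2.trans ?_
    have h3 : ∑ b, pr (P v) b * val (nxt q v (phi (P v) b)) (restr f v b) P ^ (2 * p) ≤
        ∑ b, pr (P v) b * (((1 + tpc p / lam) ^ p) ^ n * pot lam p (nxt q v (phi (P v) b))) :=
      sum_le_sum fun b _ => mul_le_mul_of_nonneg_left (ih b _) (pr_nonneg (by linarith only [hPv]) b)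
    refine h3.trans ?_
    have h4 : ∑ b, pr (P v) b * (((1 + tpc p / lam) ^ p) ^ n * pot lam p (nxt q v (phi (P v) b)))
        = ((1 + tpc p / lam) ^ p) ^ n * ∑ b, pr (P v) b * pot lam p (nxt q v (phi (P v) b)) := by
      rw [mul_sum]
      apply sum_congr rfl
      intro b _
      ring
    rw [h4, pow_succ, mul_assoc]
    apply mul_le_mul_of_nonneg_left (pot_growth hp hlam q v (hP v)) (by positivity)

omit [DecidableEq I] [Fintype I] in
theorem cnt_some (τ : Fin κ → I) : cnt (fun b => some (τ b)) = κ := by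
  simp only [cnt, ne_eq, reduceCtorEq, not_false_eq_true, filter_true, card_univ, Fintype.card_fin]

theorem supp_some (τ : Fin κ → I) : supp (fun b => some (τ b)) = tset τ := by
  ext v
  rw [mem_supp, tset, mem_image]
  constructor
  · intro h
    exact ⟨v.1, mem_univ _, Prod.ext rfl (Option.some.inj h)⟩
  · rintro ⟨b, _, rfl⟩
    rfl

/-- signs of the derivatives as the initial state -/
noncomputable def ini (h : (Fin κ × I → Bool) → ℝ) (P : Fin κ × I → ℝ) :
    (Fin κ → Option I) → ℝ :=
  fun w => if ∃ τ : Fin κ → I, w = fun b => some (τ b) then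
    (if 0 ≤ dmext (supp w) h P then 1 else -1) else 0

/-- sum over total partial tuples -/
theorem sum_total (g : (Fin κ → Option I) → ℝ) :
    ∑ w, (if ∃ τ : Fin κ → I, w = fun b => some (τ b) then g w else 0) =
      ∑ τ : Fin κ → I, g (fun b => some (τ b)) := by
  rw [← sum_filter]
  symm
  apply sum_bij (fun (τ : Fin κ → I) _ => (fun b => some (τ b) : Fin κ → Option I))
  · intro τ _
    rw [mem_filter]
    exact ⟨mem_univ _, τ, rfl⟩
  · intro τ _ τ' _ h
    funext b
    exact Option.some.inj (congrFun h b)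
  · intro w hw
    rw [mem_filter] at hw
    obtain ⟨_, τ, rfl⟩ := hw
    exact ⟨τ, mem_univ _, rfl⟩
  · intro τ _; rfl

theorem val_ini (h : (Fin κ × I → Bool) → ℝ) (P : Fin κ × I → ℝ) :
    val (ini h P) h P = ∑ τ : Fin κ → I, |dmext (tset τ) h P| := by
  have h1 : ∀ w : Fin κ → Option I, ini h P w * dmext (supp w) h P =
      if ∃ τ : Fin κ → I, w = fun b => some (τ b) then |dmext (supp w) h P| else 0 := by
    intro w
    unfold ini
    split_ifs with h2 h3
    · rw [abs_of_nonneg h3, one_mul]
    · rw [abs_of_neg (not_le.1 h3)]; ring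
    · ring
  unfold val
  rw [sum_congr rfl (fun w _ => h1 w), sum_total (fun w => |dmext (supp w) h P|)]
  exact sum_congr rfl fun τ _ => by rw [supp_some]

theorem pot_ini {lam : ℝ} (p : ℕ) (hp : 1 ≤ p) (h : (Fin κ × I → Bool) → ℝ)
    (P : Fin κ × I → ℝ) :
    pot lam p (ini h P) = lam ^ (p * κ) * (Fintype.card I : ℝ) ^ κ := by
  have h1 : ∀ w : Fin κ → Option I, lam ^ (p * cnt w) * ini h P w ^ (2 * p) =
      if ∃ τ : Fin κ → I, w = fun b => some (τ b) then lam ^ (p * cnt w) else 0 := by
    intro w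
    unfold ini
    split_ifs with h2 h3
    · rw [one_pow, mul_one]
    · rw [pow_mul]; norm_num
    · rw [zero_pow (by omega), mul_zero]
  unfold pot
  rw [sum_congr rfl (fun w _ => h1 w), sum_total (fun w => lam ^ (p * cnt w))]
  rw [sum_congr rfl (fun τ _ => by rw [cnt_some])]
  rw [sum_const, card_univ, nsmul_eq_mul, Fintype.card_fun, Fintype.card_fin]
  push_cast
  ring

/-- **L1 bound**, power form -/
theorem l1_pow_bound {p : ℕ} (hp : 1 ≤ p) {D : ℕ} (hD : 1 ≤ D)
    {P : Fin κ × I → ℝ} (hP : ∀ v, |P v| ≤ 1 / 2) {h : (Fin κ × I → Bool) → ℝ}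
    (hh : HasDepth D h) :
    (∑ τ : Fin κ → I, |dmext (tset τ) h P|) ^ (2 * p) ≤
      Real.exp p * (tpc p * D) ^ (p * κ) * (Fintype.card I : ℝ) ^ κ := by
  have hC := tpc_pos hp
  have hD0 : (0 : ℝ) < D := by exact_mod_cast hD
  have hlam : 0 < tpc p * D := by positivity
  have h1 := val_pow_le hp hlam hP hh (ini h P)
  rw [val_ini, pot_ini p hp] at h1
  refine h1.trans ?_
  rw [← mul_assoc]
  apply mul_le_mul_of_nonneg_right _ (by positivity)
  apply mul_le_mul_of_nonneg_right _ (by positivity)
  have h2 : tpc p / (tpc p * D) = 1 / D := by field_simp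
  rw [h2, ← pow_mul]
  have h3 : 1 + 1 / (D : ℝ) ≤ Real.exp (1 / D) := by
    have := Real.add_one_le_exp (1 / (D : ℝ))
    linarith only [this]
  calc (1 + 1 / (D : ℝ)) ^ (p * D) ≤ (Real.exp (1 / D)) ^ (p * D) :=
        pow_le_pow_left₀ (by positivity) h3 _
    _ = Real.exp p := by
        rw [← Real.exp_nat_mul]
        congr 1
        push_cast
        field_simp

end State

/-! ### transfer to the skeleton definitions -/

theorem hasDepth_dt {V : Type} [DecidableEq V] (t : DT V) :
    HasDepth t.depth (fun x => if t.eval x then (1 : ℝ) else 0) := by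
  induction t with
  | leaf b =>
    cases b with
    | false => exact HasDepth.const _ 0 (by simp only [abs_zero, zero_le_one])
    | true => exact HasDepth.const _ 1 (by simp)
  | node v a b iha ihb =>
    have ha := iha.mono (le_max_left a.depth b.depth)
    have hb := ihb.mono (le_max_right a.depth b.depth)
    refine HasDepth.query _ _ v ?_
    intro c
    cases c with
    | false =>
      have e : restr (fun x => if (DT.node v a b).eval x then (1 : ℝ) else 0) v false =
          restr (fun x => if a.eval x then (1 : ℝ) else 0) v false := by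
        funext x
        simp [restr]
      rw [e]
      exact ha.restr v false
    | true =>
      have e : restr (fun x => if (DT.node v a b).eval x then (1 : ℝ) else 0) v true =
          restr (fun x => if b.eval x then (1 : ℝ) else 0) v true := by
        funext x
        simp [restr]
      rw [e]
      exact hb.restr v true

theorem dext_eq {κ n : ℕ} (τ : Fin κ → Idx n) (h : (Fin κ × Idx n → Bool) → ℝ)
    (P : Fin κ × Idx n → ℝ) : dext τ h P = dmext (tset τ) h P := by
  unfold dext dmext
  apply sum_congr rfl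
  intro x _
  rw [mul_comm]
  congr 1
  apply prod_congr rfl
  intro p _
  have h1 : p ∈ tset τ ↔ τ p.1 = p.2 := by
    rw [tset, mem_image]
    constructor
    · rintro ⟨b, _, rfl⟩; rfl
    · intro h; exact ⟨p.1, mem_univ _, Prod.ext rfl h⟩
  have h2 : sgR (x p) = sg (x p) := rfl
  by_cases h3 : τ p.1 = p.2
  · rw [if_pos h3, if_pos (h1.2 h3), h2]
  · rw [if_neg h3, if_neg (fun hh => h3 (h1.1 hh)), h2, mul_comm]

end Vale.Agent.P362.L1Aux

namespace Vale.Agent.P362

open L1Aux in
/-- module (B): the L1 bound for the mixed derivatives of a decision tree -/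
theorem l1_bound (κ q : ℕ) (hq : 1 ≤ q) : ∃ C : ℝ, 0 ≤ C ∧
    ∀ (n : ℕ) (t : DT (Fin κ × Idx n)) (D : ℕ), t.depth ≤ D →
    ∀ P : Fin κ × Idx n → ℝ, (∀ p, |P p| ≤ 1 / 2) →
    (∑ τ : Fin κ → Idx n, |dext τ (fun x => if t.eval x then (1 : ℝ) else 0) P|) ^ (2 * q) ≤
      C * (D : ℝ) ^ (κ * q) * (2 ^ n : ℝ) ^ κ := by
  have hC := tpc_pos hq
  refine ⟨Real.exp q * tpc q ^ (q * κ), by positivity, ?_⟩
  intro n t D htD P hP
  have hcard : (Fintype.card (Idx n) : ℝ) = 2 ^ n := by simp only [Idx, Fintype.card_pi, Fintype.card_bool, prod_const, card_univ, Fintype.card_fin, Nat.cast_pow, Nat.cast_ofNat]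
  rcases Nat.eq_zero_or_pos D with rfl | hD
  · -- constant trees
    cases t with
    | node v a b => simp only [DT.depth_node, nonpos_iff_eq_zero, Nat.add_eq_zero_iff, max_eq_zero, one_ne_zero, and_false] at htD
    | leaf b =>
      have hfun : ∃ c : ℝ, |c| ≤ 1 ∧ (fun x : Fin κ × Idx n → Bool =>
          if (DT.leaf b : DT (Fin κ × Idx n)).eval x then (1 : ℝ) else 0) = fun _ => c := by
        cases b
        · exact ⟨0, by simp only [abs_zero, zero_le_one], by funext x; simp⟩
        · exact ⟨1, by simp, by funext x; simp⟩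
      obtain ⟨c, hb, hfun⟩ := hfun
      rw [hfun]
      have h0 : ∀ τ : Fin κ → Idx n, |dext τ (fun _ => c) P| =
          if κ = 0 then |c| else 0 := by
        intro τ
        rw [dext_eq, dmext_const]
        by_cases hκ : κ = 0
        · subst hκ
          have : tset τ = ∅ := by simp [tset]
          rw [if_pos this, if_pos rfl]
        · have : tset τ ≠ ∅ := by
            rw [tset, ne_eq, image_eq_empty]
            intro h
            have : (⟨0, Nat.pos_of_ne_zero hκ⟩ : Fin κ) ∈ (univ : Finset (Fin κ)) := mem_univ _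
            rw [h] at this
            exact absurd this (notMem_empty _)
          rw [if_neg this, if_neg hκ, abs_zero]
      rw [sum_congr rfl (fun τ _ => h0 τ)]
      by_cases hκ : κ = 0
      · subst hκ
        simp only [if_true, sum_const, card_univ, Fintype.card_fun, Fintype.card_fin, pow_zero,
          one_smul, mul_zero, zero_mul, mul_one]
        have h1 : |c| ^ (2 * q) ≤ 1 := pow_le_one₀ (abs_nonneg _) hb
        have h2 : 1 ≤ Real.exp q := Real.one_le_exp (Nat.cast_nonneg q)
        exact h1.trans h2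
      · simp only [hκ, if_false, sum_const_zero]
        rw [zero_pow (by omega)]
        (clear * - hC; positivity)
  · have h1 := l1_pow_bound hq hD hP ((hasDepth_dt t).mono htD)
    rw [hcard] at h1
    have h2 : ∑ τ : Fin κ → Idx n, |dext τ (fun x => if t.eval x then (1 : ℝ) else 0) P| =
        ∑ τ : Fin κ → Idx n, |dmext (tset τ) (fun x => if t.eval x then (1 : ℝ) else 0) P| :=
      sum_congr rfl fun τ _ => by rw [dext_eq]
    rw [h2]
    refine h1.trans (le_of_eq ?_)
    rw [mul_pow, mul_comm q κ]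
    ring

end Vale.Agent.P362
end
end

section

section

/-! Upper bound block, combinatorial part: `D ≤ deg * bs` by maxonomials. -/

namespace Vale.Agent.P362.UB

open Finset

variable {ι : Type} [Fintype ι] [DecidableEq ι]

/-- flip the coordinates in `B` -/
def flipS (B : Finset ι) (x : ι → Bool) : ι → Bool := fun i => if i ∈ B then !x i else x i

/-- alternating sum of `f` over the subcube with directions `S` through `z` -/
def coef (f : (ι → Bool) → Bool) (S : Finset ι) (z : ι → Bool) : ℤ :=
  ∑ T ∈ S.powerset, (-1) ^ T.card * (if f (S.piecewise (fun i => decide (i ∈ T)) z) then 1 else 0)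

/-- all alternating sums over subcubes of dimension larger than `d` vanish -/
def DegLE (f : (ι → Bool) → Bool) (d : ℕ) : Prop :=
  ∀ S : Finset ι, d < S.card → ∀ z, coef f S z = 0

/-- the block sensitivity is at most `b` -/
def BSLE (f : (ι → Bool) → Bool) (b : ℕ) : Prop :=
  ∀ (x : ι → Bool) (𝓑 : Finset (Finset ι)), (𝓑 : Set (Finset ι)).PairwiseDisjoint id →
    (∀ B ∈ 𝓑, f (flipS B x) ≠ f x) → 𝓑.card ≤ b

/-- `f` has a decision tree of depth at most `D` -/
def Comp (D : ℕ) (f : (ι → Bool) → Bool) : Prop :=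
  ∃ t : DT ι, t.depth ≤ D ∧ ∀ x, t.eval x = f x

omit [Fintype ι] [DecidableEq ι] in
theorem Comp.mono {D D' : ℕ} {f : (ι → Bool) → Bool} (h : Comp D f) (hD : D ≤ D') : Comp D' f := by
  obtain ⟨t, ht, he⟩ := h
  exact ⟨t, ht.trans hD, he⟩

omit [Fintype ι] in
theorem coef_insert (f : (ι → Bool) → Bool) (S : Finset ι) (z : ι → Bool) (j : ι) (hj : j ∉ S) :
    coef f (insert j S) z =
      coef f S (Function.update z j false) - coef f S (Function.update z j true) := by
  unfold coef
  rw [Finset.sum_powerset_insert hj, sub_eq_add_neg, ← Finset.sum_neg_distrib]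
  congr 1
  · apply Finset.sum_congr rfl
    intro T hT
    rw [Finset.mem_powerset] at hT
    have hjT : j ∉ T := fun h => hj (hT h)
    have : (insert j S).piecewise (fun i => decide (i ∈ T)) z =
        S.piecewise (fun i => decide (i ∈ T)) (Function.update z j false) := by
      funext i
      by_cases hij : i = j
      · subst hij
        simp [Finset.piecewise, hj, hjT]
      · simp [Finset.piecewise, hij]
    rw [this]
  · apply Finset.sum_congr rfl
    intro T hT
    rw [Finset.mem_powerset] at hT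
    have hjT : j ∉ T := fun h => hj (hT h)
    have : (insert j S).piecewise (fun i => decide (i ∈ insert j T)) z =
        S.piecewise (fun i => decide (i ∈ T)) (Function.update z j true) := by
      funext i
      by_cases hij : i = j
      · subst hij
        simp [Finset.piecewise, hj]
      · simp [Finset.piecewise, hij]
    rw [this, Finset.card_insert_of_notMem hjT, pow_succ]
    ring

omit [Fintype ι] in
theorem coef_congr (f : (ι → Bool) → Bool) (S : Finset ι) (z z' : ι → Bool)
    (h : ∀ i, i ∉ S → z i = z' i) : coef f S z = coef f S z' := by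
  unfold coef
  apply Finset.sum_congr rfl
  intro T _
  have : S.piecewise (fun i => decide (i ∈ T)) z = S.piecewise (fun i => decide (i ∈ T)) z' := by
    funext i
    by_cases hi : i ∈ S
    · simp [Finset.piecewise, hi]
    · simp [Finset.piecewise, hi, h i hi]
  rw [this]

/-- a function invariant under single coordinate updates is constant -/
theorem const_of_update {α : Type*} (g : (ι → Bool) → α)
    (h : ∀ z j b, g (Function.update z j b) = g z) (z z' : ι → Bool) : g z = g z' := by
  have key : ∀ T : Finset ι, g (T.piecewise z' z) = g z := by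
    intro T
    induction T using Finset.induction_on with
    | empty => simp
    | insert j T hj ih =>
      rw [Finset.piecewise_insert, h, ih]
  have := key Finset.univ
  rw [Finset.piecewise_univ] at this
  exact this.symm

/-- a maximal nonvanishing alternating sum does not depend on the base point -/
theorem coef_const (f : (ι → Bool) → Bool) (S : Finset ι)
    (hmax : ∀ S' : Finset ι, S.card < S'.card → ∀ z, coef f S' z = 0) (z z' : ι → Bool) :
    coef f S z = coef f S z' := by
  apply const_of_update (coef f S)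
  intro z j b
  by_cases hj : j ∈ S
  · apply coef_congr
    intro i hi
    have : i ≠ j := fun h => hi (h ▸ hj)
    simp [Function.update_of_ne this]
  · have h0 := coef_insert f S z j hj
    rw [hmax _ (by rw [Finset.card_insert_of_notMem hj]; omega) z] at h0
    have h1 : coef f S (Function.update z j false) = coef f S (Function.update z j true) := by
      omega
    have h2 : ∀ b', coef f S (Function.update z j b') = coef f S (Function.update z j false) := by
      intro b'
      cases b'
      · rfl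
      · exact h1.symm
    have h3 : coef f S z = coef f S (Function.update z j (z j)) := by
      rw [Function.update_eq_self]
    rw [h2 b, h3, h2 (z j)]

/-- a nonconstant function has a maximal nonvanishing alternating sum -/
theorem exists_max (f : (ι → Bool) → Bool) (d : ℕ) (hd : DegLE f d)
    (hf : ∃ x y, f x ≠ f y) :
    ∃ S : Finset ι, S.Nonempty ∧ S.card ≤ d ∧ ∀ z, coef f S z ≠ 0 := by
  classical
  have hne : ∃ (j : ι) (z : ι → Bool), coef f {j} z ≠ 0 := by
    by_contra hcon
    push Not at hcon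
    obtain ⟨x, y, hxy⟩ := hf
    apply hxy
    apply const_of_update f
    intro z j b
    have h0 := hcon j z
    have h1 := coef_insert f ∅ z j (by simp)
    rw [show (insert j ∅ : Finset ι) = {j} from rfl, h0] at h1
    simp only [coef, Finset.powerset_empty, Finset.sum_singleton, Finset.card_empty, pow_zero,
      one_mul, Finset.piecewise_empty] at h1
    have h2 : f (Function.update z j false) = f (Function.update z j true) := by
      cases ha : f (Function.update z j false) <;> cases hb : f (Function.update z j true) <;>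
        simp [ha, hb] at h1 ⊢
    have h3 : ∀ b', f (Function.update z j b') = f (Function.update z j false) := by
      intro b'
      cases b'
      · rfl
      · exact h2.symm
    have h4 : f z = f (Function.update z j (z j)) := by rw [Function.update_eq_self]
    rw [h3 b, h4, h3 (z j)]
  obtain ⟨j, z, hjz⟩ := hne
  let P : Finset (Finset ι) := Finset.univ.filter (fun S => ∃ z, coef f S z ≠ 0)
  have hP : P.Nonempty := ⟨{j}, by simp only [P, Finset.mem_filter, Finset.mem_univ, true_and]; exact ⟨z, hjz⟩⟩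
  obtain ⟨S, hS, hSmax⟩ := Finset.exists_max_image P Finset.card hP
  simp only [P, Finset.mem_filter, Finset.mem_univ, true_and] at hS
  have hmax : ∀ S' : Finset ι, S.card < S'.card → ∀ z, coef f S' z = 0 := by
    intro S' hS' z'
    by_contra hcon
    have := hSmax S' (by simp only [P, Finset.mem_filter, Finset.mem_univ, true_and]; exact ⟨z', hcon⟩)
    omega
  obtain ⟨z0, hz0⟩ := hS
  refine ⟨S, ?_, ?_, ?_⟩
  · rw [← Finset.card_pos]
    have := hSmax {j} (by simp only [P, Finset.mem_filter, Finset.mem_univ, true_and]; exact ⟨z, hjz⟩)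
    rw [Finset.card_singleton] at this
    omega
  · by_contra hcon
    push Not at hcon
    exact hz0 (hd S hcon z0)
  · intro z'
    rw [coef_const f S hmax z' z0]
    exact hz0

omit [Fintype ι] in
/-- querying all the variables of `M` -/
theorem comp_query (M : Finset ι) : ∀ (D : ℕ) (f : (ι → Bool) → Bool),
    (∀ a : ι → Bool, Comp D (fun y => f (M.piecewise a y))) → Comp (M.card + D) f := by
  induction M using Finset.induction_on with
  | empty =>
    intro D f h
    have := h (fun _ => false)
    simpa using this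
  | insert j M hj ih =>
    intro D f h
    have hb : ∀ b : Bool, Comp (M.card + D) (fun y => f (Function.update y j b)) := by
      intro b
      apply ih
      intro a
      have := h (Function.update a j b)
      refine Exists.imp (fun t ht => ⟨ht.1, fun x => ?_⟩) this
      rw [ht.2]
      change f _ = f _
      congr 1
      funext i
      by_cases hij : i = j
      · subst hij
        simp [Finset.piecewise, hj]
      · simp [Finset.piecewise, hij]
    obtain ⟨t0, h0, e0⟩ := hb false
    obtain ⟨t1, h1, e1⟩ := hb true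
    refine ⟨DT.node j t0 t1, ?_, ?_⟩
    · rw [DT.depth_node, Finset.card_insert_of_notMem hj]
      have := max_le h0 h1
      omega
    · intro x
      rw [DT.eval_node]
      by_cases hx : x j = true
      · rw [if_pos hx, e1]
        have : Function.update x j true = x := by rw [← hx, Function.update_eq_self]
        simp only [this]
      · rw [if_neg hx, e0]
        have hx' : x j = false := by simpa using hx
        have : Function.update x j false = x := by rw [← hx', Function.update_eq_self]
        simp only [this]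

omit [Fintype ι] in
theorem degLE_restrict (f : (ι → Bool) → Bool) (d : ℕ) (hd : DegLE f d) (M : Finset ι)
    (a : ι → Bool) : DegLE (fun y => f (M.piecewise a y)) d := by
  intro S hS z
  by_cases hSM : Disjoint S M
  · have := hd S hS (M.piecewise a z)
    rw [← this]
    unfold coef
    apply Finset.sum_congr rfl
    intro T _
    have : M.piecewise a (S.piecewise (fun i => decide (i ∈ T)) z) =
        S.piecewise (fun i => decide (i ∈ T)) (M.piecewise a z) := by
      funext i
      by_cases hi : i ∈ M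
      · have hiS : i ∉ S := fun h => (Finset.disjoint_left.mp hSM h) hi
        simp [Finset.piecewise, hi, hiS]
      · simp [Finset.piecewise, hi]
    simp only [this]
  · rw [Finset.not_disjoint_iff] at hSM
    obtain ⟨j, hjS, hjM⟩ := hSM
    have hins : insert j (S.erase j) = S := Finset.insert_erase hjS
    rw [← hins, coef_insert _ _ _ _ (Finset.notMem_erase j S), sub_eq_zero]
    unfold coef
    apply Finset.sum_congr rfl
    intro T _
    have : M.piecewise a ((S.erase j).piecewise (fun i => decide (i ∈ T))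
          (Function.update z j false)) =
        M.piecewise a ((S.erase j).piecewise (fun i => decide (i ∈ T))
          (Function.update z j true)) := by
      funext i
      by_cases hi : i ∈ M
      · simp [Finset.piecewise, hi]
      · have hij : i ≠ j := fun h => hi (h ▸ hjM)
        simp [Finset.piecewise, hi, Function.update_of_ne hij]
    simp only [this]

omit [Fintype ι] in
theorem coef_eq_zero_of_const (f : (ι → Bool) → Bool) (S : Finset ι) (hS : S.Nonempty)
    (z : ι → Bool) (c : Bool)
    (h : ∀ T ⊆ S, f (S.piecewise (fun i => decide (i ∈ T)) z) = c) : coef f S z = 0 := by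
  unfold coef
  have : ∀ T ∈ S.powerset, (-1 : ℤ) ^ T.card *
      (if f (S.piecewise (fun i => decide (i ∈ T)) z) then 1 else 0) =
      (-1) ^ T.card * (if c then 1 else 0) := by
    intro T hT
    rw [h T (Finset.mem_powerset.mp hT)]
  rw [Finset.sum_congr rfl this, ← Finset.sum_mul, Finset.sum_powerset_neg_one_pow_card_of_nonempty hS,
    zero_mul]

theorem bsLE_restrict (f : (ι → Bool) → Bool) (b : ℕ) (hb : BSLE f (b + 1)) (S : Finset ι)
    (hS : S.Nonempty) (hc : ∀ z, coef f S z ≠ 0) (a : ι → Bool) :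
    BSLE (fun y => f (S.piecewise a y)) b := by
  classical
  intro x 𝓑 hdis hsens
  let x' : ι → Bool := S.piecewise a x
  -- a sensitive block inside `S`
  have hB0 : ∃ B0 : Finset ι, B0 ⊆ S ∧ f (flipS B0 x') ≠ f x' := by
    by_contra hcon
    push Not at hcon
    apply hc x'
    apply coef_eq_zero_of_const f S hS x' (f x')
    intro T hT
    have := hcon (S.filter (fun i => decide (i ∈ T) ≠ x' i)) (Finset.filter_subset _ _)
    rw [← this]
    congr 1
    funext i
    by_cases hi : i ∈ S
    · by_cases hd : decide (i ∈ T) = x' i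
      · simp [Finset.piecewise, hi, flipS, hd]
      · have : decide (i ∈ T) = !x' i := by
          revert hd
          cases decide (i ∈ T) <;> cases x' i <;> simp
        simp [Finset.piecewise, hi, flipS, this]
    · simp [Finset.piecewise, hi, flipS]
  obtain ⟨B0, hB0S, hB0⟩ := hB0
  have hfl : ∀ B : Finset ι, S.piecewise a (flipS B x) = flipS (B \ S) x' := by
    intro B
    funext i
    by_cases hi : i ∈ S
    · simp [Finset.piecewise, hi, flipS, x']
    · simp [Finset.piecewise, hi, flipS, x']
  have hsens' : ∀ B ∈ 𝓑, f (flipS (B \ S) x') ≠ f x' := by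
    intro B hB
    have := hsens B hB
    simp only [hfl] at this
    exact this
  have hne : ∀ B : Finset ι, f (flipS B x') ≠ f x' → B.Nonempty := by
    intro B hB
    by_contra hcon
    rw [Finset.not_nonempty_iff_eq_empty] at hcon
    subst hcon
    apply hB
    congr 1
  have hB0ne := hne B0 hB0
  have hinj : Set.InjOn (fun B : Finset ι => B \ S) (𝓑 : Set (Finset ι)) := by
    intro B hB B' hB' heq
    by_contra hBB'
    have hd := hdis hB hB' hBB'
    obtain ⟨i, hi⟩ := hne _ (hsens' B hB)
    have hi' : i ∈ B' \ S := by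
      have heq' : B \ S = B' \ S := heq
      rw [← heq']
      exact hi
    exact (Finset.disjoint_left.mp hd (Finset.mem_sdiff.mp hi).1) (Finset.mem_sdiff.mp hi').1
  have hnotin : B0 ∉ 𝓑.image (fun B => B \ S) := by
    intro h
    rw [Finset.mem_image] at h
    obtain ⟨B, hB, hBeq⟩ := h
    obtain ⟨i, hi⟩ := hB0ne
    have h1 := hB0S hi
    rw [← hBeq] at hi
    exact (Finset.mem_sdiff.mp hi).2 h1
  have hcard := hb x' (insert B0 (𝓑.image (fun B => B \ S))) ?_ ?_
  · rw [Finset.card_insert_of_notMem hnotin, Finset.card_image_of_injOn hinj] at hcard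
    omega
  · rw [Finset.coe_insert, Set.pairwiseDisjoint_insert]
    constructor
    · rw [Finset.coe_image]
      intro C hC C' hC' hCC'
      obtain ⟨B, hB, rfl⟩ := hC
      obtain ⟨B', hB', rfl⟩ := hC'
      have hBB' : B ≠ B' := fun h => hCC' (by rw [h])
      have := hdis hB hB' hBB'
      exact Finset.disjoint_of_subset_left Finset.sdiff_subset
        (Finset.disjoint_of_subset_right Finset.sdiff_subset this)
    · intro C hC _
      rw [Finset.coe_image] at hC
      obtain ⟨B, hB, rfl⟩ := hC
      change Disjoint B0 (B \ S)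
      rw [Finset.disjoint_left]
      intro i hi hi'
      exact (Finset.mem_sdiff.mp hi').2 (hB0S hi)
  · intro C hC
    rw [Finset.mem_insert] at hC
    rcases hC with rfl | hC
    · exact hB0
    · rw [Finset.mem_image] at hC
      obtain ⟨B, hB, rfl⟩ := hC
      exact hsens' B hB

/-- `D(f) ≤ deg(f) * bs(f)` -/
theorem comp_of_deg_bs (d : ℕ) : ∀ (b : ℕ) (f : (ι → Bool) → Bool), DegLE f d → BSLE f b →
    Comp (d * b) f := by
  intro b
  induction b with
  | zero =>
    intro f _ hb
    have hconst : ∀ x y, f x = f y := by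
      intro x y
      by_contra hxy
      have h1 := hb x {Finset.univ.filter (fun i => x i ≠ y i)} (by simp only [ne_eq, coe_singleton, Set.pairwiseDisjoint_singleton]) ?_
      · simp only [ne_eq, card_singleton, nonpos_iff_eq_zero, one_ne_zero] at h1
      · intro B hB
        rw [Finset.mem_singleton] at hB
        subst hB
        have : flipS (Finset.univ.filter (fun i => x i ≠ y i)) x = y := by
          funext i
          by_cases hi : x i = y i
          · simp only [flipS, ne_eq, mem_filter, mem_univ, hi, not_true_eq_false, and_false, ↓reduceIte]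
          · have : y i = !x i := by
              revert hi
              cases x i <;> cases y i <;> simp
            simp only [flipS, ne_eq, mem_filter, mem_univ, this, Bool.eq_not_self, not_false_eq_true, and_self, ↓reduceIte]
        rw [this]
        exact fun h => hxy h.symm
    exact ⟨DT.leaf (f (fun _ => false)), by simp, fun x => by simp [hconst x (fun _ => false)]⟩
  | succ b ih =>
    intro f hd hb
    by_cases hf : ∃ x y, f x ≠ f y
    · obtain ⟨S, hS, hSd, hc⟩ := exists_max f d hd hf
      have h1 : Comp (S.card + d * b) f := by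
        apply comp_query S (d * b) f
        intro a
        exact ih _ (degLE_restrict f d hd S a) (bsLE_restrict f b hb S hS hc a)
      refine h1.mono ?_
      rw [Nat.mul_succ]
      omega
    · push Not at hf
      exact ⟨DT.leaf (f (fun _ => false)), by simp, fun x => by simp [hf x (fun _ => false)]⟩

end Vale.Agent.P362.UB
end
end

section

section

/-
The first part of this file (up to exists_eigenvalue) is the formalization of the linear algebra
of Huang's sensitivity theorem by Reid Barton, Johan Commelin, Jesse Michael Han, Chris Hughes,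
Robert Y. Lewis and Patrick Massot (Mathlib Archive, Apache 2.0 licence), adapted.
-/

namespace Vale.Agent.P362.Huang

noncomputable section

open Bool Finset Fintype Function LinearMap Module Module.DualBases

abbrev Q (n : ℕ) :=
  Fin n → Bool

def π {n : ℕ} : Q n.succ → Q n := fun p => p ∘ Fin.succ

namespace Q

@[ext]
theorem ext {n} {f g : Q n} (h : ∀ x, f x = g x) : f = g := funext h

variable (n : ℕ)

instance : Unique (Q 0) :=
  ⟨⟨fun _ => true⟩, by intro; ext x; fin_cases x⟩

theorem card : card (Q n) = 2 ^ n := by simp only [Fintype.card_pi, card_bool, prod_const, card_univ, Fintype.card_fin]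

variable {n}

theorem succ_n_eq (p q : Q n.succ) : p = q ↔ p 0 = q 0 ∧ π p = π q := by
  constructor
  · rintro rfl; exact ⟨rfl, rfl⟩
  · rintro ⟨h₀, h⟩
    ext x
    by_cases hx : x = 0
    · rwa [hx]
    · rw [← Fin.succ_pred x hx]
      convert! congr_fun h (Fin.pred x hx)

def adjacent {n : ℕ} (p : Q n) : Set (Q n) := { q | ∃! i, p i ≠ q i }

theorem not_adjacent_zero (p q : Q 0) : q ∉ p.adjacent := by rintro ⟨v, _⟩; apply finZeroElim v

theorem adj_iff_proj_eq {p q : Q n.succ} (h₀ : p 0 ≠ q 0) : q ∈ p.adjacent ↔ π p = π q := by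
  constructor
  · rintro ⟨i, _, h_uni⟩
    ext x; by_contra hx
    apply Fin.succ_ne_zero x
    rw [h_uni _ hx, h_uni _ h₀]
  · intro heq
    use 0, h₀
    intro y hy
    contrapose! hy
    rw [← Fin.succ_pred _ hy]
    apply congr_fun heq

theorem adj_iff_proj_adj {p q : Q n.succ} (h₀ : p 0 = q 0) :
    q ∈ p.adjacent ↔ π q ∈ (π p).adjacent := by
  constructor
  · rintro ⟨i, h_eq, h_uni⟩
    have h_i : i ≠ 0 := fun h_i => absurd h₀ (by rwa [h_i] at h_eq)
    use i.pred h_i,
      show p (Fin.succ (Fin.pred i _)) ≠ q (Fin.succ (Fin.pred i _)) by rwa [Fin.succ_pred]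
    intro y hy
    simp [Eq.symm (h_uni _ hy)]
  · rintro ⟨i, h_eq, h_uni⟩
    use i.succ, h_eq
    intro y hy
    rw [← Fin.pred_inj (ha := (?ha : y ≠ 0)) (hb := (?hb : i.succ ≠ 0)),
      Fin.pred_succ]
    case ha =>
      contrapose hy
      rw [hy, h₀]
    case hb =>
      apply Fin.succ_ne_zero
    apply h_uni
    simp [π, hy]

@[symm]
theorem adjacent.symm {p q : Q n} : q ∈ p.adjacent ↔ p ∈ q.adjacent := by
  simp only [adjacent, ne_comm, Set.mem_ofPred_eq]

end Q

def V : ℕ → Type
  | 0 => ℝ
  | n + 1 => V n × V n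

@[simp]
theorem V_zero : V 0 = ℝ := rfl

@[simp]
theorem V_succ {n : ℕ} : V (n + 1) = (V n × V n) := rfl

namespace V

@[ext]
theorem ext {n : ℕ} {p q : V n.succ} (h₁ : p.1 = q.1) (h₂ : p.2 = q.2) : p = q := Prod.ext h₁ h₂

variable (n : ℕ)

instance : DecidableEq (V n) := by induction n <;> · dsimp only [V]; infer_instance

instance : AddCommGroup (V n) := by induction n <;> · dsimp only [V]; infer_instance

set_option backward.isDefEq.respectTransparency false in
instance : Module ℝ (V n) := by induction n <;> · dsimp only [V]; infer_instance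

end V

noncomputable def e : ∀ {n}, Q n → V n
  | 0 => fun _ => (1 : ℝ)
  | Nat.succ _ => fun x => cond (x 0) (e (π x), 0) (0, e (π x))

@[simp]
theorem e_zero_apply (x : Q 0) : e x = (1 : ℝ) :=
  rfl

noncomputable def ε : ∀ {n : ℕ}, Q n → V n →ₗ[ℝ] ℝ
  | 0, _ => LinearMap.id
  | Nat.succ _, p =>
    cond (p 0) ((ε <| π p).comp <| LinearMap.fst _ _ _) ((ε <| π p).comp <| LinearMap.snd _ _ _)

variable {n : ℕ}

set_option backward.isDefEq.respectTransparency false in
theorem duality (p q : Q n) : ε p (e q) = if p = q then 1 else 0 := by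
  induction n with
  | zero => simp only [V_zero, ε, e, id_coe, id_eq, Subsingleton.elim (α := Q 0) p q, ↓reduceIte]
  | succ n IH =>
    dsimp [ε, e]
    cases hp : p 0 <;> cases hq : q 0
    all_goals
      simp only [Bool.cond_true, Bool.cond_false, LinearMap.fst_apply, LinearMap.snd_apply,
        LinearMap.comp_apply, IH]
      congr 1; simp [Q.succ_n_eq, hp, hq]

theorem epsilon_total {v : V n} (h : ∀ p : Q n, (ε p) v = 0) : v = 0 := by
  induction n with
  | zero => dsimp [ε] at h; exact h fun _ => true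
  | succ n ih =>
    obtain ⟨v₁, v₂⟩ := v
    ext <;> change _ = (0 : V n) <;> simp only <;> apply ih <;> intro p <;>
      [let q : Q n.succ := fun i => if h : i = 0 then true else p (i.pred h);
      let q : Q n.succ := fun i => if h : i = 0 then false else p (i.pred h)]
    all_goals
      specialize h q
      first
      | rw [ε, show q 0 = true from rfl, Bool.cond_true] at h
      | rw [ε, show q 0 = false from rfl, Bool.cond_false] at h
      rwa [show p = π q by ext; simp [q, Fin.succ_ne_zero, π]]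

open Module

theorem dualBases_e_ε (n : ℕ) : DualBases (@e n) (@ε n) where
  eval_same := by simp [duality]
  eval_of_ne _ _ h := by simp [duality, h]
  total h := sub_eq_zero.mp <| epsilon_total fun i ↦ by
    simpa only [map_sub, sub_eq_zero] using h i

theorem dim_V : Module.rank ℝ (V n) = 2 ^ n := by
  have : Module.rank ℝ (V n) = (2 ^ n : ℕ) := by
    rw [rank_eq_card_basis (dualBases_e_ε _).basis, Q.card]
  assumption_mod_cast

instance : FiniteDimensional ℝ (V n) :=
  (dualBases_e_ε _).basis.finiteDimensional_of_finite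

noncomputable def f : ∀ n, V n →ₗ[ℝ] V n
  | 0 => 0
  | n + 1 =>
    LinearMap.prod (LinearMap.coprod (f n) LinearMap.id) (LinearMap.coprod LinearMap.id (-f n))

@[simp]
theorem f_zero : f 0 = 0 :=
  rfl

theorem f_succ_apply (v : V n.succ) : f n.succ v = (f n v.1 + v.2, v.1 - f n v.2) := by
  cases v
  rw [f]
  simp only [sub_eq_add_neg]
  exact rfl

set_option backward.isDefEq.respectTransparency false in
theorem f_squared (v : V n) : (f n) (f n v) = (n : ℝ) • v := by
  induction n with
  | zero => simp only [Nat.cast_zero, zero_smul, f_zero, LinearMap.zero_apply]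
  | succ n IH =>
    cases v; rw [f_succ_apply, f_succ_apply]; simp only [V_succ, map_add, IH, add_assoc, add_sub_cancel, map_sub, add_sub_sub_cancel, Nat.cast_add, Nat.cast_one, add_smul (n : ℝ) 1, Prod.smul_mk, one_smul, Prod.mk_add_mk, Prod.mk.injEq, _root_.true_and]; abel

set_option backward.isDefEq.respectTransparency false in
open scoped Classical in
theorem f_matrix (p q : Q n) : |ε q (f n (e p))| = if p ∈ q.adjacent then 1 else 0 := by
  induction n with
  | zero =>
    dsimp [f]
    simp only [Q.not_adjacent_zero, ↓reduceIte, abs_eq_zero]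
    rfl
  | succ n IH =>
    have ite_nonneg : ite (π q = π p) (1 : ℝ) 0 ≥ 0 := by split_ifs <;> norm_num
    dsimp only [e, ε, f, V]; rw [LinearMap.prod_apply]; dsimp; cases hp : p 0 <;> cases hq : q 0
    all_goals
      repeat rw [Bool.cond_true]
      repeat rw [Bool.cond_false]
      simp [hp, hq, IH, duality, abs_of_nonneg ite_nonneg, Q.adj_iff_proj_eq,
        Q.adj_iff_proj_adj]

noncomputable def g (m : ℕ) : V m →ₗ[ℝ] V m.succ :=
  LinearMap.prod (f m + Real.sqrt (m + 1) • LinearMap.id) LinearMap.id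

variable {m : ℕ}

set_option backward.isDefEq.respectTransparency false in
theorem g_apply : ∀ v, g m v = (f m v + Real.sqrt (m + 1) • v, v) := by
  delta g; intro v; simp only [Nat.succ_eq_add_one, V_succ, LinearMap.prod_apply, id_coe, Function.prod_apply, LinearMap.add_apply, LinearMap.smul_apply, id_eq]

set_option backward.isDefEq.respectTransparency false in
theorem g_injective : Injective (g m) := by
  rw [g]
  intro x₁ x₂ h
  simp only [V, LinearMap.prod_apply, Function.prod_apply, id_apply, Prod.mk_inj] at h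
  exact h.right

set_option backward.isDefEq.respectTransparency false in
theorem f_image_g (w : V m.succ) (hv : ∃ v, g m v = w) : f m.succ w = Real.sqrt (m + 1) • w := by
  rcases hv with ⟨v, rfl⟩
  have : Real.sqrt (m + 1) * Real.sqrt (m + 1) = m + 1 := Real.mul_self_sqrt (mod_cast zero_le)
  rw [f_succ_apply, g_apply]
  simp only [Nat.succ_eq_add_one, V_succ, map_add, f_squared, map_smul, add_sub_cancel_left, Prod.smul_mk, smul_add, smul_smul, this, add_smul, one_smul, Prod.mk.injEq, _root_.and_true]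
  abel

open scoped Classical in

theorem exists_eigenvalue (H : Set (Q m.succ)) (hH : H.toFinset.card ≥ 2 ^ m + 1) :
    ∃ y ∈ Submodule.span ℝ (e '' H) ⊓ range (g m), y ≠ 0 := by
  let W := Submodule.span ℝ (e '' H)
  let img := range (g m)
  suffices 0 < Module.rank ℝ { x // x ∈ W ⊓ img } by
    exact mod_cast exists_mem_ne_zero_of_rank_pos this
  have dim_le : Module.rank ℝ { x // x ∈ W ⊔ img } ≤ 2 ^ (m + 1 : Cardinal) := by
    convert! ← Submodule.rank_le (W ⊔ img)
    rw [← Nat.cast_succ]
    apply dim_V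
  have dim_add : Module.rank ℝ { x // x ∈ W ⊔ img } + Module.rank ℝ { x // x ∈ W ⊓ img } = Module.rank ℝ { x // x ∈ W } + 2 ^ m := by
    convert! ← Submodule.rank_sup_add_rank_inf_eq W img
    rw [rank_range_of_injective (g m) g_injective]
    apply dim_V
  have dimW : Module.rank ℝ { x // x ∈ W } = card H := by
    have li : LinearIndependent ℝ (H.domRestrict e) := by
      convert! (dualBases_e_ε m.succ).basis.linearIndependent.comp _ Subtype.val_injective
      rw [(dualBases_e_ε _).coe_basis]
      rfl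
    have hdW := rank_span li
    rw [Set.range_domRestrict] at hdW
    convert! hdW
    rw [← (dualBases_e_ε _).coe_basis, Cardinal.mk_image_eq (dualBases_e_ε _).basis.injective,
      Cardinal.mk_fintype]
  rw [← finrank_eq_rank ℝ] at dim_le dim_add dimW ⊢
  rw [← finrank_eq_rank ℝ, ← finrank_eq_rank ℝ] at dim_add
  norm_cast at dim_le dim_add dimW ⊢
  rw [pow_succ'] at dim_le
  rw [Set.toFinset_card] at hH
  linarith


theorem expand (y : V n) : y = ∑ p : Q n, (ε p y) • e p := by
  have h0 : y - ∑ p : Q n, (ε p y) • e p = 0 := by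
    apply epsilon_total
    intro q
    rw [map_sub, map_sum]
    simp only [map_smul, duality, smul_eq_mul, mul_ite, mul_one, mul_zero]
    simp
  exact sub_eq_zero.mp h0

/-- the sum over neighbours as a sum over directions -/
theorem sum_adjacent (q : Q n) (w : Q n → ℝ) [DecidablePred (fun p : Q n => p ∈ q.adjacent)] :
    ∑ p : Q n, w p * (if p ∈ q.adjacent then 1 else 0) =
      ∑ i : Fin n, w (Function.update q i (!q i)) := by
  classical
  simp only [mul_ite, mul_one, mul_zero]
  rw [← Finset.sum_filter]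
  symm
  apply Finset.sum_bij (fun i _ => Function.update q i (!q i))
  · intro i _
    simp only [Finset.mem_filter, Finset.mem_univ, _root_.true_and]
    refine ⟨i, by simp, ?_⟩
    intro j hj
    by_contra hne
    apply hj
    simp [Function.update_of_ne hne]
  · intro i _ j _ hij
    by_contra hne
    have := congrFun hij i
    simp [Function.update_of_ne hne] at this
  · intro p hp
    simp only [Finset.mem_filter, Finset.mem_univ, _root_.true_and] at hp
    obtain ⟨i, hi, hu⟩ := hp
    refine ⟨i, Finset.mem_univ _, ?_⟩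
    funext j
    by_cases hj : j = i
    · subst hj
      simp only [Function.update_self]
      revert hi
      cases q j <;> cases p j <;> simp
    · rw [Function.update_of_ne hj]
      by_contra hne
      exact hj (hu j hne)
  · intro i _
    rfl

/-- Huang's theorem in spectral form: a set of more than half of the vertices of the cube of
dimension `m+1` carries a nonzero nonnegative vector whose adjacency Rayleigh quotient is at
least `√(m+1)`. -/
theorem huang_spectral (A : Finset (Q m.succ)) (hA : 2 ^ m + 1 ≤ A.card) :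
    ∃ v : Q m.succ → ℝ, (∀ p, 0 ≤ v p) ∧ (∀ p, p ∉ A → v p = 0) ∧ (0 < ∑ p, v p ^ 2) ∧
      Real.sqrt (m + 1) * ∑ p, v p ^ 2 ≤
        ∑ p, ∑ i, v p * v (Function.update p i (!p i)) := by
  classical
  obtain ⟨y, ⟨hyA, hyg⟩, hy0⟩ := exists_eigenvalue (A : Set (Q m.succ)) (by simpa using! hA)
  have hfy : f m.succ y = Real.sqrt (m + 1) • y := f_image_g y (by simpa using! hyg)
  refine ⟨fun p => |ε p y|, fun p => abs_nonneg _, ?_, ?_, ?_⟩
  · intro p hp
    by_contra hne
    have hne' : ε p y ≠ 0 := fun h => hne (by show |ε p y| = 0; rw [h, abs_zero])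
    exact hp (by simpa using! (dualBases_e_ε _).mem_of_mem_span hyA p hne')
  · have : ∃ p : Q m.succ, ε p y ≠ 0 := by
      by_contra hcon
      push Not at hcon
      exact hy0 (epsilon_total hcon)
    obtain ⟨p, hp⟩ := this
    have h1 : 0 < |ε p y| ^ 2 := by positivity
    exact lt_of_lt_of_le h1
      (Finset.single_le_sum (f := fun p : Q m.succ => |ε p y| ^ 2) (fun _ _ => by positivity)
        (Finset.mem_univ p))
  · rw [Finset.mul_sum]
    apply Finset.sum_le_sum
    intro q _
    have h1 : Real.sqrt (m + 1) * ε q y = ∑ p : Q m.succ, ε p y * ε q (f m.succ (e p)) := by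
      have h2 : ε q (f m.succ y) = Real.sqrt (m + 1) * ε q y := by
        rw [hfy, map_smul, smul_eq_mul]
      rw [← h2]
      conv_lhs => rw [expand y]
      rw [map_sum, map_sum]
      apply Finset.sum_congr rfl
      intro p _
      rw [map_smul, map_smul, smul_eq_mul]
    have h3 : Real.sqrt (m + 1) * |ε q y| ≤ ∑ i, |ε (Function.update q i (!q i)) y| := by
      rw [← abs_of_nonneg (Real.sqrt_nonneg ((m : ℝ) + 1)), ← abs_mul, h1]
      refine (Finset.abs_sum_le_sum_abs _ _).trans ?_
      rw [← sum_adjacent q (fun p => |ε p y|)]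
      apply Finset.sum_le_sum
      intro p _
      rw [abs_mul, f_matrix]
    calc Real.sqrt (m + 1) * |ε q y| ^ 2 = |ε q y| * (Real.sqrt (m + 1) * |ε q y|) := by ring
      _ ≤ |ε q y| * ∑ i, |ε (Function.update q i (!q i)) y| :=
          mul_le_mul_of_nonneg_left h3 (abs_nonneg _)
      _ = ∑ i, |ε q y| * |ε (Function.update q i (!q i)) y| := by rw [Finset.mul_sum]

end

end Vale.Agent.P362.Huang
end
end

section

section

/-! Upper bound block: query weights bound the degree (through Huang's theorem) and the block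
sensitivity, hence the decision tree depth. -/

namespace Vale.Agent.P362.UB

open Finset

/-- sign of a vertex of the cube -/
def sgnP {m : ℕ} (p : Fin m → Bool) : ℤ := ∏ i, (if p i then -1 else 1)

theorem sgnP_update {m : ℕ} (p : Fin m → Bool) (i : Fin m) :
    sgnP (Function.update p i (!p i)) = - sgnP p := by
  unfold sgnP
  rw [← Finset.mul_prod_erase Finset.univ _ (Finset.mem_univ i),
    ← Finset.mul_prod_erase Finset.univ (fun j => (if p j then (-1 : ℤ) else 1)) (Finset.mem_univ i)]
  have h1 : ∏ x ∈ Finset.univ.erase i, (if Function.update p i (!p i) x then (-1 : ℤ) else 1) =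
      ∏ x ∈ Finset.univ.erase i, (if p x then (-1 : ℤ) else 1) := by
    apply Finset.prod_congr rfl
    intro x hx
    rw [Function.update_of_ne (Finset.ne_of_mem_erase hx)]
  rw [h1, Function.update_self]
  cases p i <;> simp

theorem sgnP_sq {m : ℕ} (p : Fin m → Bool) : sgnP p = 1 ∨ sgnP p = -1 := by
  unfold sgnP
  induction (Finset.univ : Finset (Fin m)) using Finset.induction_on with
  | empty => simp
  | insert a s ha ih =>
    rw [Finset.prod_insert ha]
    rcases ih with h | h <;> rw [h] <;> cases p a <;> simp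

theorem sum_sgnP (m : ℕ) : ∑ p : Fin (m + 1) → Bool, sgnP p = 0 := by
  unfold sgnP
  have h := Finset.prod_univ_sum (fun _ : Fin (m + 1) => (Finset.univ : Finset Bool))
    (fun _ b => (if b then (-1 : ℤ) else 1))
  rw [Fintype.piFinset_univ] at h
  rw [← h]
  apply Finset.prod_eq_zero (Finset.mem_univ 0)
  simp

/-- of a function with nonzero signed sum, one of the two parity classes is large -/
theorem parity_class {m : ℕ} (g : (Fin (m + 1) → Bool) → Bool)
    (hg : ∑ p, sgnP p * (if g p then 1 else 0) ≠ 0) :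
    ∃ A : Finset (Fin (m + 1) → Bool), 2 ^ m + 1 ≤ A.card ∧
      ∀ p i, p ∈ A → Function.update p i (!p i) ∈ A → g (Function.update p i (!p i)) ≠ g p := by
  classical
  let A : Finset (Fin (m + 1) → Bool) := Finset.univ.filter (fun p => g p = decide (sgnP p = 1))
  have hcard : (A.card : ℤ) - (Aᶜ.card : ℤ) = 2 * ∑ p, sgnP p * (if g p then 1 else 0) := by
    have h1 : (A.card : ℤ) - (Aᶜ.card : ℤ) = ∑ p : Fin (m + 1) → Bool, (if p ∈ A then 1 else -1) := by
      rw [← Finset.sum_add_sum_compl A]
      have ha : ∑ p ∈ A, (if p ∈ A then (1 : ℤ) else -1) = A.card := by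
        rw [Finset.sum_congr rfl (fun p hp => if_pos hp)]
        simp
      have hb : ∑ p ∈ Aᶜ, (if p ∈ A then (1 : ℤ) else -1) = - (Aᶜ.card : ℤ) := by
        rw [Finset.sum_congr rfl (fun p hp => if_neg (Finset.mem_compl.mp hp))]
        simp
      rw [ha, hb]
      ring
    rw [h1, Finset.mul_sum]
    have h2 := sum_sgnP m
    have h3 : ∑ p : Fin (m + 1) → Bool, (if p ∈ A then (1 : ℤ) else -1) =
        ∑ p : Fin (m + 1) → Bool, (2 * (sgnP p * (if g p then 1 else 0)) - sgnP p) := by
      apply Finset.sum_congr rfl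
      intro p _
      simp only [A, Finset.mem_filter, Finset.mem_univ, true_and]
      rcases sgnP_sq p with h | h <;> rw [h] <;> cases g p <;> simp
    rw [h3, Finset.sum_sub_distrib, h2, sub_zero]
  have htot : A.card + Aᶜ.card = 2 ^ (m + 1) := by
    rw [Finset.card_add_card_compl]
    simp only [Fintype.card_pi, Fintype.card_bool, prod_const, card_univ, Fintype.card_fin]
  have hprop : ∀ p i, (p ∈ A ↔ Function.update p i (!p i) ∈ A) →
      g (Function.update p i (!p i)) ≠ g p := by
    intro p i h heq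
    simp only [A, Finset.mem_filter, Finset.mem_univ, true_and, heq, sgnP_update] at h
    rcases sgnP_sq p with h' | h' <;> rw [h'] at h <;> revert h <;> cases g p <;> simp
  rw [pow_succ] at htot
  rcases lt_or_gt_of_ne hg with h | h
  · refine ⟨Aᶜ, by omega, ?_⟩
    intro p i hp hp'
    apply hprop
    rw [Finset.mem_compl] at hp hp'
    exact ⟨fun h => absurd h hp, fun h => absurd h hp'⟩
  · refine ⟨A, by omega, ?_⟩
    intro p i hp hp'
    apply hprop
    exact ⟨fun _ => hp', fun _ => hp⟩

variable {ι : Type} [Fintype ι] [DecidableEq ι]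

/-- parametrization of a subcube -/
def subc {m : ℕ} (S : Finset ι) (e : Fin m ≃ S) (z : ι → Bool) (p : Fin m → Bool) : ι → Bool :=
  fun i => if h : i ∈ S then p (e.symm ⟨i, h⟩) else z i

omit [Fintype ι] in
theorem subc_update {m : ℕ} (S : Finset ι) (e : Fin m ≃ S) (z : ι → Bool) (p : Fin m → Bool)
    (i : Fin m) : subc S e z (Function.update p i (!p i)) =
      Function.update (subc S e z p) (e i) (!(subc S e z p (e i))) := by
  funext j
  by_cases hj : j = e i
  · subst hj
    simp [subc]
  · rw [Function.update_of_ne hj]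
    unfold subc
    by_cases hjS : j ∈ S
    · rw [dif_pos hjS, dif_pos hjS, Function.update_of_ne]
      intro h
      apply hj
      have := congrArg e h
      rw [Equiv.apply_symm_apply] at this
      exact congrArg Subtype.val this
    · rw [dif_neg hjS, dif_neg hjS]

/-- the subset of `S` selected by `p` -/
def tS {m : ℕ} (S : Finset ι) (e : Fin m ≃ S) (p : Fin m → Bool) : Finset ι :=
  (Finset.univ.filter (fun i => p i = true)).image (fun i => ((e i : S) : ι))

omit [Fintype ι] in
theorem mem_tS {m : ℕ} (S : Finset ι) (e : Fin m ≃ S) (p : Fin m → Bool) (j : ι) (hj : j ∈ S) :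
    j ∈ tS S e p ↔ p (e.symm ⟨j, hj⟩) = true := by
  unfold tS
  simp only [Finset.mem_image, Finset.mem_filter, Finset.mem_univ, true_and]
  constructor
  · rintro ⟨i, hi, hij⟩
    have : e.symm ⟨j, hj⟩ = i := by
      rw [Equiv.symm_apply_eq]
      exact Subtype.ext hij.symm
    rw [this]
    exact hi
  · intro h
    exact ⟨_, h, by rw [Equiv.apply_symm_apply]⟩

omit [Fintype ι] in
theorem card_tS {m : ℕ} (S : Finset ι) (e : Fin m ≃ S) (p : Fin m → Bool) :
    (tS S e p).card = (Finset.univ.filter (fun i => p i = true)).card := by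
  unfold tS
  apply Finset.card_image_of_injective
  intro i j h
  exact e.injective (Subtype.ext h)

omit [Fintype ι] in
theorem tS_subset {m : ℕ} (S : Finset ι) (e : Fin m ≃ S) (p : Fin m → Bool) : tS S e p ⊆ S := by
  intro j hj
  unfold tS at hj
  rw [Finset.mem_image] at hj
  obtain ⟨i, _, rfl⟩ := hj
  exact (e i).2

omit [Fintype ι] in
theorem coef_eq_sum {m : ℕ} (f : (ι → Bool) → Bool) (S : Finset ι) (e : Fin m ≃ S)
    (z : ι → Bool) : coef f S z = ∑ p, sgnP p * (if f (subc S e z p) then 1 else 0) := by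
  classical
  unfold coef
  symm
  apply Finset.sum_bij (fun (p : Fin m → Bool) _ => tS S e p)
  · intro p _
    rw [Finset.mem_powerset]
    exact tS_subset S e p
  · intro p _ q _ hpq
    funext i
    have h1 := mem_tS S e p (e i) (e i).2
    have h2 := mem_tS S e q (e i) (e i).2
    rw [hpq, h2] at h1
    simp only [Subtype.coe_eta, Equiv.symm_apply_apply] at h1
    cases hp : p i <;> cases hq : q i <;> simp [hp, hq] at h1 ⊢
  · intro T hT
    rw [Finset.mem_powerset] at hT
    refine ⟨fun i => decide (((e i : S) : ι) ∈ T), Finset.mem_univ _, ?_⟩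
    ext j
    constructor
    · intro hj
      have h1 := (mem_tS S e _ j (tS_subset _ _ _ hj)).mp hj
      simpa using h1
    · intro hj
      rw [mem_tS S e _ j (hT hj)]
      simpa using hj
  · intro p _
    rw [card_tS]
    have h1 : subc S e z p = S.piecewise (fun i => decide (i ∈ tS S e p)) z := by
      funext j
      by_cases hj : j ∈ S
      · rw [Finset.piecewise_eq_of_mem _ _ _ hj]
        unfold subc
        rw [dif_pos hj]
        have h2 := mem_tS S e p j hj
        by_cases hp : p (e.symm ⟨j, hj⟩) = true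
        · rw [hp]
          symm
          rw [decide_eq_true_eq]
          exact h2.mpr hp
        · have hp' : p (e.symm ⟨j, hj⟩) = false := by simpa using hp
          rw [hp']
          symm
          rw [decide_eq_false_iff_not]
          exact fun h => hp (h2.mp h)
      · rw [Finset.piecewise_eq_of_notMem _ _ _ hj]
        unfold subc
        rw [dif_neg hj]
    rw [h1]
    congr 1
    unfold sgnP
    rw [Finset.prod_ite]
    simp

omit [Fintype ι] in
theorem deg_bound {m : ℕ} (f : (ι → Bool) → Bool) (w : (ι → Bool) → ι → ℝ)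
    (hw0 : ∀ x i, 0 ≤ w x i) (T c : ℝ) (hT : ∀ x (S : Finset ι), ∑ i ∈ S, w x i ≤ T) (hc : 0 < c)
    (h : ∀ x i, f (Function.update x i (!x i)) ≠ f x →
      c ≤ Real.sqrt (w x i * w (Function.update x i (!x i)) i))
    (S : Finset ι) (hS : S.card = m + 1) (z : ι → Bool) (hz : coef f S z ≠ 0) :
    c * Real.sqrt (m + 1) ≤ T := by
  classical
  let e : Fin (m + 1) ≃ S := (Finset.equivFinOfCardEq hS).symm
  rw [coef_eq_sum f S e z] at hz
  obtain ⟨A, hA, hAs⟩ := parity_class (fun p => f (subc S e z p)) hz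
  obtain ⟨v, hv0, hvA, hvpos, hv⟩ := Huang.huang_spectral A hA
  have key : ∀ p i, c * (v p * v (Function.update p i (!p i))) ≤
      1 / 2 * (w (subc S e z p) (e i) * v p ^ 2 +
        w (subc S e z (Function.update p i (!p i))) (e i) *
          v (Function.update p i (!p i)) ^ 2) := by
    intro p i
    have hw1 := hw0 (subc S e z p) (e i)
    have hw2 := hw0 (subc S e z (Function.update p i (!p i))) (e i)
    have hv1 := hv0 p
    have hv2 := hv0 (Function.update p i (!p i))
    by_cases hp : p ∈ A
    · by_cases hp' : Function.update p i (!p i) ∈ A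
      · have h1 := hAs p i hp hp'
        have h2 : c ≤ Real.sqrt (w (subc S e z p) (e i) *
            w (subc S e z (Function.update p i (!p i))) (e i)) := by
          rw [subc_update]
          apply h
          rw [← subc_update]
          exact h1
        rw [Real.sqrt_mul hw1] at h2
        have h3 : c * (v p * v (Function.update p i (!p i))) ≤
            Real.sqrt (w (subc S e z p) (e i)) *
            Real.sqrt (w (subc S e z (Function.update p i (!p i))) (e i)) *
            (v p * v (Function.update p i (!p i))) :=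
          mul_le_mul_of_nonneg_right h2 (mul_nonneg hv1 hv2)
        have h4 := Real.sq_sqrt hw1
        have h5 := Real.sq_sqrt hw2
        nlinarith only [h3, h4, h5, sq_nonneg (Real.sqrt (w (subc S e z p) (e i)) * v p -           Real.sqrt (w (subc S e z (Function.update p i (!p i))) (e i)) *             v (Function.update p i (!p i)))]
      · rw [hvA _ hp']
        have : 0 ≤ w (subc S e z p) (e i) * v p ^ 2 := by (clear * - hw1; positivity)
        linarith
    · rw [hvA _ hp]
      have : 0 ≤ w (subc S e z (Function.update p i (!p i))) (e i) *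
          v (Function.update p i (!p i)) ^ 2 := by (clear * - hw2; positivity)
      linarith
  have hsum : c * ∑ p, ∑ i, v p * v (Function.update p i (!p i)) ≤
      ∑ p, ∑ i, w (subc S e z p) (e i) * v p ^ 2 := by
    have h1 : ∑ p, ∑ i, w (subc S e z p) (e i) * v p ^ 2 =
        ∑ p, ∑ i, 1 / 2 * (w (subc S e z p) (e i) * v p ^ 2 +
        w (subc S e z (Function.update p i (!p i))) (e i) *
          v (Function.update p i (!p i)) ^ 2) := by
      have h2 : ∑ p : Fin (m + 1) → Bool, ∑ i, w (subc S e z (Function.update p i (!p i))) (e i) *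
          v (Function.update p i (!p i)) ^ 2 = ∑ p, ∑ i, w (subc S e z p) (e i) * v p ^ 2 := by
        rw [Finset.sum_comm, Finset.sum_comm (f := fun p i => w (subc S e z p) (e i) * v p ^ 2)]
        apply Finset.sum_congr rfl
        intro i _
        have hinv : Function.Involutive (fun p : Fin (m + 1) → Bool =>
            Function.update p i (!p i)) := by
          intro p
          simp
        exact Fintype.sum_equiv hinv.toPerm _ _ (fun p => rfl)
      simp only [mul_add, Finset.sum_add_distrib, ← Finset.mul_sum]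
      rw [h2]
      ring
    rw [h1, Finset.mul_sum]
    apply Finset.sum_le_sum
    intro p _
    rw [Finset.mul_sum]
    exact Finset.sum_le_sum (fun i _ => key p i)
  have hT' : ∑ p, ∑ i, w (subc S e z p) (e i) * v p ^ 2 ≤ T * ∑ p, v p ^ 2 := by
    rw [Finset.mul_sum]
    apply Finset.sum_le_sum
    intro p _
    rw [← Finset.sum_mul]
    apply mul_le_mul_of_nonneg_right _ (sq_nonneg _)
    have h1 : ∑ i : Fin (m + 1), w (subc S e z p) (e i) = ∑ i ∈ S, w (subc S e z p) i := by
      rw [← Finset.sum_coe_sort S]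
      exact Fintype.sum_equiv e _ _ (fun i => rfl)
    rw [h1]
    exact hT _ S
  have hfin : (c * Real.sqrt (m + 1)) * ∑ p, v p ^ 2 ≤ T * ∑ p, v p ^ 2 := by
    calc (c * Real.sqrt (m + 1)) * ∑ p, v p ^ 2 = c * (Real.sqrt (m + 1) * ∑ p, v p ^ 2) := by ring
      _ ≤ c * ∑ p, ∑ i, v p * v (Function.update p i (!p i)) :=
          mul_le_mul_of_nonneg_left hv hc.le
      _ ≤ _ := hsum.trans hT'
  exact le_of_mul_le_mul_right hfin hvpos

theorem bs_bound (f : (ι → Bool) → Bool) (w : (ι → Bool) → ι → ℝ)
    (hw0 : ∀ x i, 0 ≤ w x i) (T c : ℝ) (hT : ∀ x, ∑ i, w x i ≤ T) (hc : 0 < c)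
    (h : ∀ x y, f x ≠ f y →
      c ≤ ∑ i ∈ Finset.univ.filter (fun i => x i ≠ y i), Real.sqrt (w x i * w y i))
    (x : ι → Bool) (𝓑 : Finset (Finset ι)) (hdis : (𝓑 : Set (Finset ι)).PairwiseDisjoint id)
    (hsens : ∀ B ∈ 𝓑, f (flipS B x) ≠ f x) : (𝓑.card : ℝ) * c ^ 2 ≤ T ^ 2 := by
  classical
  have hTS : ∀ x (S : Finset ι), ∑ i ∈ S, w x i ≤ T := by
    intro x S
    exact (Finset.sum_le_sum_of_subset_of_nonneg (Finset.subset_univ S)
      (fun i _ _ => hw0 x i)).trans (hT x)
  have hT0 : 0 ≤ T := by simpa only [sum_empty] using hTS x ∅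
  have hB : ∀ B ∈ 𝓑, c ^ 2 ≤ T * ∑ i ∈ B, w x i := by
    intro B hB
    have h1 := h x (flipS B x) (hsens B hB).symm
    have h2 : Finset.univ.filter (fun i => x i ≠ flipS B x i) = B := by
      ext i
      by_cases hi : i ∈ B
      · simp only [flipS, ne_eq, right_eq_ite_iff, Bool.eq_not_self, imp_false, Decidable.not_not, subset_univ, filter_mem_eq_of_subset, hi]
      · simp only [flipS, ne_eq, right_eq_ite_iff, Bool.eq_not_self, imp_false, Decidable.not_not, subset_univ, filter_mem_eq_of_subset, hi]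
    rw [h2] at h1
    have h3 : (∑ i ∈ B, Real.sqrt (w x i * w (flipS B x) i)) ^ 2 ≤
        (∑ i ∈ B, w x i) * ∑ i ∈ B, w (flipS B x) i := by
      have h4 : ∑ i ∈ B, Real.sqrt (w x i * w (flipS B x) i) =
          ∑ i ∈ B, Real.sqrt (w x i) * Real.sqrt (w (flipS B x) i) :=
        Finset.sum_congr rfl (fun i _ => Real.sqrt_mul (hw0 x i) _)
      rw [h4]
      refine (Finset.sum_mul_sq_le_sq_mul_sq B _ _).trans ?_
      rw [Finset.sum_congr rfl (fun i _ => Real.sq_sqrt (hw0 x i)),
        Finset.sum_congr rfl (fun i _ => Real.sq_sqrt (hw0 (flipS B x) i))]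
    have h5 : c ^ 2 ≤ (∑ i ∈ B, Real.sqrt (w x i * w (flipS B x) i)) ^ 2 :=
      pow_le_pow_left₀ hc.le h1 2
    have h6 : (∑ i ∈ B, w x i) * ∑ i ∈ B, w (flipS B x) i ≤ (∑ i ∈ B, w x i) * T :=
      mul_le_mul_of_nonneg_left (hTS _ B) (Finset.sum_nonneg (fun i _ => hw0 x i))
    linarith only [h3, h5, h6]
  have h1 : (𝓑.card : ℝ) * c ^ 2 ≤ ∑ B ∈ 𝓑, T * ∑ i ∈ B, w x i := by
    have : ∑ B ∈ 𝓑, c ^ 2 ≤ ∑ B ∈ 𝓑, T * ∑ i ∈ B, w x i := Finset.sum_le_sum hB
    simpa only [ge_iff_le, sum_const, nsmul_eq_mul] using this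
  have h2 : ∑ B ∈ 𝓑, T * ∑ i ∈ B, w x i = T * ∑ i ∈ 𝓑.biUnion id, w x i := by
    rw [← Finset.mul_sum, Finset.sum_biUnion hdis]
    rfl
  rw [h2] at h1
  have h3 := mul_le_mul_of_nonneg_left (hTS x (𝓑.biUnion id)) hT0
  linarith

/-- Query weights give a decision tree of depth at most (T/c)^4. -/
theorem exists_tree_of_weights (f : (ι → Bool) → Bool) (w : (ι → Bool) → ι → ℝ)
    (hw0 : ∀ x i, 0 ≤ w x i) (T c : ℝ) (hT : ∀ x, ∑ i, w x i ≤ T) (hc : 0 < c)
    (h : ∀ x y, f x ≠ f y →
      c ≤ ∑ i ∈ Finset.univ.filter (fun i => x i ≠ y i), Real.sqrt (w x i * w y i)) :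
    ∃ t : DT ι, (t.depth : ℝ) ≤ (T / c) ^ 4 ∧ ∀ x, t.eval x = f x := by
  classical
  have hTS : ∀ x (S : Finset ι), ∑ i ∈ S, w x i ≤ T := by
    intro x S
    exact (Finset.sum_le_sum_of_subset_of_nonneg (Finset.subset_univ S)
      (fun i _ _ => hw0 x i)).trans (hT x)
  have hT0 : 0 ≤ T := by simpa only [sum_empty] using hTS (fun _ => false) ∅
  have hedge : ∀ x i, f (Function.update x i (!x i)) ≠ f x →
      c ≤ Real.sqrt (w x i * w (Function.update x i (!x i)) i) := by
    intro x i hx
    have h1 := h x (Function.update x i (!x i)) hx.symm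
    have h2 : Finset.univ.filter (fun j => x j ≠ Function.update x i (!x i) j) = {i} := by
      ext j
      simp only [Finset.mem_filter, Finset.mem_univ, true_and, Finset.mem_singleton]
      by_cases hj : j = i
      · subst hj
        simp
      · simp [hj]
    rw [h2, Finset.sum_singleton] at h1
    exact h1
  let d : ℕ := ⌊(T / c) ^ 2⌋₊
  have hdeg : DegLE f d := by
    intro S hS z
    by_contra hz
    obtain ⟨m, hm⟩ : ∃ m, S.card = m + 1 := ⟨S.card - 1, by omega⟩
    have h1 := deg_bound f w hw0 T c hTS hc hedge S hm z hz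
    have h2 : Real.sqrt (m + 1) ≤ T / c := by
      rw [le_div_iff₀ hc]
      linarith only [h1]
    have h3 : (m : ℝ) + 1 ≤ (T / c) ^ 2 := by
      have := pow_le_pow_left₀ (Real.sqrt_nonneg _) h2 2
      rwa [Real.sq_sqrt (by (clear * -; positivity))] at this
    have h4 : m + 1 ≤ d := by
      apply Nat.le_floor
      push_cast
      exact h3
    omega
  have hbs : BSLE f d := by
    intro x 𝓑 hdis hsens
    have h1 := bs_bound f w hw0 T c hT hc h x 𝓑 hdis hsens
    apply Nat.le_floor
    rw [div_pow, le_div_iff₀ (by positivity)]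
    exact h1
  obtain ⟨t, ht, he⟩ := comp_of_deg_bs d d f hdeg hbs
  refine ⟨t, ?_, he⟩
  have h1 : (d : ℝ) ≤ (T / c) ^ 2 := Nat.floor_le (by (clear * -; positivity))
  calc (t.depth : ℝ) ≤ ((d * d : ℕ) : ℝ) := by exact_mod_cast ht
    _ = (d : ℝ) * d := by push_cast; ring
    _ ≤ (T / c) ^ 2 * (T / c) ^ 2 := by
        apply mul_le_mul h1 h1 (by (clear * -; positivity)) (by (clear * -; positivity))
    _ = (T / c) ^ 4 := by ring

end Vale.Agent.P362.UB
end
end

section

section

/-! Upper bound block, quantum part: the hybrid argument gives query weights. -/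

namespace Vale.Agent.P362.UB

open Finset

variable {ι : Type} [Fintype ι] [DecidableEq ι]

theorem oracle_mulVec (m : ℕ) (x : ι → Bool) (u : ι × Bool × Fin m → ℂ) (a : ι × Bool × Fin m) :
    ((oracle m x).mulVec u) a = u (a.1, xor a.2.1 (x a.1), a.2.2) := by
  unfold Matrix.mulVec dotProduct oracle
  rw [Finset.sum_eq_single (a.1, xor a.2.1 (x a.1), a.2.2)]
  · simp
  · intro b _ hb
    have hne : ¬ a = (b.1, xor b.2.1 (x b.1), b.2.2) := by
      intro h
      apply hb
      rw [h]
      simp
    change (if a = (b.1, xor b.2.1 (x b.1), b.2.2) then (1 : ℂ) else 0) * u b = 0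
    rw [if_neg hne, zero_mul]
  · intro h
    exact absurd (Finset.mem_univ _) h

/-- the inner product -/
noncomputable def ip {W : Type} [Fintype W] (u v : W → ℂ) : ℂ := ∑ w, star (u w) * v w

theorem ip_unitary {W : Type} [Fintype W] [DecidableEq W] (U : Matrix.unitaryGroup W ℂ)
    (u v : W → ℂ) : ip (U.1.mulVec u) (U.1.mulVec v) = ip u v := by
  have h1 : ∀ u v : W → ℂ, ip u v = dotProduct (star u) v := by
    intro u v
    rfl
  rw [h1, h1, Matrix.star_mulVec, Matrix.dotProduct_mulVec, Matrix.vecMul_vecMul]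
  have h2 : (U.1).conjTranspose * U.1 = 1 := by
    have := Matrix.mem_unitaryGroup_iff'.mp U.2
    exact this
  rw [h2, Matrix.vecMul_one]

theorem norm_ip_le {W : Type} (s : Finset W) (u v : W → ℂ) :
    ‖∑ w ∈ s, star (u w) * v w‖ ≤ Real.sqrt (∑ w ∈ s, ‖u w‖ ^ 2) * Real.sqrt (∑ w ∈ s, ‖v w‖ ^ 2) := by
  refine (norm_sum_le _ _).trans ?_
  have h1 : ∑ w ∈ s, ‖star (u w) * v w‖ = ∑ w ∈ s, ‖u w‖ * ‖v w‖ := by
    apply Finset.sum_congr rfl
    intro w _
    rw [norm_mul, norm_star]
  rw [h1]
  exact Real.sum_mul_le_sqrt_mul_sqrt s _ _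

/-- the norm of the component with query register `i` -/
noncomputable def pn {m : ℕ} (u : ι × Bool × Fin m → ℂ) (i : ι) : ℝ :=
  Real.sqrt (∑ w : Bool × Fin m, ‖u (i, w)‖ ^ 2)

theorem ip_oracle {m : ℕ} (x y : ι → Bool) (u v : ι × Bool × Fin m → ℂ) :
    ‖ip ((oracle m x).mulVec u) ((oracle m y).mulVec v) - ip u v‖ ≤
      2 * ∑ i ∈ Finset.univ.filter (fun i => x i ≠ y i), pn u i * pn v i := by
  have h1 : ip ((oracle m x).mulVec u) ((oracle m y).mulVec v) =
      ∑ i, ∑ w : Bool × Fin m, star (u (i, xor w.1 (x i), w.2)) * v (i, xor w.1 (y i), w.2) := by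
    unfold ip
    rw [Fintype.sum_prod_type]
    apply Finset.sum_congr rfl
    intro i _
    apply Finset.sum_congr rfl
    intro w _
    rw [oracle_mulVec, oracle_mulVec]
  have h2 : ip u v = ∑ i, ∑ w : Bool × Fin m, star (u (i, w)) * v (i, w) := by
    unfold ip
    rw [Fintype.sum_prod_type]
  have hre : ∀ (c : Bool) (F : Bool × Fin m → ℝ),
      ∑ w : Bool × Fin m, F (xor w.1 c, w.2) = ∑ w : Bool × Fin m, F w := by
    intro c F
    rw [Fintype.sum_prod_type, Fintype.sum_prod_type]
    cases c <;> simp [add_comm]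
  have hreC : ∀ (c : Bool) (F : Bool × Fin m → ℂ),
      ∑ w : Bool × Fin m, F (xor w.1 c, w.2) = ∑ w : Bool × Fin m, F w := by
    intro c F
    rw [Fintype.sum_prod_type, Fintype.sum_prod_type]
    cases c <;> simp [add_comm]
  rw [h1, h2, ← Finset.sum_sub_distrib]
  refine (norm_sum_le _ _).trans ?_
  rw [Finset.mul_sum, Finset.sum_filter]
  apply Finset.sum_le_sum
  intro i _
  by_cases hi : x i = y i
  · rw [if_neg (not_not.mpr hi), hi]
    rw [hreC (y i) (fun w => star (u (i, w)) * v (i, w)), sub_self, norm_zero]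
  · rw [if_pos hi]
    refine (norm_sub_le _ _).trans ?_
    have h3 : ‖∑ w : Bool × Fin m, star (u (i, w)) * v (i, w)‖ ≤ pn u i * pn v i :=
      norm_ip_le Finset.univ (fun w => u (i, w)) (fun w => v (i, w))
    have h4 : ‖∑ w : Bool × Fin m, star (u (i, xor w.1 (x i), w.2)) *
        v (i, xor w.1 (y i), w.2)‖ ≤ pn u i * pn v i := by
      have := norm_ip_le Finset.univ (fun w : Bool × Fin m => u (i, xor w.1 (x i), w.2))
        (fun w => v (i, xor w.1 (y i), w.2))
      rw [hre (x i) (fun w => ‖u (i, w)‖ ^ 2), hre (y i) (fun w => ‖v (i, w)‖ ^ 2)] at this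
      exact this
    linarith

theorem state_zero' (A : QAlg ι) (x : ι → Bool) :
    A.state x 0 = (A.U 0).1.mulVec (Pi.single A.start 1) := rfl

theorem state_succ' (A : QAlg ι) (x : ι → Bool) (t : ℕ) :
    A.state x (t + 1) = (A.U (t + 1)).1.mulVec ((oracle A.m x).mulVec (A.state x t)) := rfl

theorem ip_state (A : QAlg ι) (x y : ι → Bool) : ∀ T : ℕ,
    ‖ip (A.state x T) (A.state y T) - 1‖ ≤
      2 * ∑ t ∈ Finset.range T, ∑ i ∈ Finset.univ.filter (fun i => x i ≠ y i),
        pn (A.state x t) i * pn (A.state y t) i := by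
  intro T
  induction T with
  | zero =>
    have : ip (A.state x 0) (A.state y 0) = 1 := by
      rw [state_zero', state_zero', ip_unitary]
      unfold ip
      rw [Finset.sum_eq_single A.start]
      · simp
      · intro b _ hb
        simp [Pi.single_eq_of_ne hb]
      · intro h
        exact absurd (Finset.mem_univ _) h
    rw [this]
    simp only [sub_self, norm_zero, range_zero, ne_eq, sum_empty, mul_zero, Std.le_refl]
  | succ T ih =>
    rw [Finset.sum_range_succ, mul_add]
    have h1 : ip (A.state x (T + 1)) (A.state y (T + 1)) =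
        ip ((oracle A.m x).mulVec (A.state x T)) ((oracle A.m y).mulVec (A.state y T)) := by
      rw [state_succ', state_succ', ip_unitary]
    have h2 := ip_oracle x y (A.state x T) (A.state y T)
    rw [h1]
    calc ‖ip ((oracle A.m x).mulVec (A.state x T)) ((oracle A.m y).mulVec (A.state y T)) - 1‖
        = ‖(ip (A.state x T) (A.state y T) - 1) +
          (ip ((oracle A.m x).mulVec (A.state x T)) ((oracle A.m y).mulVec (A.state y T)) -
            ip (A.state x T) (A.state y T))‖ := by congr 1; ring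
      _ ≤ _ := (norm_add_le _ _).trans (add_le_add ih h2)

theorem ip_self {W : Type} [Fintype W] (u : W → ℂ) : ip u u = ((∑ w, ‖u w‖ ^ 2 : ℝ) : ℂ) := by
  unfold ip
  push_cast
  apply Finset.sum_congr rfl
  intro w _
  have := Complex.conj_mul' (u w)
  rw [← this]
  rfl

theorem state_norm (A : QAlg ι) (x : ι → Bool) (T : ℕ) : ∑ w, ‖A.state x T w‖ ^ 2 = 1 := by
  have h1 := ip_state A x x T
  have h2 : Finset.univ.filter (fun i => x i ≠ x i) = ∅ := by
    ext i
    simp
  rw [h2] at h1
  simp only [Finset.sum_empty, Finset.sum_const_zero, mul_zero] at h1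
  have h3 : ip (A.state x T) (A.state x T) = 1 := by
    have := norm_le_zero_iff.mp h1
    exact sub_eq_zero.mp this
  rw [ip_self] at h3
  exact_mod_cast h3

/-- the query weights of an algorithm with `T` queries -/
noncomputable def wts (A : QAlg ι) (T : ℕ) (x : ι → Bool) (i : ι) : ℝ :=
  ∑ t ∈ Finset.range T, pn (A.state x t) i ^ 2

theorem wts_nonneg (A : QAlg ι) (T : ℕ) (x : ι → Bool) (i : ι) : 0 ≤ wts A T x i :=
  Finset.sum_nonneg (fun _ _ => sq_nonneg _)

theorem sum_wts (A : QAlg ι) (T : ℕ) (x : ι → Bool) : ∑ i, wts A T x i = T := by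
  unfold wts
  rw [Finset.sum_comm]
  have : ∀ t ∈ Finset.range T, ∑ i, pn (A.state x t) i ^ 2 = 1 := by
    intro t _
    rw [← state_norm A x t, Fintype.sum_prod_type]
    apply Finset.sum_congr rfl
    intro i _
    unfold pn
    rw [Real.sq_sqrt (Finset.sum_nonneg (fun _ _ => sq_nonneg _))]
  rw [Finset.sum_congr rfl this]
  simp

theorem hybrid (A : QAlg ι) (T : ℕ) (x y : ι → Bool) :
    ‖ip (A.state x T) (A.state y T) - 1‖ ≤
      2 * ∑ i ∈ Finset.univ.filter (fun i => x i ≠ y i),
        Real.sqrt (wts A T x i * wts A T y i) := by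
  refine (ip_state A x y T).trans ?_
  rw [Finset.sum_comm]
  apply mul_le_mul_of_nonneg_left _ (by norm_num)
  apply Finset.sum_le_sum
  intro i _
  rw [Real.sqrt_mul (wts_nonneg A T x i)]
  exact Real.sum_mul_le_sqrt_mul_sqrt _ _ _

theorem sqrt_mul_le (a b : ℝ) (ha : 0 ≤ a) (hb : 0 ≤ b) :
    Real.sqrt a * Real.sqrt b ≤ 7 / 20 * a + 5 / 7 * b := by
  have h1 := Real.sq_sqrt ha
  have h2 := Real.sq_sqrt hb
  nlinarith [sq_nonneg (7 / 10 * Real.sqrt a - Real.sqrt b)]

theorem final_ip (f : (ι → Bool) → Bool) (A : QAlg ι) (T : ℕ)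
    (hA : ∀ x : ι → Bool, 2 / 3 ≤ A.prob T x (f x)) (x y : ι → Bool) (hxy : f x ≠ f y) :
    ‖ip (A.state x T) (A.state y T)‖ ≤ 19 / 20 := by
  have hfy : f y = !f x := by
    revert hxy
    cases f x <;> cases f y <;> simp
  have hsplit : ∀ (F : ι × Bool × Fin A.m → ℂ), ∑ w, F w =
      ∑ w ∈ Finset.univ.filter (fun w => A.out w = f x), F w +
      ∑ w ∈ Finset.univ.filter (fun w => A.out w = !f x), F w := by
    intro F
    rw [← Finset.sum_filter_add_sum_filter_not Finset.univ (fun w => A.out w = f x)]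
    congr 1
    apply Finset.sum_congr _ (fun _ _ => rfl)
    ext w
    simp only [Finset.mem_filter, Finset.mem_univ, true_and]
    cases A.out w <;> cases f x <;> simp
  have hprob : ∀ z b, A.prob T z b =
      ∑ w ∈ Finset.univ.filter (fun w => A.out w = b), ‖A.state z T w‖ ^ 2 := by
    intro z b
    unfold QAlg.prob
    rw [Finset.sum_filter]
  have htot : ∀ z, A.prob T z (f x) + A.prob T z (!f x) = 1 := by
    intro z
    rw [hprob, hprob]
    have h1 := state_norm A z T
    rw [← Finset.sum_filter_add_sum_filter_not Finset.univ (fun w => A.out w = f x)] at h1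
    rw [← h1]
    congr 1
    apply Finset.sum_congr _ (fun _ _ => rfl)
    ext w
    simp only [Finset.mem_filter, Finset.mem_univ, true_and]
    cases A.out w <;> cases f x <;> simp
  have hnn : ∀ z b, 0 ≤ A.prob T z b := by
    intro z b
    rw [hprob]
    exact Finset.sum_nonneg (fun _ _ => sq_nonneg _)
  have h1 : ‖ip (A.state x T) (A.state y T)‖ ≤
      Real.sqrt (A.prob T x (f x)) * Real.sqrt (A.prob T y (f x)) +
      Real.sqrt (A.prob T x (!f x)) * Real.sqrt (A.prob T y (!f x)) := by
    unfold ip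
    rw [hsplit]
    refine (norm_add_le _ _).trans ?_
    apply add_le_add
    · rw [hprob, hprob]
      exact norm_ip_le _ _ _
    · rw [hprob, hprob]
      exact norm_ip_le _ _ _
  have hx := hA x
  have hy := hA y
  rw [hfy] at hy
  have tx := htot x
  have ty := htot y
  have h2 := sqrt_mul_le (A.prob T x (f x)) (A.prob T y (f x)) (hnn _ _) (hnn _ _)
  have h3 := sqrt_mul_le (A.prob T y (!f x)) (A.prob T x (!f x)) (hnn _ _) (hnn _ _)
  rw [mul_comm] at h3
  linarith

/-- A quantum algorithm with `T` queries yields a decision tree of depth `O(T^4)`. -/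
theorem exists_tree (f : (ι → Bool) → Bool) (T : ℕ) (h : QuantComputes f T) :
    ∃ t : DT ι, (t.depth : ℝ) ≤ 2560000 * (T : ℝ) ^ 4 ∧ ∀ x, t.eval x = f x := by
  obtain ⟨A, hA⟩ := h
  obtain ⟨t, ht, he⟩ := exists_tree_of_weights f (wts A T) (wts_nonneg A T) T (1 / 40)
    (fun x => (sum_wts A T x).le) (by norm_num) (by
      intro x y hxy
      have h1 := hybrid A T x y
      have h2 := final_ip f A T hA x y hxy
      have h3 : (1 : ℝ) ≤ ‖ip (A.state x T) (A.state y T)‖ +
          ‖ip (A.state x T) (A.state y T) - 1‖ := by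
        have h4 : (1 : ℂ) = ip (A.state x T) (A.state y T) -
          (ip (A.state x T) (A.state y T) - 1) := by ring
        calc (1 : ℝ) = ‖(1 : ℂ)‖ := by simp
          _ = ‖ip (A.state x T) (A.state y T) -
              (ip (A.state x T) (A.state y T) - 1)‖ := by rw [← h4]
          _ ≤ _ := norm_sub_le _ _
      linarith only [h1, h2, h3])
  refine ⟨t, ?_, he⟩
  calc (t.depth : ℝ) ≤ ((T : ℝ) / (1 / 40)) ^ 4 := ht
    _ = 2560000 * (T : ℝ) ^ 4 := by ring

omit [Fintype ι] [DecidableEq ι] in
theorem randComputes_of_tree (f : (ι → Bool) → Bool) (t : DT ι) (h : ∀ x, t.eval x = f x) :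
    RandComputes f t.depth := by
  refine ⟨PMF.pure t, ?_, ?_⟩
  · intro t' ht'
    rw [PMF.support_pure, Set.mem_singleton_iff] at ht'
    rw [ht']
  · intro x
    have h1 : (PMF.pure t).toOuterMeasure {t' | t'.eval x = f x} = 1 := by
      rw [PMF.toOuterMeasure_pure_apply, if_pos]
      exact h x
    rw [h1]
    rw [ENNReal.div_le_iff (by norm_num) (by norm_num)]
    norm_num

end Vale.Agent.P362.UB
end
end

section

section

/-! Every total function is computed by some quantum algorithm (reading all bits), and the known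
upper bound `R = O(Q^4)`. -/

namespace Vale.Agent.P362.UB

open Finset

variable {W : Type} [Fintype W] [DecidableEq W]

/-- permutation matrix -/
def permM (σ : Equiv.Perm W) : Matrix W W ℂ := fun a b => if a = σ b then 1 else 0

theorem permM_unitary (σ : Equiv.Perm W) : permM σ ∈ Matrix.unitaryGroup W ℂ := by
  rw [Matrix.mem_unitaryGroup_iff']
  ext a b
  rw [Matrix.mul_apply, Finset.sum_eq_single (σ a)]
  · rw [Matrix.star_apply, Matrix.one_apply]
    by_cases hab : a = b
    · subst hab
      simp [permM]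
    · have : ¬ σ a = σ b := fun h => hab (σ.injective h)
      simp [permM, hab]
  · intro c _ hc
    rw [Matrix.star_apply]
    simp [permM, hc]
  · intro h
    exact absurd (Finset.mem_univ _) h

/-- permutation matrix as an element of the unitary group -/
def permU (σ : Equiv.Perm W) : Matrix.unitaryGroup W ℂ := ⟨permM σ, permM_unitary σ⟩

theorem permU_single (σ : Equiv.Perm W) (w : W) :
    (permU σ).1.mulVec (Pi.single w 1) = Pi.single (σ w) (1 : ℂ) := by
  funext a
  rw [Matrix.mulVec_single_one]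
  change (if a = σ w then (1 : ℂ) else 0) = _
  by_cases h : a = σ w
  · rw [if_pos h, h, Pi.single_eq_same]
  · rw [if_neg h, Pi.single_eq_of_ne h]

theorem oracle_single {ι : Type} [Fintype ι] [DecidableEq ι] (m : ℕ) (x : ι → Bool)
    (w : ι × Bool × Fin m) :
    (oracle m x).mulVec (Pi.single w 1) = Pi.single (w.1, xor w.2.1 (x w.1), w.2.2) (1 : ℂ) := by
  funext a
  rw [Matrix.mulVec_single_one]
  change (if a = (w.1, xor w.2.1 (x w.1), w.2.2) then (1 : ℂ) else 0) = _
  by_cases h : a = (w.1, xor w.2.1 (x w.1), w.2.2)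
  · rw [if_pos h, h, Pi.single_eq_same]
  · rw [if_neg h, Pi.single_eq_of_ne h]

section
variable (k : ℕ)

/-- memory: all bit strings of length `k+1` -/
noncomputable def enc : (Fin (k + 1) → Bool) ≃ Fin (Fintype.card (Fin (k + 1) → Bool)) :=
  Fintype.equivFin _

/-- swap the answer bit with the memory cell of the current position, then move on -/
noncomputable def stepFun (w : Fin (k + 1) × Bool × Fin (Fintype.card (Fin (k + 1) → Bool))) :
    Fin (k + 1) × Bool × Fin (Fintype.card (Fin (k + 1) → Bool)) :=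
  (finRotate (k + 1) w.1, (enc k).symm w.2.2 w.1,
    enc k (Function.update ((enc k).symm w.2.2) w.1 w.2.1))

theorem stepFun_injective : Function.Injective (stepFun k) := by
  intro w w' h
  obtain ⟨i, b, z⟩ := w
  obtain ⟨i', b', z'⟩ := w'
  simp only [stepFun, Prod.mk.injEq, EmbeddingLike.apply_eq_iff_eq] at h
  obtain ⟨h1, h2, h3⟩ := h
  subst h1
  have hb : b = b' := by
    have := congrFun h3 i
    simpa using this
  subst hb
  have hz : (enc k).symm z = (enc k).symm z' := by
    funext j
    by_cases hj : j = i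
    · subst hj
      exact h2
    · have := congrFun h3 j
      simpa [Function.update_of_ne hj] using this
  have := (enc k).symm.injective hz
  rw [this]

noncomputable def stepPerm :
    Equiv.Perm (Fin (k + 1) × Bool × Fin (Fintype.card (Fin (k + 1) → Bool))) :=
  Equiv.ofBijective (stepFun k) ((Finite.injective_iff_bijective).mp (stepFun_injective k))

/-- the algorithm reading all bits -/
noncomputable def readAll (f : (Fin (k + 1) → Bool) → Bool) : QAlg (Fin (k + 1)) where
  m := Fintype.card (Fin (k + 1) → Bool)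
  U := fun t => if t = 0 then 1 else permU (stepPerm k)
  start := (0, false, enc k (fun _ => false))
  out := fun w => f ((enc k).symm w.2.2)

theorem readAll_state (f : (Fin (k + 1) → Bool) → Bool) (x : Fin (k + 1) → Bool) (t : ℕ)
    (ht : t ≤ k) : (readAll k f).state x t =
      Pi.single (⟨t, by omega⟩, false, enc k (fun j => if j.val < t then x j else false)) 1 := by
  induction t with
  | zero =>
    rw [state_zero']
    have h1 : (readAll k f).U 0 = 1 := rfl
    rw [h1]
    simp only [Nat.not_lt_zero, if_false]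
    change (1 : Matrix _ _ ℂ).mulVec _ = _
    rw [Matrix.one_mulVec]
    rfl
  | succ t ih =>
    rw [state_succ', ih (by omega)]
    have h1 : (readAll k f).U (t + 1) = permU (stepPerm k) := rfl
    rw [h1]
    have h2 := oracle_single (Fintype.card (Fin (k + 1) → Bool)) x
      ((⟨t, by omega⟩, false, enc k (fun j => if j.val < t then x j else false)) :
        Fin (k + 1) × Bool × Fin (Fintype.card (Fin (k + 1) → Bool)))
    have h3 := permU_single (stepPerm k)
      (((⟨t, by omega⟩ : Fin (k + 1)), xor false (x ⟨t, by omega⟩),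
        enc k (fun j => if j.val < t then x j else false)) :
        Fin (k + 1) × Bool × Fin (Fintype.card (Fin (k + 1) → Bool)))
    refine Eq.trans ?_ (h3.trans ?_)
    · exact congrArg (fun v => (permU (stepPerm k)).1.mulVec v) h2
    · congr 1
      change stepFun k _ = _
      unfold stepFun
      simp only [Equiv.symm_apply_apply, Bool.false_xor]
      have hfun : Function.update (fun j : Fin (k + 1) => if j.val < t then x j else false)
          ⟨t, by omega⟩ (x ⟨t, by omega⟩) = fun j => if j.val < t + 1 then x j else false := by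
        funext j
        by_cases hj : j = ⟨t, by omega⟩
        · subst hj
          simp
        · rw [Function.update_of_ne hj]
          have hj' : j.val ≠ t := fun h => hj (Fin.ext h)
          by_cases hlt : j.val < t
          · rw [if_pos hlt, if_pos (by omega)]
          · rw [if_neg hlt, if_neg (by omega)]
      rw [hfun, finRotate_of_lt (by omega)]
      simp only [lt_self_iff_false, ↓reduceIte, Order.lt_add_one_iff, Bool.if_false_right]

theorem readAll_final (f : (Fin (k + 1) → Bool) → Bool) (x : Fin (k + 1) → Bool) :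
    ∃ i b, (readAll k f).state x (k + 1) = Pi.single (i, b, enc k x) 1 := by
  rw [state_succ', readAll_state k f x k le_rfl]
  have h1 : (readAll k f).U (k + 1) = permU (stepPerm k) := rfl
  rw [h1]
  have h2 := oracle_single (Fintype.card (Fin (k + 1) → Bool)) x
    ((⟨k, by omega⟩, false, enc k (fun j => if j.val < k then x j else false)) :
      Fin (k + 1) × Bool × Fin (Fintype.card (Fin (k + 1) → Bool)))
  have h3 := permU_single (stepPerm k)
    (((⟨k, by omega⟩ : Fin (k + 1)), xor false (x ⟨k, by omega⟩),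
      enc k (fun j => if j.val < k then x j else false)) :
      Fin (k + 1) × Bool × Fin (Fintype.card (Fin (k + 1) → Bool)))
  refine ⟨(stepFun k (((⟨k, by omega⟩ : Fin (k + 1)), xor false (x ⟨k, by omega⟩),
      enc k (fun j => if j.val < k then x j else false)))).1,
    (stepFun k (((⟨k, by omega⟩ : Fin (k + 1)), xor false (x ⟨k, by omega⟩),
      enc k (fun j => if j.val < k then x j else false)))).2.1, ?_⟩
  refine Eq.trans ?_ (h3.trans ?_)
  · exact congrArg (fun v => (permU (stepPerm k)).1.mulVec v) h2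
  · congr 1
    change stepFun k _ = _
    unfold stepFun
    simp only [Equiv.symm_apply_apply, Bool.false_xor]
    have hfun : Function.update (fun j : Fin (k + 1) => if j.val < k then x j else false)
        ⟨k, by omega⟩ (x ⟨k, by omega⟩) = x := by
      funext j
      by_cases hj : j = ⟨k, by omega⟩
      · subst hj
        simp
      · rw [Function.update_of_ne hj]
        have hj' : j.val ≠ k := fun h => hj (Fin.ext h)
        rw [if_pos (by omega)]
    rw [hfun]

theorem quantComputes_readAll (f : (Fin (k + 1) → Bool) → Bool) : QuantComputes f (k + 1) := by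
  refine ⟨readAll k f, ?_⟩
  intro x
  obtain ⟨i, b, h⟩ := readAll_final k f x
  have h0 : (readAll k f).out (i, b, enc k x) = f x := by
    change f ((enc k).symm (enc k x)) = f x
    rw [Equiv.symm_apply_apply]
  have h2 : (readAll k f).state x (k + 1) (i, b, enc k x) = 1 := by
    rw [h]
    exact Pi.single_eq_same _ _
  have h1 : (1 : ℝ) ≤ (readAll k f).prob (k + 1) x (f x) := by
    unfold QAlg.prob
    have h3 := Finset.single_le_sum (s := Finset.univ) (f := fun w =>
      if (readAll k f).out w = f x then ‖(readAll k f).state x (k + 1) w‖ ^ 2 else 0)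
      (fun w _ => by
        by_cases hw : (readAll k f).out w = f x
        · simp only [if_pos hw]
          positivity
        · simp only [if_neg hw]
          exact le_rfl) (Finset.mem_univ (i, b, enc k x))
    refine le_trans (le_of_eq ?_) h3
    have h4 : (if (readAll k f).out (i, b, enc k x) = f x
        then ‖(readAll k f).state x (k + 1) (i, b, enc k x)‖ ^ 2 else 0) = 1 := by
      rw [if_pos h0, h2]
      norm_num
    exact h4.symm
  linarith only [h1]

end

/-- The set defining `Q f` is nonempty. -/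
theorem quantComputes_Q (n : ℕ) (hn : 1 ≤ n) (f : (Fin n → Bool) → Bool) :
    QuantComputes f (Q f) := by
  obtain ⟨k, rfl⟩ : ∃ k, n = k + 1 := ⟨n - 1, by omega⟩
  exact Nat.sInf_mem (s := {T | QuantComputes f T}) ⟨k + 1, quantComputes_readAll k f⟩

/-- The known upper bound: `R(f) ≤ C Q(f)^4` for all total functions. -/
theorem R_le_Q_pow (n : ℕ) (hn : 1 ≤ n) (f : (Fin n → Bool) → Bool) :
    (R f : ℝ) ≤ 2560000 * (Q f : ℝ) ^ 4 := by
  obtain ⟨t, ht, he⟩ := exists_tree f (Q f) (quantComputes_Q n hn f)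
  have h1 : R f ≤ t.depth := Nat.sInf_le (randComputes_of_tree f t he)
  have h2 : (R f : ℝ) ≤ (t.depth : ℝ) := by exact_mod_cast h1
  exact h2.trans ht

end Vale.Agent.P362.UB

namespace Vale.Agent.P362

theorem polyBound_four : PolyBound 4 := by
  refine ⟨2560000, ?_⟩
  intro n hn f
  refine (UB.R_le_Q_pow n hn f).trans ?_
  have h1 : (1 + (Q f : ℝ)) ^ (4 : ℝ) = (1 + (Q f : ℝ)) ^ (4 : ℕ) := by
    exact_mod_cast Real.rpow_natCast (1 + (Q f : ℝ)) 4
  rw [h1]
  apply mul_le_mul_of_nonneg_left _ (by norm_num)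
  apply pow_le_pow_left₀ (by positivity)
  linarith only []

end Vale.Agent.P362
end
end

section

section

/-! The hard distribution on the data of a row (interface). -/

namespace Vale.Agent.P362

structure HardW (k n : ℕ) (θ : ℤ) (D : ℕ) (η : ℝ) where
  w : Idx n → Data k n → ℝ
  nonneg : ∀ l F, 0 ≤ w l F
  sum_one : ∀ l, ∑ F, w l F = 1
  supp : ∀ l F, w l F ≠ 0 → θ ≤ amp F l
  hit : ∀ g : Idx n → DT (Fin (k + 1) × Idx n), (∀ l, (g l).depth ≤ D) →
    (∀ F, (Finset.univ.filter (fun l => (g l).eval F = true)).card ≤ D) →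
    ∑ l, ∑ F, w l F * (if (g l).eval F then 1 else 0) ≤ η * 2 ^ n

end Vale.Agent.P362
end
end

section

section

/-!
# P362: module (C), the advantage of functions with small derivative sums
-/

namespace Vale.Agent.P362

open MeasureTheory Finset

namespace Stn

variable {k n : ℕ}

theorem unif_eq_nu : unif = nu := by
  unfold unif nu
  norm_num

/-- forget the dummy layer. -/
def drop (A : Fin (k + 1) → Idx n → ℝ) : Lat k n := fun p => A p.1.succ p.2

theorem measurePreserving_drop :
    MeasurePreserving (drop (k := k) (n := n)) (muA (k + 1) (Idx n)) (latM k n) := by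
  have hm : Measurable (drop (k := k) (n := n)) := by
    unfold drop
    fun_prop
  refine ⟨hm, ?_⟩
  symm
  unfold latM
  have : IsProbabilityMeasure unif := by rw [unif_eq_nu]; infer_instance
  refine Measure.pi_eq fun s hs => ?_
  rw [Measure.map_apply hm (MeasurableSet.univ_pi hs)]
  have hpre : (drop (k := k) (n := n)) ⁻¹' (Set.univ.pi s)
      = Set.univ.pi (Fin.cases (motive := fun _ => Set (Idx n → ℝ)) Set.univ
          (fun r => Set.univ.pi fun i => s (r, i))) := by
    ext A
    simp only [Set.mem_preimage, Set.mem_pi, Set.mem_univ, true_imp_iff, drop]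
    constructor
    · intro h b
      induction b using Fin.cases with
      | zero => simp
      | succ r =>
        simp only [Fin.cases_succ, Set.mem_pi, Set.mem_univ, true_imp_iff]
        intro i
        exact h (r, i)
    · rintro h ⟨r, i⟩
      have := h r.succ
      simp only [Fin.cases_succ, Set.mem_pi, Set.mem_univ, true_imp_iff] at this
      exact this i
  rw [hpre]
  unfold muA
  rw [Measure.pi_pi, Fin.prod_univ_succ]
  simp only [Fin.cases_zero, Fin.cases_succ, measure_univ, one_mul]
  rw [Fintype.prod_prod_type]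
  refine Finset.prod_congr rfl fun r _ => ?_
  unfold muI
  rw [Measure.pi_pi, unif_eq_nu]

theorem meanP_drop (l : Idx n) (t : ℝ) (A : Fin (k + 1) → Idx n → ℝ) :
    P362.meanP l t (drop A) = Stn.meanP KH (fun i => t * (chi l i : ℝ)) A := by
  funext p
  obtain ⟨b, i⟩ := p
  unfold P362.meanP Stn.meanP
  simp only
  congr 1
  · unfold alpha
    induction b using Fin.cases with
    | zero => simp
    | succ r => simp [drop, Fin.succ_ne_zero]
  · induction b using Fin.lastCases with
    | last => simp [beta_last]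
    | cast r =>
      rw [Fin.lastCases_castSucc, beta_castSucc]
      unfold vv sl drop
      ring

theorem sgR_eq (b : Bool) : sgR b = sg b := rfl

theorem pw_eq {V : Type} [Fintype V] (P : V → ℝ) (x : V → Bool) :
    pw P x = ∏ v, (1 + sg (x v) * P v) / 2 := by
  unfold pw
  refine Finset.prod_congr rfl fun v _ => ?_
  rw [sgR_eq, mul_comm]

theorem continuous_pw {V : Type} [Fintype V] (x : V → Bool) : Continuous fun P : V → ℝ => pw P x := by
  unfold pw
  fun_prop

theorem Wt_eq (l : Idx n) (t : ℝ) (F : Data k n) :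
    Wt l t F = ∫ A, pw (Stn.meanP KH (fun i => t * (chi l i : ℝ)) A) F ∂(muA (k + 1) (Idx n)) := by
  unfold Wt
  have mp := measurePreserving_drop (k := k) (n := n)
  have hc : Continuous fun A : Lat k n => pw (P362.meanP l t A) F := by
    refine (continuous_pw F).comp ?_
    unfold P362.meanP
    refine continuous_pi fun p => ?_
    obtain ⟨b, i⟩ := p
    simp only
    refine Continuous.mul ?_ ?_
    · induction b using Fin.cases with
      | zero => simp only [Fin.cases_zero]; exact continuous_const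
      | succ r => simp only [Fin.cases_succ]; fun_prop
    · induction b using Fin.lastCases with
      | last => simp only [Fin.lastCases_last]; exact continuous_const
      | cast r =>
        simp only [Fin.lastCases_castSucc]
        unfold vv
        fun_prop
  rw [← mp.map_eq, integral_map mp.aemeasurable hc.aestronglyMeasurable]
  simp only [meanP_drop]

theorem sum_Wt_mul (l : Idx n) (t : ℝ) (h : Data k n → ℝ) :
    ∑ F, Wt l t F * h F = EW KH (fun i => t * (chi l i : ℝ)) h := by
  unfold EW mext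
  rw [integral_finsetSum]
  · refine Finset.sum_congr rfl fun F _ => ?_
    rw [Wt_eq, ← integral_mul_const]
    simp only [pw_eq]
  · intro F _
    refine integrable_muA ?_
    refine Continuous.mul ?_ continuous_const
    have := (continuous_pw F).comp
      (continuous_meanP' (m := k) (KH (n := n)) (fun i => t * (chi l i : ℝ)))
    simpa only [prod_div_distrib, prod_const, card_univ, Fintype.card_prod, Fintype.card_fin, Fintype.card_pi,     Fintype.card_bool, pw_eq, Function.comp_def] using this

theorem sum_pw {V : Type} [Fintype V] [DecidableEq V] (P : V → ℝ) : ∑ x : V → Bool, pw P x = 1 := by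
  unfold pw
  have h := Finset.prod_univ_sum (fun _ : V => (univ : Finset Bool))
    (fun v b => (1 + P v * sgR b) / 2)
  rw [Fintype.piFinset_univ] at h
  rw [← h]
  refine Finset.prod_eq_one fun v _ => ?_
  simp only [Fintype.univ_bool, sgR, mul_ite, mul_neg, mul_one, mem_singleton, Bool.true_eq_false, not_false_eq_true, sum_insert, ↓reduceIte, sum_singleton, Bool.false_eq_true]
  ring

theorem dext_eq (τ : Fin (k + 1) → Idx n) (h : Data k n → ℝ) (P : Fin (k + 1) × Idx n → ℝ) :
    dext τ h P = dmext (tset τ) h P := by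
  unfold dext dmext
  refine Finset.sum_congr rfl fun x _ => ?_
  rw [mul_comm]
  congr 1
  refine Finset.prod_congr rfl fun v _ => ?_
  have hiff : (τ v.1 = v.2) ↔ v ∈ tset τ := by
    unfold tset
    simp only [Finset.mem_image, Finset.mem_univ, true_and]
    constructor
    · intro h
      exact ⟨v.1, by rw [h]⟩
    · rintro ⟨b, hb⟩
      rw [← hb]
  by_cases hv : τ v.1 = v.2
  · rw [if_pos hv, if_pos (hiff.1 hv), sgR_eq]
  · rw [if_neg hv, if_neg (fun h => hv (hiff.2 h)), sgR_eq, mul_comm (P v)]

theorem chi_abs (a b : Idx n) : |(chi a b : ℝ)| = 1 := by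
  unfold chi
  push_cast
  rw [Finset.abs_prod]
  refine Finset.prod_eq_one fun t _ => ?_
  split_ifs <;> simp

theorem KH_abs (i j : Idx n) : |KH i j| = 1 / Real.sqrt (2 ^ n) := by
  unfold KH
  rw [abs_div, chi_abs, abs_of_nonneg (Real.sqrt_nonneg _)]

end Stn

open Stn

variable {k n : ℕ}

theorem hardness (hk : 1 ≤ k) (h : Data k n → ℝ) (B : ℝ)
    (hB : ∀ P : Fin (k + 1) × Idx n → ℝ, (∀ p, |P p| ≤ 1 / 2) →
      ∑ τ : Fin (k + 1) → Idx n, |dext τ h P| ≤ B) (l : Idx n) :
    |∑ F, Wt l 1 F * h F - ∑ F, Wt l 0 F * h F| ≤ B / (16 * Real.sqrt (2 ^ n)) ^ k := by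
  rw [sum_Wt_mul, sum_Wt_mul]
  have hadv := adv_bound (I := Idx n) hk KH (q := 1 / Real.sqrt (2 ^ n)) (by positivity)
    (fun i j => (KH_abs i j).le) (fun i => (chi l i : ℝ)) (fun i => (chi_abs l i).le) h (L := B)
    (fun P hP => by
      have := hB P hP
      simpa only [dext_eq] using this)
  simp only [one_mul, zero_mul]
  refine hadv.trans (le_of_eq ?_)
  rw [div_div, mul_comm (Real.sqrt (2 ^ n)) 16, div_pow, one_pow]
  ring

theorem Wt_nonneg (hk : 1 ≤ k) (l : Idx n) (t : ℝ) (ht0 : 0 ≤ t) (ht1 : t ≤ 1)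
    (F : Data k n) : 0 ≤ Wt l t F := by
  rw [Wt_eq]
  refine integral_nonneg_of_ae ?_
  filter_upwards [ae_cube] with A hA
  unfold pw
  refine Finset.prod_nonneg fun v _ => ?_
  have hu : ∀ i, |t * (chi l i : ℝ)| ≤ 1 := by
    intro i
    rw [abs_mul, chi_abs, mul_one, abs_of_nonneg ht0]
    exact ht1
  have h1 := abs_meanP_le hk KH _ hu hA v
  have h2 : |Stn.meanP KH (fun i => t * (chi l i : ℝ)) A v * sgR (F v)| ≤ 1/2 := by
    rw [abs_mul, sgR_eq, abs_sg, mul_one]
    exact h1
  have h3 := (abs_le.1 h2).1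
  linarith only [h3]

theorem Wt_sum (l : Idx n) (t : ℝ) : ∑ F : Data k n, Wt l t F = 1 := by
  have h1 := sum_Wt_mul (k := k) l t (fun _ => 1)
  simp only [mul_one] at h1
  rw [h1]
  unfold EW mext
  have h2 : ∀ P : Fin (k + 1) × Idx n → ℝ,
      ∑ x : Fin (k + 1) × Idx n → Bool, (∏ v, (1 + sg (x v) * P v) / 2) * 1 = 1 := by
    intro P
    simp only [mul_one, ← pw_eq]
    exact sum_pw P
  simp only [h2]
  simp

theorem Wt_ref (l l' : Idx n) (F : Data k n) : Wt l 0 F = Wt l' 0 F := by
  unfold Wt P362.meanP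
  simp only [zero_mul]

end Vale.Agent.P362
end
end

section

section

/-! The hard total function. -/

namespace Vale.Agent.P362

/-- input positions -/
inductive Pos (k n w : ℕ) : Type
  | bit (j i : Idx n) : Pos k n w
  | dat (j : Idx n) (s : Fin (k + 1)) (i : Idx n) : Pos k n w
  | ptr (j l j' : Idx n) (c : Fin n) : Pos k n w
  | tr (j l : Idx n) (s : Fin (k + 1)) (t : Fin (n + 1)) (z : Idx n) (c : Fin w) : Pos k n w
  deriving DecidableEq

/-- `Pos` as a sum type -/
def Pos.equiv (k n w : ℕ) : ((Idx n × Idx n) ⊕ (Idx n × Fin (k + 1) × Idx n)) ⊕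
    ((Idx n × Idx n × Idx n × Fin n) ⊕
      (Idx n × Idx n × Fin (k + 1) × Fin (n + 1) × Idx n × Fin w)) ≃ Pos k n w where
  toFun
    | .inl (.inl (j, i)) => .bit j i
    | .inl (.inr (j, s, i)) => .dat j s i
    | .inr (.inl (j, l, j', c)) => .ptr j l j' c
    | .inr (.inr (j, l, s, t, z, c)) => .tr j l s t z c
  invFun
    | .bit j i => .inl (.inl (j, i))
    | .dat j s i => .inl (.inr (j, s, i))
    | .ptr j l j' c => .inr (.inl (j, l, j', c))
    | .tr j l s t z c => .inr (.inr (j, l, s, t, z, c))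
  left_inv := by
    rintro ((⟨j, i⟩ | ⟨j, s, i⟩) | (⟨j, l, j', c⟩ | ⟨j, l, s, t, z, c⟩)) <;> rfl
  right_inv := by
    rintro (⟨j, i⟩ | ⟨j, s, i⟩ | ⟨j, l, j', c⟩ | ⟨j, l, s, t, z, c⟩) <;> rfl

instance (k n w : ℕ) : Fintype (Pos k n w) := Fintype.ofEquiv _ (Pos.equiv k n w)

/-- integer coded by `w` bits (offset binary) -/
def decZ {w : ℕ} (b : Fin w → Bool) : ℤ :=
  (∑ c, if b c then (2 : ℤ) ^ (c : ℕ) else 0) - 2 ^ (w - 1)

variable {k n w : ℕ}

/-- the data of row `j` -/
def rowD (x : Pos k n w → Bool) (j : Idx n) : Data k n := fun p => x (.dat j p.1 p.2)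

/-- pointer of cell `(j,l)` into row `j'` -/
def ptrv (x : Pos k n w → Bool) (j l j' : Idx n) : Idx n := fun c => x (.ptr j l j' c)

/-- transcript value of cell `(j,l)` -/
def trv (x : Pos k n w → Bool) (j l : Idx n) (s : Fin (k + 1)) (t : Fin (n + 1)) (z : Idx n) : ℤ :=
  decZ (fun c => x (.tr j l s t z c))

/-- the local checks -/
inductive Chk (k n : ℕ) : Type
  | own (i : Idx n) : Chk k n
  | claim (j' : Idx n) : Chk k n
  | ini (s : Fin (k + 1)) (z : Idx n) : Chk k n
  | gate (s : Fin (k + 1)) (t : Fin n) (z : Idx n) : Chk k n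
  | fin : Chk k n
  deriving DecidableEq

/-- `Chk` as a sum type -/
def Chk.equiv (k n : ℕ) : (Idx n ⊕ Idx n) ⊕
    ((Fin (k + 1) × Idx n) ⊕ ((Fin (k + 1) × Fin n × Idx n) ⊕ Unit)) ≃ Chk k n where
  toFun
    | .inl (.inl i) => .own i
    | .inl (.inr j') => .claim j'
    | .inr (.inl (s, z)) => .ini s z
    | .inr (.inr (.inl (s, t, z))) => .gate s t z
    | .inr (.inr (.inr _)) => .fin
  invFun
    | .own i => .inl (.inl i)
    | .claim j' => .inl (.inr j')
    | .ini s z => .inr (.inl (s, z))
    | .gate s t z => .inr (.inr (.inl (s, t, z)))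
    | .fin => .inr (.inr (.inr ()))
  left_inv := by
    rintro ((i | j') | (⟨s, z⟩ | (⟨s, t, z⟩ | _))) <;> rfl
  right_inv := by
    rintro (i | j' | ⟨s, z⟩ | ⟨s, t, z⟩ | _) <;> rfl

instance (k n : ℕ) : Fintype (Chk k n) := Fintype.ofEquiv _ (Chk.equiv k n)

/-- check `c` is satisfied for the candidate `a = (j,l)` -/
def okC (θ : ℤ) (x : Pos k n w → Bool) (a : Idx n × Idx n) : Chk k n → Prop
  | .own i => x (.bit a.1 i) = true
  | .claim j' => j' ≠ a.1 → x (.bit j' (ptrv x a.1 a.2 j')) = false
  | .ini s z => trv x a.1 a.2 s 0 z =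
      sgZ (x (.dat a.1 s z)) *
        Fin.cases (motive := fun _ => ℤ) 1
          (fun s' => trv x a.1 a.2 s'.castSucc (Fin.last n) z) s
  | .gate s t z => trv x a.1 a.2 s t.succ z =
      trv x a.1 a.2 s t.castSucc (Function.update z t false) +
        (if z t then -1 else 1) * trv x a.1 a.2 s t.castSucc (Function.update z t true)
  | .fin => θ ≤ trv x a.1 a.2 (Fin.last k) (Fin.last n) a.2

/-- `a` is a valid candidate -/
def Valid (θ : ℤ) (x : Pos k n w → Bool) (a : Idx n × Idx n) : Prop := ∀ c, okC θ x a c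

open Classical in
/-- the hard total Boolean function -/
noncomputable def ff (k n w : ℕ) (θ : ℤ) (x : Pos k n w → Bool) : Bool :=
  decide (∃ a, Valid θ x a)

end Vale.Agent.P362
end
end

section

section

/-! The state `∑_{j,l} N^{-1/2} Φ_l(F_j) |j,l⟩` is prepared with `k+1` phase queries. -/

namespace Vale.Agent.P362.Forr

open Finset

/-! ### characters -/

theorem chi_comm {n : ℕ} (a b : Idx n) : chi a b = chi b a := by
  unfold chi
  refine prod_congr rfl fun t _ => ?_
  rw [Bool.and_comm]

theorem chi_false {n : ℕ} (a : Idx n) : chi a (fun _ => false) = 1 := by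
  unfold chi
  simp only [Bool.and_false, Bool.false_eq_true, ↓reduceIte, prod_const_one]

theorem chi_orth {n : ℕ} (a b : Idx n) :
    ∑ z, chi a z * chi z b = if a = b then (2 : ℤ) ^ n else 0 := by
  have h1 : ∀ z : Idx n, chi a z * chi z b =
      ∏ t : Fin n, ((if (a t && z t) then (-1 : ℤ) else 1) *
        (if (z t && b t) then (-1 : ℤ) else 1)) := by
    intro z
    unfold chi
    rw [prod_mul_distrib]
  simp only [h1]
  have h2 := (Finset.prod_univ_sum (fun _ : Fin n => (univ : Finset Bool))
    (fun t c => ((if (a t && c) then (-1 : ℤ) else 1) * (if (c && b t) then (-1 : ℤ) else 1))))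
  rw [Fintype.piFinset_univ] at h2
  rw [← h2]
  have h3 : ∀ t : Fin n, ∑ c : Bool, ((if (a t && c) then (-1 : ℤ) else 1) *
      (if (c && b t) then (-1 : ℤ) else 1)) = if a t = b t then 2 else 0 := by
    intro t
    rw [Fintype.sum_bool]
    cases a t <;> cases b t <;> simp
  simp only [h3]
  split_ifs with hab
  · subst hab
    simp only [↓reduceIte, prod_const, card_univ, Fintype.card_fin]
  · obtain ⟨t, ht⟩ : ∃ t, a t ≠ b t := by
      by_contra hcon
      push Not at hcon
      exact hab (funext hcon)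
    exact prod_eq_zero (mem_univ t) (by simp [ht])

theorem sqrtN_pos (n : ℕ) : 0 < Real.sqrt ((2 : ℝ) ^ n) := Real.sqrt_pos.mpr (by positivity)

theorem sqrtN_sq (n : ℕ) : Real.sqrt ((2 : ℝ) ^ n) ^ 2 = 2 ^ n :=
  Real.sq_sqrt (by positivity)

theorem KH_comm {n : ℕ} (a b : Idx n) : KH a b = KH b a := by
  unfold KH
  rw [chi_comm]

theorem KH_orth {n : ℕ} (a b : Idx n) : ∑ z, KH a z * KH z b = if a = b then 1 else 0 := by
  have h : ∀ z, KH a z * KH z b = ((chi a z * chi z b : ℤ) : ℝ) / 2 ^ n := by
    intro z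
    unfold KH
    rw [div_mul_div_comm, ← sq, sqrtN_sq]
    push_cast
    ring
  simp only [h]
  rw [← sum_div, ← Int.cast_sum, chi_orth]
  split_ifs
  · push_cast
    exact div_self (by positivity)
  · simp

/-! ### Parseval -/

theorem had_sq {n : ℕ} (u : Idx n → ℤ) : ∑ z, had u z ^ 2 = 2 ^ n * ∑ z, u z ^ 2 := by
  have h : ∀ z, had u z ^ 2 = ∑ y, ∑ y', u y * u y' * (chi y z * chi z y') := by
    intro z
    unfold had
    rw [sq, sum_mul_sum]
    refine sum_congr rfl fun y _ => sum_congr rfl fun y' _ => ?_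
    rw [chi_comm y z]
    ring
  simp only [h]
  rw [sum_comm]
  have h2 : ∀ y, ∑ z, ∑ y', u y * u y' * (chi y z * chi z y') = 2 ^ n * u y ^ 2 := by
    intro y
    rw [sum_comm]
    simp only [← mul_sum, chi_orth]
    simp only [mul_ite, mul_zero, sum_ite_eq, mem_univ, ↓reduceIte]
    ring
  simp only [h2]
  rw [mul_sum]

theorem sg_sq (b : Bool) : sgZ b ^ 2 = 1 := by cases b <;> rfl

theorem phi_sq {n : ℕ} (F : ℕ → Idx n → Bool) (s : ℕ) :
    ∑ z, phi F s z ^ 2 = 2 ^ (n * (s + 1)) := by
  induction s with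
  | zero => simp only [phi_zero, one_pow, sum_const, card_univ, Fintype.card_pi, Fintype.card_bool, prod_const, Fintype.card_fin, Int.nsmul_eq_mul, Nat.cast_pow, Nat.cast_ofNat, mul_one, zero_add]
  | succ s ih =>
    rw [phi_succ, had_sq]
    simp only [mul_pow, sg_sq, one_mul]
    rw [ih]
    ring

theorem amp_sq {k n : ℕ} (F : Data k n) : ∑ l, amp F l ^ 2 = 2 ^ (n * (k + 2)) := by
  unfold amp
  rw [phi_sq]

theorem Amp_sq {k n : ℕ} (F : Data k n) : ∑ l, Amp F l ^ 2 = 1 := by
  have h : ∀ l, Amp F l ^ 2 = ((amp F l ^ 2 : ℤ) : ℝ) / 2 ^ (n * (k + 2)) := by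
    intro l
    unfold Amp
    rw [div_pow, ← pow_mul, mul_comm (k + 2) 2, pow_mul, sqrtN_sq, ← pow_mul]
    push_cast
    rfl
  simp only [h]
  rw [← sum_div, ← Int.cast_sum, amp_sq]
  push_cast
  exact div_self (by positivity)

theorem Amp_sq_le_one {k n : ℕ} (F : Data k n) (l : Idx n) : Amp F l ^ 2 ≤ 1 := by
  rw [← Amp_sq F]
  exact single_le_sum (f := fun l => Amp F l ^ 2) (fun _ _ => sq_nonneg _) (mem_univ l)

theorem abs_Amp_le_one {k n : ℕ} (F : Data k n) (l : Idx n) : |Amp F l| ≤ 1 := by
  rw [← sq_le_one_iff_abs_le_one]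
  exact Amp_sq_le_one F l

theorem Amp_le_one {k n : ℕ} (F : Data k n) (l : Idx n) : Amp F l ≤ 1 :=
  (abs_le.mp (abs_Amp_le_one F l)).2

/-! ### circuits -/

theorem runC_append {ι W : Type} [Fintype W] [DecidableEq W] (x : ι → Bool)
    (c d : List (QStep ι W)) (ψ : W → ℂ) : runC x (c ++ d) ψ = runC x d (runC x c ψ) := by
  induction c generalizing ψ with
  | nil => rfl
  | cons s c ih => rw [List.cons_append, runC_cons, runC_cons, ih]

theorem qcost_append {ι W : Type} [Fintype W] [DecidableEq W]
    (c d : List (QStep ι W)) : qcost (c ++ d) = qcost c + qcost d := by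
  induction c with
  | nil => simp [qcost_nil]
  | cons s c ih => rw [List.cons_append, qcost_cons, qcost_cons, ih, add_assoc]

/-- complex Hadamard matrix -/
noncomputable def Hm (n : ℕ) : Matrix (Idx n) (Idx n) ℂ := fun i j => ((KH i j : ℝ) : ℂ)

theorem Hm_unitary (n : ℕ) : Hm n ∈ Matrix.unitaryGroup (Idx n) ℂ := by
  rw [Matrix.mem_unitaryGroup_iff]
  ext i j
  rw [Matrix.mul_apply, Matrix.one_apply]
  have h : ∀ z, Hm n i z * (star (Hm n)) z j = ((KH i z * KH z j : ℝ) : ℂ) := by
    intro z
    rw [Matrix.star_apply]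
    unfold Hm
    rw [KH_comm j z]
    simp
  simp only [h]
  rw [← Complex.ofReal_sum, KH_orth]
  split_ifs <;> simp

open Kronecker in
/-- Hadamard on both registers -/
noncomputable def U2 (n : ℕ) : Matrix.unitaryGroup (Idx n × Idx n) ℂ :=
  ⟨Hm n ⊗ₖ Hm n, Matrix.kronecker_mem_unitary (Hm_unitary n) (Hm_unitary n)⟩

open Kronecker in
/-- Hadamard on the second register -/
noncomputable def U1 (n : ℕ) : Matrix.unitaryGroup (Idx n × Idx n) ℂ :=
  ⟨(1 : Matrix (Idx n) (Idx n) ℂ) ⊗ₖ Hm n,
    Matrix.kronecker_mem_unitary (one_mem _) (Hm_unitary n)⟩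

theorem U2_single (n : ℕ) (a : Idx n × Idx n) :
    (U2 n).1.mulVec (Pi.single ((fun _ => false), (fun _ => false)) 1) a =
      ((1 / Real.sqrt (2 ^ n) ^ 2 : ℝ) : ℂ) := by
  rw [Matrix.mulVec_single_one]
  obtain ⟨j, l⟩ := a
  change Hm n j (fun _ => false) * Hm n l (fun _ => false) = _
  unfold Hm KH
  rw [chi_false, chi_false, ← Complex.ofReal_mul]
  congr 1
  push_cast
  rw [div_mul_div_comm, sq]
  simp only [mul_one, Nat.ofNat_nonneg, pow_nonneg, Real.mul_self_sqrt, one_div]

theorem U1_mulVec (n : ℕ) (ψ : Idx n × Idx n → ℂ) (a : Idx n × Idx n) :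
    (U1 n).1.mulVec ψ a = ∑ y, ((KH a.2 y : ℝ) : ℂ) * ψ (a.1, y) := by
  obtain ⟨j, l⟩ := a
  rw [Matrix.mulVec, dotProduct, Fintype.sum_prod_type]
  rw [sum_eq_single j]
  · refine sum_congr rfl fun y _ => ?_
    change ((1 : Matrix (Idx n) (Idx n) ℂ) j j * Hm n l y) * _ = _
    rw [Matrix.one_apply_eq, one_mul]
    rfl
  · intro j' _ hj'
    refine sum_eq_zero fun y _ => ?_
    change ((1 : Matrix (Idx n) (Idx n) ℂ) j j' * Hm n l y) * _ = 0
    rw [Matrix.one_apply_ne hj'.symm, zero_mul, zero_mul]
  · intro h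
    exact absurd (mem_univ _) h

/-- the circuit with `s` stages -/
noncomputable def forrC (k n w : ℕ) : ℕ → List (QStep (Pos k n w) (Idx n × Idx n))
  | 0 => [QStep.uni (U2 n)]
  | s + 1 => forrC k n w s ++ [QStep.qry (fun a => if h : s < k + 1 then
      some (Pos.dat a.1 ⟨s, h⟩ a.2) else none), QStep.uni (U1 n)]

theorem forrC_cost (k n w s : ℕ) : qcost (forrC k n w s) = s := by
  induction s with
  | zero => rfl
  | succ s ih => rw [forrC, qcost_append, ih]; rfl

theorem forrC_run (k n w s : ℕ) (x : Pos k n w → Bool) (a : Idx n × Idx n) :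
    runC x (forrC k n w s) (Pi.single ((fun _ => false), (fun _ => false)) 1) a =
      (((phi (extF (rowD x a.1)) s a.2 : ℝ) / Real.sqrt (2 ^ n) ^ (s + 2) : ℝ) : ℂ) := by
  induction s generalizing a with
  | zero =>
    rw [forrC, runC_cons, runC_nil, QStep.app_uni, U2_single, phi_zero]
    simp only [Nat.ofNat_nonneg, pow_nonneg, Real.sq_sqrt, one_div, Complex.ofReal_inv, Complex.ofReal_pow, Complex.ofReal_ofNat, Int.cast_one, zero_add]
  | succ s ih =>
    rw [forrC, runC_append, runC_cons, runC_cons, runC_nil, QStep.app_uni, U1_mulVec,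
      phi_succ]
    have hp : ∀ y, phase x (if h : s < k + 1 then some (Pos.dat a.1 ⟨s, h⟩ y) else none) =
        (((sgZ (extF (rowD x a.1) s y) : ℤ) : ℝ) : ℂ) := by
      intro y
      unfold extF rowD sgZ
      by_cases h : s < k + 1
      · simp only [h, dif_pos, phase_some]
        split_ifs <;> simp
      · simp [h]
    have hterm : ∀ y, ((KH a.2 y : ℝ) : ℂ) *
        (QStep.qry (fun a => if h : s < k + 1 then
          some (Pos.dat a.1 ⟨s, h⟩ a.2) else none) : QStep (Pos k n w) (Idx n × Idx n)).app x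
          (runC x (forrC k n w s) (Pi.single ((fun _ => false), (fun _ => false)) 1)) (a.1, y) =
        (((chi a.2 y * (sgZ (extF (rowD x a.1) s y) * phi (extF (rowD x a.1)) s y) : ℤ) : ℝ) /
          Real.sqrt (2 ^ n) ^ (s + 1 + 2) : ℝ) := by
      intro y
      rw [QStep.app_qry]
      simp only
      rw [ih, hp]
      unfold KH
      push_cast
      ring
    simp only [hterm]
    rw [← Complex.ofReal_sum, ← sum_div, ← Int.cast_sum]
    rfl

theorem forr_prep (k n w : ℕ) : Prep (ι := Pos k n w) (W := Idx n × Idx n) (k + 1)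
    (fun x a => ((Amp (rowD x a.1) a.2 / Real.sqrt (2 ^ n) : ℝ) : ℂ)) := by
  refine ⟨forrC k n w (k + 1), ((fun _ => false), (fun _ => false)),
    (forrC_cost k n w (k + 1)).le, fun x => ?_⟩
  funext a
  rw [forrC_run]
  congr 1
  unfold Amp amp
  rw [div_div, ← pow_succ]

end Vale.Agent.P362.Forr
end
end

section

section

/-!
# P362: module (Q), the expected amplitude under the hard distribution
-/

namespace Vale.Agent.P362

open MeasureTheory Finset

namespace AmpE

open Stn

/-! ### the multilinear extension of the amplitude -/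

section Mext

variable {V : Type} [Fintype V] [DecidableEq V]

/-- flip one bit -/
def flipAt (v : V) (x : V → Bool) : V → Bool := Function.update x v (!(x v))

omit [Fintype V] in
theorem flipAt_invol (v : V) : Function.Involutive (flipAt v) := by
  intro x
  funext w
  unfold flipAt
  by_cases h : w = v
  · subst h; simp
  · simp [Function.update_of_ne h]

theorem sum_flip (v : V) (f : (V → Bool) → ℝ) :
    ∑ x, f (flipAt v x) = ∑ x, f x :=
  Equiv.sum_comp (flipAt_invol v).toPerm f

theorem mext_sg_mul (v : V) (h : (V → Bool) → ℝ) (hh : ∀ x b, h (Function.update x v b) = h x)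
    (P : V → ℝ) : mext (fun x => sg (x v) * h x) P = P v * mext h P := by
  unfold mext
  have e1 : ∀ x : V → Bool, (∏ w, (1 + sg (x w) * P w) / 2) =
      (1 + sg (x v) * P v) / 2 * ∏ w ∈ univ.erase v, (1 + sg (x w) * P w) / 2 := fun x =>
    (Finset.mul_prod_erase univ _ (mem_univ v)).symm
  have e2 : ∀ x : V → Bool, ∏ w ∈ univ.erase v, (1 + sg (flipAt v x w) * P w) / 2 =
      ∏ w ∈ univ.erase v, (1 + sg (x w) * P w) / 2 := by
    intro x
    refine Finset.prod_congr rfl fun w hw => ?_
    unfold flipAt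
    rw [Function.update_of_ne (Finset.ne_of_mem_erase hw)]
  have e3 : ∀ x : V → Bool, flipAt v x v = !(x v) := by
    intro x; unfold flipAt; simp
  have e4 : ∀ x : V → Bool, h (flipAt v x) = h x := fun x => hh x _
  have key : ∑ x : V → Bool, ((∏ w, (1 + sg (x w) * P w) / 2) * (sg (x v) * h x) +
      (∏ w, (1 + sg (flipAt v x w) * P w) / 2) * (sg (flipAt v x v) * h (flipAt v x))) =
      ∑ x : V → Bool, P v * (((∏ w, (1 + sg (x w) * P w) / 2) * h x) +
      ((∏ w, (1 + sg (flipAt v x w) * P w) / 2) * h (flipAt v x))) := by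
    refine Finset.sum_congr rfl fun x _ => ?_
    rw [e1, e1 (flipAt v x), e2, e3, e4]
    cases x v
    · simp only [Bool.not_false, sg_true, sg_false]; ring
    · simp only [Bool.not_true, sg_true, sg_false]; ring
  rw [Finset.sum_add_distrib, sum_flip v (fun x => (∏ w, (1 + sg (x w) * P w) / 2) *
    (sg (x v) * h x)), ← Finset.mul_sum, Finset.sum_add_distrib,
    sum_flip v (fun x => (∏ w, (1 + sg (x w) * P w) / 2) * h x)] at key
  linarith

theorem mext_sum {ι : Type} (s : Finset ι) (c : ι → ℝ) (h : ι → (V → Bool) → ℝ) (P : V → ℝ) :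
    mext (fun x => ∑ i ∈ s, c i * h i x) P = ∑ i ∈ s, c i * mext (h i) P := by
  unfold mext
  simp only [Finset.mul_sum]
  rw [Finset.sum_comm]
  refine Finset.sum_congr rfl fun i _ => Finset.sum_congr rfl fun x _ => ?_
  ring

theorem mext_one (P : V → ℝ) : mext (fun _ => 1) P = 1 := by
  unfold mext
  simp only [mul_one, ← pw_eq]
  exact sum_pw P

end Mext

section Phi

variable {k n : ℕ}

theorem phi_congr {F G : ℕ → Idx n → Bool} : ∀ (s : ℕ), (∀ r, r < s → ∀ y, F r y = G r y) →
    ∀ z, phi F s z = phi G s z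
  | 0, _, _ => by simp [phi_zero]
  | s + 1, h, z => by
    rw [phi_succ, phi_succ]
    unfold had
    refine Finset.sum_congr rfl fun y _ => ?_
    simp only
    rw [h s (Nat.lt_succ_self s), phi_congr s (fun r hr => h r (Nat.lt_succ_of_lt hr))]

/-- extension of the means to all block indices -/
noncomputable def extP (P : Fin (k + 1) × Idx n → ℝ) : ℕ → Idx n → ℝ :=
  fun s i => if h : s < k + 1 then P (⟨s, h⟩, i) else 0

/-- the real state recursion -/
noncomputable def psiR (P : ℕ → Idx n → ℝ) : ℕ → Idx n → ℝ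
  | 0 => fun _ => 1
  | s + 1 => fun z => ∑ y, (chi z y : ℝ) * (P s y * psiR P s y)

theorem psiR_zero (P : ℕ → Idx n → ℝ) (z : Idx n) : psiR P 0 z = 1 := rfl

theorem psiR_succ (P : ℕ → Idx n → ℝ) (s : ℕ) (z : Idx n) :
    psiR P (s + 1) z = ∑ y, (chi z y : ℝ) * (P s y * psiR P s y) := rfl

theorem sgZ_cast (b : Bool) : ((sgZ b : ℤ) : ℝ) = sg b := by
  cases b <;> simp [sgZ, sg]

theorem extF_lt (F : Data k n) {s : ℕ} (h : s < k + 1) (y : Idx n) :
    extF F s y = F (⟨s, h⟩, y) := by
  unfold extF
  rw [dif_pos h]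

theorem extP_lt (P : Fin (k + 1) × Idx n → ℝ) {s : ℕ} (h : s < k + 1) (y : Idx n) :
    extP P s y = P (⟨s, h⟩, y) := by
  unfold extP
  rw [dif_pos h]

theorem phi_update (F : Data k n) {s : ℕ} (hs : s < k + 1) (y : Idx n) (b : Bool) (z : Idx n) :
    phi (extF (Function.update F (⟨s, hs⟩, y) b)) s z = phi (extF F) s z := by
  refine phi_congr s (fun r hr y' => ?_) z
  rw [extF_lt _ (hr.trans hs), extF_lt _ (hr.trans hs), Function.update_of_ne]
  intro h
  have h1 := congrArg (fun p => (p.1 : Fin (k + 1)).val) h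
  simp only at h1
  omega

theorem mext_phi (P : Fin (k + 1) × Idx n → ℝ) : ∀ (s : ℕ), s ≤ k + 1 → ∀ z : Idx n,
    mext (fun F : Data k n => ((phi (extF F) s z : ℤ) : ℝ)) P = psiR (extP P) s z
  | 0, _, z => by
    simp only [phi_zero, Int.cast_one, psiR_zero]
    exact mext_one P
  | s + 1, hs, z => by
    have hs' : s < k + 1 := hs
    have h1 : ∀ F : Data k n, ((phi (extF F) (s + 1) z : ℤ) : ℝ) =
        ∑ y, (chi z y : ℝ) * (sg (F (⟨s, hs'⟩, y)) * ((phi (extF F) s y : ℤ) : ℝ)) := by
      intro F
      rw [phi_succ]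
      unfold had
      push_cast
      refine Finset.sum_congr rfl fun y _ => ?_
      rw [sgZ_cast, extF_lt F hs']
    simp only [h1]
    rw [mext_sum, psiR_succ]
    refine Finset.sum_congr rfl fun y _ => ?_
    rw [mext_sg_mul (⟨s, hs'⟩, y) (fun F : Data k n => ((phi (extF F) s y : ℤ) : ℝ))
      (fun F b => by rw [phi_update F hs' y b y]) P, mext_phi P s (by omega) y,
      extP_lt P hs']

end Phi

/-! ### integrals -/

section Int

variable {I : Type*} [Fintype I] [DecidableEq I]

theorem stein_muI {G G' : (I → ℝ) → ℝ} (hG : Continuous G) (hG' : Continuous G') (i : I)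
    (hd : ∀ a, HasDerivAt (fun t => G (Function.update a i t)) (G' a) (a i)) :
    ∫ a, a i * G a ∂(muI I) = ∫ a, kk (a i) * G' a ∂(muI I) := by
  have hc : Continuous fun a : I → ℝ => a i := by fun_prop
  unfold muI
  rw [integral_resample (fun _ : I => nu) i (F := fun a => a i * G a)
    (by have := integrable_muI (hc.mul hG); unfold muI at this; exact this),
    integral_resample (fun _ : I => nu) i (F := fun a => kk (a i) * G' a)
    (by have := integrable_muI ((continuous_kk.comp hc).mul hG'); unfold muI at this; exact this)]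
  refine integral_congr_ae (Filter.Eventually.of_forall fun a => ?_)
  simp only [Function.update_self]
  refine stein_one (g := fun t => G (Function.update a i t))
    (g' := fun t => G' (Function.update a i t)) (fun t => ?_) ?_
  · have := hd (Function.update a i t)
    simpa using this
  · exact hG'.comp (continuous_const.update i continuous_id)

theorem integral_muI_eval (i : I) {f : ℝ → ℝ} (hf : Continuous f) :
    ∫ a, f (a i) ∂(muI I) = ∫ t, f t ∂nu := by
  have hc : Continuous fun a : I → ℝ => f (a i) := by fun_prop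
  unfold muI
  rw [integral_resample (fun _ : I => nu) i (F := fun a => f (a i))
    (by have := integrable_muI hc; unfold muI at this; exact this)]
  simp only [Function.update_self]
  simp

theorem integral_kk : ∫ t, kk t ∂nu = 1 / 12 := by
  rw [integral_nu]
  have hd : ∀ x ∈ Set.uIcc (-(1/2) : ℝ) (1/2),
      HasDerivAt (fun t : ℝ => t / 8 - t ^ 3 / 6) (kk x) x := by
    intro x _
    unfold kk
    have h := ((hasDerivAt_id x).div_const 8).sub ((hasDerivAt_pow 3 x).div_const 6)
    exact h.congr_deriv (by ring)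
  rw [intervalIntegral.integral_eq_sub_of_hasDerivAt hd
    (continuous_kk.intervalIntegrable _ _)]
  norm_num

theorem hasDerivAt_lin (K : I → I → ℝ) (a : I → ℝ) (j i : I) :
    HasDerivAt (fun t => ∑ l, K j l * Function.update a i t l) (K j i) (a i) := by
  have h2 : ∀ l ∈ (univ : Finset I), HasDerivAt
      (fun t => K j l * Function.update a i t l)
      (if l = i then K j i else 0) (a i) := by
    intro l _
    by_cases hl : l = i
    · subst hl
      simp only [Function.update_self, if_true]
      exact ((hasDerivAt_id _).const_mul _).congr_deriv (mul_one _)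
    · simp only [Function.update_of_ne hl, hl, if_false]
      exact hasDerivAt_const _ _
  have h3 := HasDerivAt.fun_sum h2
  refine h3.congr_deriv ?_
  simp only [sum_ite_eq', mem_univ, ↓reduceIte]

theorem integral_sq_lin (K : I → I → ℝ) (j : I) :
    ∫ a, (∑ l, K j l * a l) ^ 2 ∂(muI I) = (∑ l, K j l ^ 2) / 12 := by
  have h1 : ∀ a : I → ℝ, (∑ l, K j l * a l) ^ 2 = ∑ i, K j i * (a i * ∑ l, K j l * a l) := by
    intro a
    rw [sq, Finset.sum_mul]
    refine Finset.sum_congr rfl fun i _ => ?_
    ring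
  simp only [h1]
  rw [integral_finsetSum]
  · rw [Finset.sum_div]
    refine Finset.sum_congr rfl fun i _ => ?_
    rw [integral_const_mul, stein_muI (G := fun a => ∑ l, K j l * a l)
      (G' := fun _ => K j i) (by fun_prop) continuous_const i
      (fun a => hasDerivAt_lin K a j i), integral_mul_const,
      integral_muI_eval i continuous_kk, integral_kk]
    ring
  · intro i _
    exact integrable_muI (by fun_prop)

/-- the basic correlation. -/
theorem corr (K : I → I → ℝ) (hK : ∀ j, ∑ l, K j l ^ 2 = 1) (j i : I) :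
    ∃ e : ℝ, 1 / 32 ≤ e ∧ ∫ a, a i * sl K a j ∂(muI I) = K j i * e := by
  refine ⟨∫ a, kk (a i) * cl K a j ∂(muI I), ?_, ?_⟩
  · have h1 : ∫ a, (kk (a i) * (1 / 2) - (∑ l, K j l * a l) ^ 2 * (1 / 32)) ∂(muI I) ≤
        ∫ a, kk (a i) * cl K a j ∂(muI I) := by
      refine integral_mono_ae ?_ ?_ ?_
      · exact integrable_muI (((continuous_kk.comp (continuous_apply i)).mul
          continuous_const).sub (by fun_prop))
      · exact integrable_muI ((continuous_kk.comp (continuous_apply i)).mul
          (continuous_cl K j))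
      · filter_upwards [ae_muI] with a ha
        have h0 := kk_nonneg (ha i)
        have h2 := kk_le (a i)
        unfold cl
        have h3 := Real.one_sub_sq_div_two_le_cos (x := ∑ l, K j l * a l)
        nlinarith only [h2, h0, h3]
    refine le_trans ?_ h1
    rw [integral_sub, integral_mul_const, integral_mul_const, integral_sq_lin, hK,
      integral_muI_eval i continuous_kk, integral_kk]
    · norm_num
    · exact integrable_muI ((continuous_kk.comp (continuous_apply i)).mul continuous_const)
    · exact integrable_muI (by fun_prop)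
  · rw [← integral_const_mul, stein_muI (G := fun a => sl K a j)
      (G' := fun a => cl K a j * K j i) (continuous_sl K j)
      ((continuous_cl K j).mul continuous_const) i]
    · refine integral_congr_ae (Filter.Eventually.of_forall fun a => ?_)
      simp only
      ring
    · intro a
      unfold sl cl
      have h4 := ((hasDerivAt_lin K a j i).sin).div_const 2
      refine h4.congr_deriv ?_
      rw [Function.update_eq_self]
      ring

omit [DecidableEq I] in
/-- independence of one layer from the others. -/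
theorem integral_layer_mul {κ : ℕ} (s : Fin κ) {g : (I → ℝ) → ℝ} (hg : Continuous g)
    {h : (Fin κ → I → ℝ) → ℝ} (hh : Continuous h) (hs : ∀ A B, h (Function.update A s B) = h A) :
    ∫ A, g (A s) * h A ∂(muA κ I) = (∫ a, g a ∂(muI I)) * ∫ A, h A ∂(muA κ I) := by
  have hc : Continuous fun A : Fin κ → I → ℝ => g (A s) * h A :=
    (hg.comp (continuous_apply s)).mul hh
  have h1 : ∫ A, g (A s) * h A ∂(muA κ I) = ∫ A, ∫ B, g (Function.update A s B s) *
      h (Function.update A s B) ∂(muI I) ∂(muA κ I) := by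
    unfold muA
    exact integral_resample (fun _ : Fin κ => muI I) s (integrable_muA hc)
  rw [h1]
  simp only [Function.update_self, hs]
  simp only [integral_mul_const]
  rw [integral_const_mul]

end Int

/-! ### the recursion -/

section Rec

variable {k n : ℕ}

theorem continuous_psiR : ∀ (s : ℕ) (z : Idx n),
    Continuous fun P : ℕ → Idx n → ℝ => psiR P s z
  | 0, z => by
    simp only [psiR_zero]
    exact continuous_const
  | s + 1, z => by
    simp only [psiR_succ]
    refine continuous_finsetSum _ fun y _ => continuous_const.mul (Continuous.mul ?_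
      (continuous_psiR s y))
    fun_prop

theorem continuous_extP : Continuous fun P : Fin (k + 1) × Idx n → ℝ => extP P := by
  unfold extP
  refine continuous_pi fun s => continuous_pi fun i => ?_
  split_ifs
  · fun_prop
  · exact continuous_const

theorem psiR_congr {P Q : ℕ → Idx n → ℝ} : ∀ (s : ℕ), (∀ r, r < s → ∀ y, P r y = Q r y) →
    ∀ z, psiR P s z = psiR Q s z
  | 0, _, _ => by simp [psiR_zero]
  | s + 1, h, z => by
    rw [psiR_succ, psiR_succ]
    refine Finset.sum_congr rfl fun y _ => ?_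
    rw [h s (Nat.lt_succ_self s), psiR_congr s (fun r hr => h r (Nat.lt_succ_of_lt hr))]

/-- the partial expectation. -/
noncomputable def II (u : Idx n → ℝ) (s : Fin (k + 1)) (y : Idx n) : ℝ :=
  ∫ A, alpha A s y * psiR (extP (Stn.meanP KH u A)) s y ∂(muA (k + 1) (Idx n))

theorem continuous_psi (u : Idx n → ℝ) (s : ℕ) (y : Idx n) :
    Continuous fun A : Fin (k + 1) → Idx n → ℝ => psiR (extP (Stn.meanP KH u A)) s y :=
  (continuous_psiR s y).comp (continuous_extP.comp (continuous_meanP' KH u))

theorem KH_sq_sum (j : Idx n) : ∑ l, KH j l ^ 2 = 1 := by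
  have h := Forr.KH_orth j j
  rw [if_pos rfl] at h
  rw [← h]
  refine Finset.sum_congr rfl fun z _ => ?_
  rw [sq, Forr.KH_comm z j]

theorem chi_mul_self (a b : Idx n) : (chi a b : ℝ) * (chi a b : ℝ) = 1 := by
  have h := chi_abs a b
  rw [← abs_mul_abs_self, h, one_mul]

/-- a product of layered factors does not see a later layer -/
theorem psi_update (u : Idx n → ℝ) (r : Fin k) (y : Idx n) (A : Fin (k + 1) → Idx n → ℝ)
    (B : Idx n → ℝ) :
    alpha (Function.update A r.succ B) r.castSucc y *
      psiR (extP (Stn.meanP KH u (Function.update A r.succ B))) r y =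
    alpha A r.castSucc y * psiR (extP (Stn.meanP KH u A)) r y := by
  have hne : ∀ b : Fin (k + 1), (b : ℕ) ≤ r → Function.update A r.succ B b = A b := by
    intro b hb
    rw [Function.update_of_ne]
    intro h
    have := congrArg Fin.val h
    simp only [Fin.val_succ] at this
    omega
  congr 1
  · unfold alpha
    rw [hne _ (by simp)]
  · refine psiR_congr _ (fun b hb z => ?_) y
    have hbk : b < k + 1 := by have := r.isLt; omega
    rw [extP_lt _ hbk, extP_lt _ hbk]
    unfold Stn.meanP alpha beta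
    simp only
    rw [hne _ (by simpa using hb.le)]
    have hb2 : b + 1 < k + 1 := by have := r.isLt; omega
    rw [dif_pos hb2, dif_pos hb2, hne _ (by simpa using hb)]

theorem II_succ (u : Idx n → ℝ) (r : Fin k) (y : Idx n) :
    II u r.succ y = ∑ y', (chi y y' : ℝ) *
      ((∫ a, a y * sl KH a y' ∂(muI (Idx n))) * II u r.castSucc y') := by
  unfold II
  have h1 : ∀ A : Fin (k + 1) → Idx n → ℝ,
      alpha A r.succ y * psiR (extP (Stn.meanP KH u A)) (r.succ : Fin (k + 1)) y =
      ∑ y', (chi y y' : ℝ) * ((A r.succ y * sl KH (A r.succ) y') *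
        (alpha A r.castSucc y' * psiR (extP (Stn.meanP KH u A)) r y')) := by
    intro A
    rw [Fin.val_succ, psiR_succ, Finset.mul_sum]
    refine Finset.sum_congr rfl fun y' _ => ?_
    have hr : (r : ℕ) < k + 1 := by have := r.isLt; omega
    rw [extP_lt _ hr]
    have e1 : alpha A r.succ y = A r.succ y := by
      unfold alpha
      rw [if_neg (Fin.succ_ne_zero r)]
    have e2 : Stn.meanP KH u A ((⟨r, hr⟩ : Fin (k + 1)), y') =
        alpha A r.castSucc y' * sl KH (A r.succ) y' := by
      change alpha A r.castSucc y' * beta KH u A r.castSucc y' = _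
      rw [beta_castSucc]
    rw [e1, e2]
    ring
  simp only [h1]
  rw [integral_finsetSum]
  · refine Finset.sum_congr rfl fun y' _ => ?_
    rw [integral_const_mul]
    congr 1
    exact integral_layer_mul r.succ (g := fun a => a y * sl KH a y')
      ((continuous_apply y).mul (continuous_sl KH y'))
      (h := fun A => alpha A r.castSucc y' * psiR (extP (Stn.meanP KH u A)) r y')
      ((continuous_alpha _ _).mul (continuous_psi u r y'))
      (fun A B => psi_update u r y' A B)
  · intro y' _
    refine integrable_muA (continuous_const.mul (Continuous.mul ?_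
      ((continuous_alpha _ _).mul (continuous_psi u r y'))))
    exact (by fun_prop : Continuous fun A : Fin (k + 1) → Idx n → ℝ => A r.succ y).mul
      ((continuous_sl KH y').comp (continuous_apply _))

theorem II_ge (u : Idx n → ℝ) (s : Fin (k + 1)) : ∀ y : Idx n,
    (Real.sqrt (2 ^ n) / 32) ^ (s : ℕ) ≤ II u s y := by
  induction s using Fin.induction with
  | zero =>
    intro y
    unfold II alpha
    simp [psiR_zero]
  | succ r ih =>
    intro y
    rw [II_succ, Fin.val_succ]
    have hN := Forr.sqrtN_pos n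
    have hterm : ∀ y' ∈ (univ : Finset (Idx n)),
        (1 / (32 * Real.sqrt (2 ^ n))) * (Real.sqrt (2 ^ n) / 32) ^ (r : ℕ) ≤
        (chi y y' : ℝ) *
          ((∫ a, a y * sl KH a y' ∂(muI (Idx n))) * II u r.castSucc y') := by
      intro y' _
      obtain ⟨e, he, hint⟩ := corr (I := Idx n) KH KH_sq_sum y' y
      have h2 : (Real.sqrt (2 ^ n) / 32) ^ (r : ℕ) ≤ II u r.castSucc y' := by
        have := ih y'
        simpa only [ge_iff_le, Fin.val_castSucc] using this
      have h3 : (chi y y' : ℝ) * ((∫ a, a y * sl KH a y' ∂(muI (Idx n))) *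
          II u r.castSucc y') = (e / Real.sqrt (2 ^ n)) * II u r.castSucc y' := by
        rw [hint]
        unfold KH
        rw [Forr.chi_comm y' y]
        have := chi_mul_self y y'
        calc (chi y y' : ℝ) * ((chi y y' : ℝ) / Real.sqrt (2 ^ n) * e * II u r.castSucc y')
            = ((chi y y' : ℝ) * (chi y y' : ℝ)) * ((e / Real.sqrt (2 ^ n)) *
              II u r.castSucc y') := by ring
          _ = _ := by rw [this, one_mul]
      rw [h3]
      have h0 : (0 : ℝ) ≤ (Real.sqrt (2 ^ n) / 32) ^ (r : ℕ) := by positivity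
      refine mul_le_mul ?_ h2 h0 (by positivity)
      rw [div_le_div_iff₀ (by positivity) hN]
      nlinarith only [hN, he]
    have h4 := Finset.sum_le_sum hterm
    refine le_trans (le_of_eq ?_) h4
    rw [Finset.sum_const, Finset.card_univ, nsmul_eq_mul]
    have hcard : (Fintype.card (Idx n) : ℝ) = Real.sqrt (2 ^ n) * Real.sqrt (2 ^ n) := by
      rw [← sq, Forr.sqrtN_sq]
      simp only [Fintype.card_pi, Fintype.card_bool, prod_const, card_univ, Fintype.card_fin, Nat.cast_pow, Nat.cast_ofNat]
    rw [hcard, pow_succ]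
    field_simp

end Rec

end AmpE

open Stn AmpE

/-- the expected amplitude at `l` under the hard distribution. -/
theorem amp_expect {k n : ℕ} (hk : 1 ≤ k) (l : Idx n) :
    (1 / 32 : ℝ) ^ k ≤ ∑ F : Data k n, Wt l 1 F * Amp F l := by
  rw [sum_Wt_mul l 1 (fun F => Amp F l)]
  unfold EW
  have hN := Forr.sqrtN_pos n
  set u : Idx n → ℝ := fun i => 1 * (chi l i : ℝ) with hu
  have h1 : ∀ P : Fin (k + 1) × Idx n → ℝ, mext (fun F : Data k n => Amp F l) P =
      1 / Real.sqrt (2 ^ n) ^ (k + 2) * psiR (extP P) (k + 1) l := by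
    intro P
    rw [← mext_phi P (k + 1) le_rfl l]
    unfold mext Amp amp
    rw [Finset.mul_sum]
    refine Finset.sum_congr rfl fun F _ => ?_
    ring
  simp only [h1]
  rw [integral_const_mul]
  have hk' : k < k + 1 := Nat.lt_succ_self k
  have hlast : (Fin.last k : Fin (k + 1)) ≠ 0 := by
    intro h
    have := congrArg Fin.val h
    simp at this
    omega
  have h2 : ∀ A : Fin (k + 1) → Idx n → ℝ,
      psiR (extP (Stn.meanP KH u A)) (k + 1) l =
      ∑ y, alpha A (Fin.last k) y * psiR (extP (Stn.meanP KH u A)) (Fin.last k) y := by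
    intro A
    rw [psiR_succ, Fin.val_last]
    refine Finset.sum_congr rfl fun y _ => ?_
    rw [extP_lt _ hk']
    have e2 : Stn.meanP KH u A ((⟨k, hk'⟩ : Fin (k + 1)), y) =
        alpha A (Fin.last k) y * u y := by
      change alpha A (Fin.last k) y * beta KH u A (Fin.last k) y = _
      rw [beta_last]
    rw [e2, hu]
    have := chi_mul_self l y
    calc (chi l y : ℝ) * (alpha A (Fin.last k) y * (1 * (chi l y : ℝ)) *
          psiR (extP (Stn.meanP KH (fun i => 1 * (chi l i : ℝ)) A)) k y)
        = ((chi l y : ℝ) * (chi l y : ℝ)) * (alpha A (Fin.last k) y *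
          psiR (extP (Stn.meanP KH (fun i => 1 * (chi l i : ℝ)) A)) k y) := by ring
      _ = _ := by rw [this, one_mul]
  simp only [h2]
  rw [integral_finsetSum]
  · have h3 : ∀ y ∈ (univ : Finset (Idx n)), (Real.sqrt (2 ^ n) / 32) ^ k ≤
        ∫ A, alpha A (Fin.last k) y * psiR (extP (Stn.meanP KH u A)) (Fin.last k : Fin (k + 1)) y
          ∂(muA (k + 1) (Idx n)) := by
      intro y _
      have := II_ge u (Fin.last k) y
      simpa only [Fin.val_last, II] using this
    have h4 := Finset.sum_le_sum h3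
    rw [Finset.sum_const, Finset.card_univ, nsmul_eq_mul] at h4
    have hcard : (Fintype.card (Idx n) : ℝ) = Real.sqrt (2 ^ n) ^ 2 := by
      rw [Forr.sqrtN_sq]
      simp only [Fintype.card_pi, Fintype.card_bool, prod_const, card_univ, Fintype.card_fin, Nat.cast_pow, Nat.cast_ofNat]
    rw [hcard] at h4
    refine le_trans (le_of_eq ?_) (mul_le_mul_of_nonneg_left h4 (by positivity))
    rw [div_pow, div_pow, one_pow, pow_add]
    field_simp
  · intro y _
    exact integrable_muA ((continuous_alpha _ _).mul (continuous_psi u _ y))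

end Vale.Agent.P362
end
end

section

section

/-! The hard distribution on the data of a row: `Wt l 1` conditioned on a large amplitude. -/

namespace Vale.Agent.P362.HW

open Finset

variable {k n : ℕ}

/-- the threshold -/
noncomputable def thr (k n : ℕ) : ℤ := ⌈(1 / 32 : ℝ) ^ k / 2 * Real.sqrt (2 ^ n) ^ (k + 2)⌉

theorem thr_le_iff (F : Data k n) (l : Idx n) :
    thr k n ≤ amp F l ↔ (1 / 32 : ℝ) ^ k / 2 ≤ Amp F l := by
  unfold thr Amp
  rw [Int.ceil_le, le_div_iff₀ (pow_pos (Forr.sqrtN_pos n) _)]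

/-- the normalisation constant -/
noncomputable def Z (l : Idx n) : ℝ :=
  ∑ F : Data k n, if thr k n ≤ amp F l then Wt l 1 F else 0

theorem Z_ge (hk : 1 ≤ k) (hexp : ∀ l : Idx n, (1 / 32 : ℝ) ^ k ≤ ∑ F : Data k n, Wt l 1 F * Amp F l)
    (l : Idx n) : (1 / 32 : ℝ) ^ k / 2 ≤ Z (k := k) l := by
  have hc : (0 : ℝ) ≤ (1 / 32 : ℝ) ^ k / 2 := by positivity
  have hW : ∀ F : Data k n, 0 ≤ Wt l 1 F := fun F => Wt_nonneg hk l 1 zero_le_one le_rfl F
  have h1 : ∀ F : Data k n, Wt l 1 F * Amp F l ≤
      (if thr k n ≤ amp F l then Wt l 1 F else 0) + (1 / 32 : ℝ) ^ k / 2 * Wt l 1 F := by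
    intro F
    split_ifs with h
    · have h2 : Wt l 1 F * Amp F l ≤ Wt l 1 F * 1 :=
        mul_le_mul_of_nonneg_left (Forr.Amp_le_one F l) (hW F)
      have h3 : 0 ≤ (1 / 32 : ℝ) ^ k / 2 * Wt l 1 F := mul_nonneg hc (hW F)
      linarith only [h2, h3]
    · rw [thr_le_iff] at h
      push Not at h
      have h2 : Wt l 1 F * Amp F l ≤ Wt l 1 F * ((1 / 32 : ℝ) ^ k / 2) :=
        mul_le_mul_of_nonneg_left h.le (hW F)
      linarith only [h2]
  have h2 := Finset.sum_le_sum fun F (_ : F ∈ univ) => h1 F
  rw [Finset.sum_add_distrib, ← Finset.mul_sum, Wt_sum] at h2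
  have h3 := hexp l
  change _ ≤ ∑ F : Data k n, (if thr k n ≤ amp F l then Wt l 1 F else 0)
  linarith only [h2, h3]

theorem Z_pos (hk : 1 ≤ k) (hexp : ∀ l : Idx n, (1 / 32 : ℝ) ^ k ≤ ∑ F : Data k n, Wt l 1 F * Amp F l)
    (l : Idx n) : 0 < Z (k := k) l :=
  lt_of_lt_of_le (by positivity) (Z_ge hk hexp l)

/-- the conditioned distribution -/
noncomputable def wd (l : Idx n) (F : Data k n) : ℝ :=
  (if thr k n ≤ amp F l then Wt l 1 F else 0) / Z (k := k) l

theorem wd_le (hk : 1 ≤ k) (hexp : ∀ l : Idx n, (1 / 32 : ℝ) ^ k ≤ ∑ F : Data k n, Wt l 1 F * Amp F l)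
    (l : Idx n) (F : Data k n) : wd l F ≤ 2 * 32 ^ k * Wt l 1 F := by
  have hW : 0 ≤ Wt l 1 F := Wt_nonneg hk l 1 zero_le_one le_rfl F
  have hZ := Z_ge hk hexp l
  have hZ0 := Z_pos hk hexp l
  unfold wd
  rw [div_le_iff₀ hZ0]
  have h1 : (if thr k n ≤ amp F l then Wt l 1 F else 0) ≤ Wt l 1 F := by
    split_ifs
    · exact le_rfl
    · exact hW
  refine h1.trans ?_
  have h2 : (1 : ℝ) ≤ 2 * 32 ^ k * Z (k := k) l := by
    have h3 : (1 : ℝ) = 2 * 32 ^ k * ((1 / 32 : ℝ) ^ k / 2) := by
      rw [one_div, inv_pow]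
      field_simp
    calc (1 : ℝ) = 2 * 32 ^ k * ((1 / 32 : ℝ) ^ k / 2) := h3
      _ ≤ 2 * 32 ^ k * Z (k := k) l := mul_le_mul_of_nonneg_left hZ (by positivity)
  calc Wt l 1 F = 1 * Wt l 1 F := (one_mul _).symm
    _ ≤ (2 * 32 ^ k * Z (k := k) l) * Wt l 1 F := mul_le_mul_of_nonneg_right h2 hW
    _ = 2 * 32 ^ k * Wt l 1 F * Z (k := k) l := by ring

/-- under the reference distribution the labels are rarely guessed -/
theorem ref_hit (hk : 1 ≤ k) {D : ℕ} (g : Idx n → DT (Fin (k + 1) × Idx n))
    (hcard : ∀ F, (univ.filter (fun l => (g l).eval F = true)).card ≤ D) :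
    ∑ l, ∑ F : Data k n, Wt l 0 F * (if (g l).eval F then (1 : ℝ) else 0) ≤ D := by
  have h0 : ∀ l, ∀ F : Data k n, Wt l 0 F = Wt (fun _ => false) 0 F := fun l F => Wt_ref l _ F
  have hW : ∀ F : Data k n, 0 ≤ Wt (fun _ => false) 0 F :=
    fun F => Wt_nonneg hk _ 0 le_rfl zero_le_one F
  rw [Finset.sum_comm]
  calc ∑ F : Data k n, ∑ l, Wt l 0 F * (if (g l).eval F then (1 : ℝ) else 0)
      = ∑ F : Data k n, Wt (fun _ => false) 0 F *
          ((univ.filter (fun l => (g l).eval F = true)).card : ℝ) := by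
        refine Finset.sum_congr rfl fun F _ => ?_
        rw [Finset.card_filter]
        push_cast
        rw [Finset.mul_sum]
        refine Finset.sum_congr rfl fun l _ => ?_
        rw [h0 l F]
    _ ≤ ∑ F : Data k n, Wt (fun _ => false) 0 F * (D : ℝ) := by
        refine Finset.sum_le_sum fun F _ => mul_le_mul_of_nonneg_left ?_ (hW F)
        exact_mod_cast hcard F
    _ = D := by rw [← Finset.sum_mul, Wt_sum, one_mul]

theorem main {D : ℕ} (hk : 1 ≤ k)
    (hexp : ∀ l : Idx n, (1 / 32 : ℝ) ^ k ≤ ∑ F : Data k n, Wt l 1 F * Amp F l) (B : ℝ)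
    (hB : ∀ t : DT (Fin (k + 1) × Idx n), t.depth ≤ D →
      ∀ P : Fin (k + 1) × Idx n → ℝ, (∀ p, |P p| ≤ 1 / 2) →
      ∑ τ : Fin (k + 1) → Idx n, |dext τ (fun x => if t.eval x then (1 : ℝ) else 0) P| ≤ B) :
    Nonempty (HardW k n (thr k n) D
      (2 * 32 ^ k * (D / 2 ^ n + B / (16 * Real.sqrt (2 ^ n)) ^ k))) := by
  refine ⟨⟨wd, ?_, ?_, ?_, ?_⟩⟩
  · intro l F
    unfold wd
    refine div_nonneg ?_ (Z_pos hk hexp l).le
    split_ifs
    · exact Wt_nonneg hk l 1 zero_le_one le_rfl F
    · exact le_rfl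
  · intro l
    unfold wd
    rw [← Finset.sum_div]
    exact div_self (Z_pos hk hexp l).ne'
  · intro l F h
    by_contra hcon
    apply h
    unfold wd
    rw [if_neg hcon, zero_div]
  · intro g hg hcard
    set E : ℝ := B / (16 * Real.sqrt (2 ^ n)) ^ k with hE
    have h1 : ∀ l, ∑ F : Data k n, wd l F * (if (g l).eval F then (1 : ℝ) else 0) ≤
        2 * 32 ^ k * (∑ F : Data k n, Wt l 0 F * (if (g l).eval F then (1 : ℝ) else 0) + E) := by
      intro l
      have h2 : ∑ F : Data k n, wd l F * (if (g l).eval F then (1 : ℝ) else 0) ≤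
          2 * 32 ^ k * ∑ F : Data k n, Wt l 1 F * (if (g l).eval F then (1 : ℝ) else 0) := by
        rw [Finset.mul_sum]
        refine Finset.sum_le_sum fun F _ => ?_
        rw [← mul_assoc]
        refine mul_le_mul_of_nonneg_right (wd_le hk hexp l F) ?_
        split_ifs <;> norm_num
      have h3 := hardness hk (fun F => if (g l).eval F then (1 : ℝ) else 0) B
        (fun P hP => hB (g l) (hg l) P hP) l
      have h4 := (abs_le.mp h3).2
      refine h2.trans (mul_le_mul_of_nonneg_left ?_ (by positivity))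
      linarith only [h4]
    calc ∑ l, ∑ F : Data k n, wd l F * (if (g l).eval F then (1 : ℝ) else 0)
        ≤ ∑ l, 2 * 32 ^ k * (∑ F : Data k n, Wt l 0 F *
            (if (g l).eval F then (1 : ℝ) else 0) + E) := Finset.sum_le_sum fun l _ => h1 l
      _ = 2 * 32 ^ k * (∑ l, ∑ F : Data k n, Wt l 0 F *
            (if (g l).eval F then (1 : ℝ) else 0) + 2 ^ n * E) := by
          rw [← Finset.mul_sum, Finset.sum_add_distrib]
          simp only [mul_ite, mul_one, mul_zero, sum_const, card_univ, Fintype.card_pi, Fintype.card_bool, prod_const, Fintype.card_fin, nsmul_eq_mul, Nat.cast_pow, Nat.cast_ofNat]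
      _ ≤ 2 * 32 ^ k * (D + 2 ^ n * E) := by
          refine mul_le_mul_of_nonneg_left ?_ (by positivity)
          have := ref_hit hk g hcard
          (clear * - this; linarith)
      _ = 2 * 32 ^ k * (D / 2 ^ n + E) * 2 ^ n := by
          (clear * -; field_simp)

end Vale.Agent.P362.HW

namespace Vale.Agent.P362

/-- `w l` is `Wt l 1` conditioned on a large amplitude. -/
theorem exists_hardW {k n D : ℕ} (hk : 1 ≤ k) (B : ℝ)
    (hB : ∀ t : DT (Fin (k + 1) × Idx n), t.depth ≤ D →
      ∀ P : Fin (k + 1) × Idx n → ℝ, (∀ p, |P p| ≤ 1 / 2) →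
      ∑ τ : Fin (k + 1) → Idx n, |dext τ (fun x => if t.eval x then (1 : ℝ) else 0) P| ≤ B) :
    Nonempty (HardW k n ⌈(1 / 32 : ℝ) ^ k / 2 * Real.sqrt (2 ^ n) ^ (k + 2)⌉ D
      (2 * 32 ^ k * (D / 2 ^ n + B / (16 * Real.sqrt (2 ^ n)) ^ k))) :=
  HW.main hk (fun l => amp_expect hk l) B hB

end Vale.Agent.P362
end
end

section

section

/-! Classical lower bound: the touching argument. -/

namespace Vale.Agent.P362.RC

section trees

variable {ι R V : Type}

open Classical in
/-- number of queries to positions in `S` on the path of `x` -/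
noncomputable def cnt (x : ι → Bool) (S : ι → Prop) : DT ι → ℕ
  | .leaf _ => 0
  | .node p t0 t1 => (if S p then 1 else 0) + (if x p then cnt x S t1 else cnt x S t0)

/-- does the path of `x` query a position in `S`? -/
def touch (x : ι → Bool) (S : ι → Prop) : DT ι → Prop
  | .leaf _ => False
  | .node p t0 t1 => S p ∨ (if x p then touch x S t1 else touch x S t0)

theorem eval_eq_of_not_touch (x x' : ι → Bool) (S : ι → Prop) (h : ∀ p, ¬ S p → x' p = x p)
    (t : DT ι) (ht : ¬ touch x S t) : t.eval x' = t.eval x := by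
  induction t with
  | leaf b => rfl
  | node p t0 t1 h0 h1 =>
    simp only [touch, not_or] at ht
    simp only [DT.eval_node]
    rw [h p ht.1]
    by_cases hx : x p = true
    · rw [if_pos hx, if_pos hx]
      exact h1 (by simpa [hx] using ht.2)
    · rw [if_neg hx, if_neg hx]
      exact h0 (by simpa [hx] using ht.2)

open Classical in
theorem sum_cnt_le [Fintype R] (row : ι → R) (x : ι → Bool) (t : DT ι) :
    ∑ j, cnt x (fun p => row p = j) t ≤ t.depth := by
  induction t with
  | leaf b => simp only [cnt, Finset.sum_const_zero, DT.depth_leaf, Std.le_refl]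
  | node p t0 t1 h0 h1 =>
    simp only [cnt, Finset.sum_add_distrib]
    have h2 : ∑ j, (if row p = j then 1 else 0) = 1 := by simp only [Finset.sum_ite_eq, Finset.mem_univ, ↓reduceIte]
    rw [h2, DT.depth_node]
    by_cases hx : x p = true
    · simp only [hx, if_true]
      have := le_max_right t0.depth t1.depth
      omega
    · simp only [hx]
      have := le_max_left t0.depth t1.depth
      simp only [Bool.false_eq_true, if_false]
      omega

open Classical in
/-- the number of rows with more than `D` queries -/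
theorem card_heavy [Fintype R] (row : ι → R) (x : ι → Bool) (t : DT ι) (D T : ℕ) (hD : 1 ≤ D)
    (ht : t.depth ≤ T) :
    ∑ j, (if D < cnt x (fun p => row p = j) t then (1 : ℝ) else 0) ≤ T / D := by
  have hD' : (0 : ℝ) < D := by exact_mod_cast hD
  rw [le_div_iff₀ hD', Finset.sum_mul]
  calc ∑ j, (if D < cnt x (fun p => row p = j) t then (1 : ℝ) else 0) * D
      ≤ ∑ j, (cnt x (fun p => row p = j) t : ℝ) := by
        refine Finset.sum_le_sum fun j _ => ?_
        split_ifs with h
        · rw [one_mul]; exact_mod_cast h.le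
        · simp only [zero_mul, Nat.cast_nonneg]
    _ ≤ T := by
        rw [← Nat.cast_sum]
        exact_mod_cast (sum_cnt_le row x t).trans ht

end trees

section guess

/-- the kinds of queries to a row: an own bit, a data bit, a cell -/
abbrev Kd (I V : Type) := I ⊕ (V ⊕ I)

variable {ι R I V : Type}

open Classical in
/-- decision tree on the data of row `j`, deciding if the position `e` (own bit or cell) is
queried by `t` within the first `fuel` queries to row `j`; other rows are answered by `y`, own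
bits by `true`, cells by `false` -/
noncomputable def guess (row : ι → R) (kd : ι → Kd I V) (j : R) (y : ι → Bool) (e : I ⊕ I) :
    DT ι → ℕ → DT V
  | .leaf _, _ => .leaf false
  | .node p t0 t1, fuel =>
    if row p = j then
      match fuel with
      | 0 => .leaf false
      | fuel + 1 =>
        match kd p with
        | .inl i => if e = .inl i then .leaf true else guess row kd j y e t1 fuel
        | .inr (.inl v) => .node v (guess row kd j y e t0 fuel) (guess row kd j y e t1 fuel)
        | .inr (.inr l) => if e = .inr l then .leaf true else guess row kd j y e t0 fuel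
    else (if y p then guess row kd j y e t1 fuel else guess row kd j y e t0 fuel)

theorem guess_depth (row : ι → R) (kd : ι → Kd I V) (j : R) (y : ι → Bool) (e : I ⊕ I)
    (t : DT ι) (fuel : ℕ) : (guess row kd j y e t fuel).depth ≤ fuel := by
  classical
  induction t generalizing fuel with
  | leaf b => simp only [guess, DT.depth_leaf, zero_le]
  | node p t0 t1 h0 h1 =>
    by_cases h2 : row p = j
    · cases fuel with
      | zero => simp [guess, h2]
      | succ fuel =>
        simp only [guess, if_pos h2]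
        rcases hk : kd p with i | v | l
        · simp only
          split_ifs
          · simp only [DT.depth_leaf, le_add_iff_nonneg_left, zero_le]
          · exact (h1 fuel).trans (Nat.le_succ _)
        · simp only [DT.depth_node]
          have := h0 fuel
          have := h1 fuel
          omega
        · simp only
          split_ifs
          · simp only [DT.depth_leaf, le_add_iff_nonneg_left, zero_le]
          · exact (h0 fuel).trans (Nat.le_succ _)
    · simp only [guess, if_neg h2]
      by_cases hy : y p = true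
      · rw [if_pos hy]; exact h1 fuel
      · rw [if_neg hy]; exact h0 fuel

open Classical in
theorem guess_card [Fintype I] (row : ι → R) (kd : ι → Kd I V) (j : R) (y : ι → Bool)
    (F : V → Bool) (t : DT ι) (fuel : ℕ) :
    (Finset.univ.filter fun e : I ⊕ I => (guess row kd j y e t fuel).eval F = true).card ≤
      fuel := by
  induction t generalizing fuel with
  | leaf b => simp only [guess, DT.eval_leaf, Bool.false_eq_true, Finset.filter_false, Finset.card_empty, zero_le]
  | node p t0 t1 h0 h1 =>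
    by_cases h2 : row p = j
    · cases fuel with
      | zero => simp [guess, h2]
      | succ fuel =>
        rcases hk : kd p with i | v | l
        · have : (Finset.univ.filter fun e : I ⊕ I =>
              (guess row kd j y e (.node p t0 t1) (fuel + 1)).eval F = true) ⊆
              insert (.inl i) (Finset.univ.filter fun e : I ⊕ I =>
                (guess row kd j y e t1 fuel).eval F = true) := by
            intro e
            simp only [guess, if_pos h2, hk, Finset.mem_filter, Finset.mem_univ, true_and,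
              Finset.mem_insert]
            split_ifs with h3
            · exact fun _ => Or.inl h3
            · exact fun h => Or.inr h
          refine (Finset.card_le_card this).trans ((Finset.card_insert_le _ _).trans ?_)
          exact Nat.succ_le_succ (h1 fuel)
        · simp only [guess, if_pos h2, hk, DT.eval_node]
          by_cases hF : F v = true
          · simp only [hF, if_true]
            exact (h1 fuel).trans (Nat.le_succ _)
          · simp only [hF]
            exact (h0 fuel).trans (Nat.le_succ _)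
        · have : (Finset.univ.filter fun e : I ⊕ I =>
              (guess row kd j y e (.node p t0 t1) (fuel + 1)).eval F = true) ⊆
              insert (.inr l) (Finset.univ.filter fun e : I ⊕ I =>
                (guess row kd j y e t0 fuel).eval F = true) := by
            intro e
            simp only [guess, if_pos h2, hk, Finset.mem_filter, Finset.mem_univ, true_and,
              Finset.mem_insert]
            split_ifs with h3
            · exact fun _ => Or.inl h3
            · exact fun h => Or.inr h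
          refine (Finset.card_le_card this).trans ((Finset.card_insert_le _ _).trans ?_)
          exact Nat.succ_le_succ (h0 fuel)
    · simp only [guess, if_neg h2]
      by_cases hy : y p = true
      · simp only [hy, if_true]; exact h1 fuel
      · simp only [hy]; exact h0 fuel

/-- the main simulation claim -/
theorem guess_of_touch (row : ι → R) (kd : ι → Kd I V) (j : R) (y x : ι → Bool) (i l : I)
    (F : V → Bool) (hx0 : ∀ p, row p ≠ j → x p = y p)
    (hx1 : ∀ p i', row p = j → kd p = .inl i' → i' ≠ i → x p = true)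
    (hx2 : ∀ p v, row p = j → kd p = .inr (.inl v) → x p = F v)
    (hx3 : ∀ p l', row p = j → kd p = .inr (.inr l') → x p = false)
    (t : DT ι) (fuel : ℕ)
    (ht : touch x (fun p => row p = j ∧ (kd p = .inl i ∨ kd p = .inr (.inr l))) t)
    (hc : cnt x (fun p => row p = j) t ≤ fuel) :
    (guess row kd j y (.inl i) t fuel).eval F = true ∨
      (guess row kd j y (.inr l) t fuel).eval F = true := by
  classical
  induction t generalizing fuel with
  | leaf b => exact absurd ht (by simp [touch])
  | node p t0 t1 h0 h1 =>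
    simp only [touch] at ht
    simp only [cnt] at hc
    by_cases h2 : row p = j
    · rw [if_pos h2] at hc
      obtain ⟨fuel, rfl⟩ : ∃ f, fuel = f + 1 := ⟨fuel - 1, by omega⟩
      simp only [guess, if_pos h2]
      rcases hk : kd p with i' | v | l'
      · simp only
        by_cases hi : i' = i
        · subst hi
          left
          simp
        · have hxp := hx1 p i' h2 hk hi
          rw [if_pos hxp] at hc
          have ht' := ht.resolve_left (by
            rintro ⟨-, h3 | h3⟩
            · rw [hk] at h3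
              exact hi (Sum.inl_injective h3)
            · rw [hk] at h3
              exact absurd h3 (by simp))
          rw [if_pos hxp] at ht'
          have h4 := h1 fuel ht' (by omega)
          have e1 : (Sum.inl i : I ⊕ I) ≠ Sum.inl i' := fun h => hi (Sum.inl_injective h).symm
          have e2 : (Sum.inr l : I ⊕ I) ≠ Sum.inl i' := by simp
          rw [if_neg e1, if_neg e2]
          exact h4
      · simp only [DT.eval_node]
        have hxp := hx2 p v h2 hk
        have ht' := ht.resolve_left (by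
            rintro ⟨-, h3 | h3⟩
            · rw [hk] at h3
              exact absurd h3 (by simp)
            · rw [hk] at h3
              exact absurd h3 (by simp))
        rw [hxp] at hc ht'
        by_cases hF : F v = true
        · simp only [hF, if_true] at hc ht' ⊢
          exact h1 fuel ht' (by omega)
        · rw [if_neg hF] at hc ht'
          rw [if_neg hF, if_neg hF]
          exact h0 fuel ht' (by omega)
      · simp only
        by_cases hl : l' = l
        · subst hl
          right
          simp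
        · have hxp := hx3 p l' h2 hk
          rw [if_neg (by simp [hxp])] at hc
          have ht' := ht.resolve_left (by
            rintro ⟨-, h3 | h3⟩
            · rw [hk] at h3
              exact absurd h3 (by simp)
            · rw [hk] at h3
              exact hl (Sum.inr_injective (Sum.inr_injective h3)))
          rw [if_neg (by simp [hxp])] at ht'
          have h4 := h0 fuel ht' (by omega)
          have e1 : (Sum.inr l : I ⊕ I) ≠ Sum.inr l' := fun h => hl (Sum.inr_injective h).symm
          have e2 : (Sum.inl i : I ⊕ I) ≠ Sum.inr l' := by simp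
          rw [if_neg e1, if_neg e2]
          exact h4
    · rw [if_neg h2, zero_add] at hc
      have ht' := ht.resolve_left (fun h => h2 h.1)
      simp only [guess, if_neg h2]
      rw [hx0 p h2] at hc ht'
      by_cases hy : y p = true
      · simp only [hy, if_true] at hc ht' ⊢
        exact h1 fuel ht' hc
      · rw [if_neg hy] at hc ht'
        rw [if_neg hy, if_neg hy]
        exact h0 fuel ht' hc

end guess

end Vale.Agent.P362.RC
end
end

section

section

/-! Resampling one coordinate of a finite product distribution. -/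

namespace Vale.Agent.P362.RC

theorem resample {J β : Type} [Fintype J] [DecidableEq J] [Fintype β] (v : β → ℝ)
    (hv : ∑ b, v b = 1) (j : J) (φ : (J → β) → ℝ) :
    ∑ ω : J → β, (∏ i, v (ω i)) * φ ω =
      ∑ ω : J → β, (∏ i, v (ω i)) * ∑ b, v b * φ (Function.update ω j b) := by
  have hprod : ∀ ω : J → β, ∏ i, v (ω i) = v (ω j) * ∏ i ∈ Finset.univ.erase j, v (ω i) :=
    fun ω => (Finset.mul_prod_erase Finset.univ (fun i => v (ω i)) (Finset.mem_univ j)).symm
  have hupd : ∀ (ω : J → β) (b : β), ∏ i ∈ Finset.univ.erase j, v (Function.update ω j b i) =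
      ∏ i ∈ Finset.univ.erase j, v (ω i) := by
    intro ω b
    refine Finset.prod_congr rfl fun i hi => ?_
    rw [Function.update_of_ne (Finset.ne_of_mem_erase hi)]
  -- both sides via the pairs (ω, b)
  have key : ∀ Φ : (J → β) → β → ℝ, ∑ ω : J → β, ∑ b, Φ ω b =
      ∑ ω : J → β, ∑ b, Φ (Function.update ω j b) (ω j) := by
    intro Φ
    rw [← Fintype.sum_prod_type', ← Fintype.sum_prod_type']
    refine Fintype.sum_equiv
      ⟨fun p => (Function.update p.1 j p.2, p.1 j), fun p => (Function.update p.1 j p.2, p.1 j),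
        fun p => by simp, fun p => by simp⟩ _ _ fun p => ?_
    simp
  calc ∑ ω : J → β, (∏ i, v (ω i)) * φ ω
      = ∑ ω : J → β, ∑ b, v b * ((∏ i, v (ω i)) * φ ω) := by
        refine Finset.sum_congr rfl fun ω _ => ?_
        rw [← Finset.sum_mul, hv, one_mul]
    _ = ∑ ω : J → β, ∑ b, v (ω j) * ((∏ i, v (Function.update ω j b i)) *
          φ (Function.update ω j b)) :=
        key (fun ω b => v b * ((∏ i, v (ω i)) * φ ω))
    _ = _ := by
        refine Finset.sum_congr rfl fun ω _ => ?_
        rw [Finset.mul_sum]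
        refine Finset.sum_congr rfl fun b _ => ?_
        rw [hprod (Function.update ω j b), hprod ω, hupd, Function.update_self]
        ring

theorem prod_sum_one {J β : Type} [Fintype J] [DecidableEq J] [Fintype β] (v : β → ℝ)
    (hv : ∑ b, v b = 1) : ∑ ω : J → β, ∏ i, v (ω i) = 1 := by
  have h := Finset.prod_univ_sum (fun _ : J => (Finset.univ : Finset β)) (fun _ b => v b)
  rw [Fintype.piFinset_univ] at h
  rw [← h]
  simp only [hv, Finset.prod_const_one]

end Vale.Agent.P362.RC
end
end

section

section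

/-! From a randomized algorithm to a deterministic tree that distinguishes two distributions. -/

namespace Vale.Agent.P362

open scoped ENNReal

namespace RAvgAux

theorem exists_support {α : Type} (p : PMF α) (v : α → ℝ≥0∞) (c : ℝ≥0∞) (hc : c ≠ ∞)
    (h : c ≤ ∑' t, p t * v t) : ∃ t ∈ p.support, c ≤ v t := by
  by_contra hcon
  push Not at hcon
  obtain ⟨i, hi⟩ := p.support_nonempty
  have h1 : ∀ t, p t * v t ≤ p t * c := by
    intro t
    by_cases ht : p t = 0
    · simp [ht]
    · exact mul_le_mul_right (hcon t ((p.mem_support_iff t).2 ht)).le _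
  have h2 : ∑' t, p t * c = c := by
    rw [ENNReal.tsum_mul_right, p.tsum_coe, one_mul]
  have h3 : ∑' t, p t * v t < ∑' t, p t * c := by
    refine ENNReal.tsum_lt_tsum (i := i) ?_ h1 ?_
    · refine ne_top_of_le_ne_top ?_ (ENNReal.tsum_le_tsum h1)
      rw [h2]; exact hc
    · exact ENNReal.mul_lt_mul_right ((p.mem_support_iff i).1 hi) (p.apply_ne_top i)
        (hcon i hi)
  rw [h2] at h3
  exact absurd h (not_le.2 h3)

end RAvgAux

open RAvgAux in
theorem rand_avg {ι O : Type} [Fintype O] (f : (ι → Bool) → Bool) (T : ℕ)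
    (h : RandComputes f T) (w : O → ℝ) (hw0 : ∀ o, 0 ≤ w o) (hw1 : ∑ o, w o = 1)
    (X0 X1 : O → (ι → Bool)) (h0 : ∀ o, w o ≠ 0 → f (X0 o) = false)
    (h1 : ∀ o, w o ≠ 0 → f (X1 o) = true) :
    ∃ t : DT ι, t.depth ≤ T ∧
      (1 / 3 : ℝ) ≤ ∑ o, w o * (if t.eval (X0 o) = t.eval (X1 o) then 0 else 1) := by
  classical
  obtain ⟨p, hp, hx⟩ := h
  set v : DT ι → ℝ≥0∞ := fun t => ∑ o, ENNReal.ofReal (w o) *
    ((if t.eval (X0 o) = false then 1 else 0) + (if t.eval (X1 o) = true then 1 else 0)) with hv
  have hP : ∀ (x : ι → Bool) (b : Bool), f x = b →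
      2 / 3 ≤ ∑' t, p t * (if t.eval x = b then 1 else 0) := by
    intro x b hb
    refine (hx x).trans (le_of_eq ?_)
    rw [PMF.toOuterMeasure_apply]
    refine tsum_congr fun t => ?_
    rw [Set.indicator_apply]
    simp only [Set.mem_ofPred_eq, hb]
    split_ifs <;> simp
  have hS : (4 / 3 : ℝ≥0∞) ≤ ∑' t, p t * v t := by
    have e1 : ∑' t, p t * v t = ∑ o, ENNReal.ofReal (w o) *
        ((∑' t, p t * (if t.eval (X0 o) = false then 1 else 0)) +
          (∑' t, p t * (if t.eval (X1 o) = true then 1 else 0))) := by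
      have e2 : ∀ t, p t * v t = ∑ o, ENNReal.ofReal (w o) *
          (p t * (if t.eval (X0 o) = false then 1 else 0) +
            p t * (if t.eval (X1 o) = true then 1 else 0)) := by
        intro t
        rw [hv]
        simp only [Finset.mul_sum]
        refine Finset.sum_congr rfl fun o _ => ?_
        ring
      simp only [e2]
      rw [Summable.tsum_finsetSum (fun o _ => ENNReal.summable)]
      refine Finset.sum_congr rfl fun o _ => ?_
      rw [ENNReal.tsum_mul_left, ENNReal.tsum_add]
    rw [e1]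
    have e3 : (4 / 3 : ℝ≥0∞) = ∑ o, ENNReal.ofReal (w o) * (4 / 3) := by
      rw [← Finset.sum_mul, ← ENNReal.ofReal_sum_of_nonneg (fun o _ => hw0 o), hw1]
      simp
    rw [e3]
    refine Finset.sum_le_sum fun o _ => ?_
    by_cases ho : w o = 0
    · simp only [ho, ENNReal.ofReal_zero, zero_mul, mul_ite, mul_one, mul_zero, Std.le_refl]
    · refine mul_le_mul_right ?_ _
      have a0 := hP (X0 o) false (h0 o ho)
      have a1 := hP (X1 o) true (h1 o ho)
      refine le_trans (le_of_eq ?_) (add_le_add a0 a1)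
      rw [← ENNReal.add_div]
      norm_num
  obtain ⟨t, ht, hvt⟩ := exists_support p v (4 / 3)
    (ENNReal.div_ne_top (by norm_num) (by norm_num)) hS
  refine ⟨t, hp t ht, ?_⟩
  set g : O → ℝ := fun o => (if t.eval (X0 o) = false then 1 else 0) +
    (if t.eval (X1 o) = true then 1 else 0) with hg
  have hg0 : ∀ o, 0 ≤ g o := by
    intro o
    simp only [hg]
    split_ifs <;> norm_num
  have hvr : v t = ENNReal.ofReal (∑ o, w o * g o) := by
    rw [ENNReal.ofReal_sum_of_nonneg (fun o _ => mul_nonneg (hw0 o) (hg0 o))]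
    simp only [hv]
    refine Finset.sum_congr rfl fun o _ => ?_
    rw [ENNReal.ofReal_mul (hw0 o)]
    congr 1
    simp only [hg]
    rw [ENNReal.ofReal_add (by split_ifs <;> norm_num) (by split_ifs <;> norm_num)]
    congr 1 <;> split_ifs <;> simp
  have h43 : (4 / 3 : ℝ) ≤ ∑ o, w o * g o := by
    rw [hvr] at hvt
    have e4 : (4 / 3 : ℝ≥0∞) = ENNReal.ofReal (4 / 3) := by
      rw [ENNReal.ofReal_div_of_pos (by norm_num)]
      norm_num
    rw [e4] at hvt
    exact (ENNReal.ofReal_le_ofReal_iff
      (Finset.sum_nonneg fun o _ => mul_nonneg (hw0 o) (hg0 o))).1 hvt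
  have h5 : ∑ o, w o * g o ≤
      ∑ o, (w o + w o * (if t.eval (X0 o) = t.eval (X1 o) then 0 else 1)) := by
    refine Finset.sum_le_sum fun o _ => ?_
    have : g o ≤ 1 + (if t.eval (X0 o) = t.eval (X1 o) then 0 else 1) := by
      simp only [hg]
      cases t.eval (X0 o) <;> cases t.eval (X1 o) <;> norm_num
    calc w o * g o ≤ w o * (1 + (if t.eval (X0 o) = t.eval (X1 o) then 0 else 1)) :=
          mul_le_mul_of_nonneg_left this (hw0 o)
      _ = _ := by ring
  rw [Finset.sum_add_distrib, hw1] at h5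
  linarith only [h43, h5]

end Vale.Agent.P362
end
end

section

section

/-! Transcripts of the fast Hadamard transform. -/

namespace Vale.Agent.P362

namespace FT

/-- kernel of the first `t` butterfly stages -/
def KT {n : ℕ} (t : ℕ) (z y : Idx n) : ℤ :=
  ∏ c : Fin n, (if (c : ℕ) < t then (if (z c && y c) then -1 else 1)
    else (if y c = z c then 1 else 0))

theorem KT_zero {n : ℕ} (z y : Idx n) : KT 0 z y = if y = z then 1 else 0 := by
  unfold KT
  simp only [Nat.not_lt_zero, if_false]
  rw [Finset.prod_ite_zero]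
  simp only [Finset.mem_univ, true_imp_iff, Finset.prod_const_one]
  simp only [funext_iff]

theorem KT_last {n : ℕ} (z y : Idx n) : KT n z y = chi z y := by
  unfold KT chi
  refine Finset.prod_congr rfl fun c _ => ?_
  rw [if_pos c.2]

theorem KT_succ {n : ℕ} (t : Fin n) (z y : Idx n) : KT (t + 1) z y =
    KT t (Function.update z t false) y + (if z t then -1 else 1) *
      KT t (Function.update z t true) y := by
  unfold KT
  rw [← Finset.mul_prod_erase Finset.univ _ (Finset.mem_univ t),
    ← Finset.mul_prod_erase Finset.univ _ (Finset.mem_univ t),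
    ← Finset.mul_prod_erase Finset.univ _ (Finset.mem_univ t)]
  have h1 : ∀ b : Bool, ∏ c ∈ Finset.univ.erase t, (if (c : ℕ) < (t : ℕ) then
      (if (Function.update z t b c && y c) then (-1 : ℤ) else 1)
      else (if y c = Function.update z t b c then 1 else 0)) =
      ∏ c ∈ Finset.univ.erase t, (if (c : ℕ) < (t : ℕ) + 1 then
        (if (z c && y c) then (-1 : ℤ) else 1) else (if y c = z c then 1 else 0)) := by
    intro b
    refine Finset.prod_congr rfl fun c hc => ?_
    have hc' : c ≠ t := Finset.ne_of_mem_erase hc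
    have hc'' : (c : ℕ) ≠ (t : ℕ) := fun h => hc' (Fin.ext h)
    rw [Function.update_of_ne hc']
    by_cases h : (c : ℕ) < (t : ℕ)
    · have h' : (c : ℕ) < (t : ℕ) + 1 := by omega
      rw [if_pos h, if_pos h']
    · have h' : ¬ (c : ℕ) < (t : ℕ) + 1 := by omega
      rw [if_neg h, if_neg h']
  rw [h1 false, h1 true]
  simp only [lt_self_iff_false, if_false, Function.update_self, Nat.lt_succ_self, if_true]
  generalize ∏ c ∈ Finset.univ.erase t, (if (c : ℕ) < (t : ℕ) + 1 then
        (if (z c && y c) then (-1 : ℤ) else 1) else (if y c = z c then 1 else 0)) = Pr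
  cases z t <;> cases y t <;> simp

theorem KT_abs {n : ℕ} (t : ℕ) (z y : Idx n) : |KT t z y| ≤ 1 := by
  unfold KT
  rw [Finset.abs_prod]
  refine Finset.prod_le_one (fun _ _ => abs_nonneg _) fun c _ => ?_
  split_ifs <;> simp

/-- value after `t` stages -/
def val {n : ℕ} (u : Idx n → ℤ) (t : ℕ) (z : Idx n) : ℤ := ∑ y, KT t z y * u y

theorem val_zero {n : ℕ} (u : Idx n → ℤ) (z : Idx n) : val u 0 z = u z := by
  unfold val
  simp [KT_zero]

theorem val_last {n : ℕ} (u : Idx n → ℤ) (z : Idx n) : val u n z = had u z := by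
  unfold val had
  simp [KT_last]

theorem val_succ {n : ℕ} (u : Idx n → ℤ) (t : Fin n) (z : Idx n) : val u (t + 1) z =
    val u t (Function.update z t false) + (if z t then -1 else 1) *
      val u t (Function.update z t true) := by
  unfold val
  rw [Finset.mul_sum, ← Finset.sum_add_distrib]
  refine Finset.sum_congr rfl fun y _ => ?_
  rw [KT_succ]
  ring

theorem val_abs {n : ℕ} (u : Idx n → ℤ) (B : ℤ) (hu : ∀ y, |u y| ≤ B) (t : ℕ) (z : Idx n) :
    |val u t z| ≤ 2 ^ n * B := by
  unfold val
  calc |∑ y, KT t z y * u y| ≤ ∑ y, |KT t z y * u y| := Finset.abs_sum_le_sum_abs _ _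
    _ ≤ ∑ y : Idx n, B := by
        refine Finset.sum_le_sum fun y _ => ?_
        rw [abs_mul]
        calc |KT t z y| * |u y| ≤ 1 * |u y| :=
              mul_le_mul_of_nonneg_right (KT_abs t z y) (abs_nonneg _)
          _ ≤ B := by rw [one_mul]; exact hu y
    _ = 2 ^ n * B := by
        rw [Finset.sum_const, Finset.card_univ, nsmul_eq_mul]
        simp only [Idx, Fintype.card_pi, Fintype.card_bool, Finset.prod_const, Finset.card_univ, Fintype.card_fin, Nat.cast_pow, Nat.cast_ofNat]

/-- a function satisfying the butterfly recursion is `val` -/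
theorem eq_val {n : ℕ} (g : Fin (n + 1) → Idx n → ℤ)
    (hg : ∀ (t : Fin n) z, g t.succ z = g t.castSucc (Function.update z t false) +
      (if z t then -1 else 1) * g t.castSucc (Function.update z t true)) (t : Fin (n + 1))
    (z : Idx n) : g t z = val (g 0) t z := by
  induction t using Fin.induction generalizing z with
  | zero => simp [val_zero]
  | succ t ih =>
    rw [hg t z, ih, ih, Fin.val_succ, val_succ]
    rfl

theorem sgZ_abs (b : Bool) : |sgZ b| = 1 := by cases b <;> simp [sgZ]

theorem phi_abs {n : ℕ} (F : ℕ → Idx n → Bool) (s : ℕ) (z : Idx n) :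
    |phi F s z| ≤ 2 ^ (s * n) := by
  induction s generalizing z with
  | zero => simp [phi_zero]
  | succ s ih =>
    rw [phi_succ, ← val_last]
    refine (val_abs _ (2 ^ (s * n)) (fun y => ?_) n z).trans (le_of_eq ?_)
    · rw [abs_mul, sgZ_abs, one_mul]
      exact ih y
    · rw [← pow_add]; congr 1; ring

theorem sum_testBit (w N : ℕ) : ∑ c : Fin w, (if N.testBit c then (2 : ℤ) ^ (c : ℕ) else 0) =
    ((N % 2 ^ w : ℕ) : ℤ) := by
  induction w with
  | zero => simp [Nat.mod_one]
  | succ w ih =>
    rw [Fin.sum_univ_castSucc]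
    simp only [Fin.val_castSucc, Fin.val_last]
    rw [ih, Nat.mod_pow_succ]
    have h : (if N.testBit w then (2 : ℤ) ^ w else 0) = 2 ^ w * ((N / 2 ^ w % 2 : ℕ) : ℤ) := by
      rw [Nat.testBit_eq_decide_div_mod_eq]
      rcases Nat.mod_two_eq_zero_or_one (N / 2 ^ w) with h | h <;> simp [h]
    rw [h]
    push_cast
    ring

/-- encoding of an integer by `w` bits -/
def enc (w : ℕ) (v : ℤ) (c : Fin w) : Bool := (v + 2 ^ (w - 1)).toNat.testBit c

theorem decZ_enc (w : ℕ) (hw : 1 ≤ w) (v : ℤ) (h0 : -2 ^ (w - 1) ≤ v) (h1 : v < 2 ^ (w - 1)) :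
    decZ (enc w v) = v := by
  unfold decZ enc
  rw [sum_testBit, Nat.mod_eq_of_lt]
  · rw [Int.toNat_of_nonneg (by linarith only [h0])]
    ring
  · have h2 : (v + 2 ^ (w - 1)) < 2 ^ w := by
      have : (2 : ℤ) ^ w = 2 ^ (w - 1) + 2 ^ (w - 1) := by
        obtain ⟨w', rfl⟩ : ∃ w', w = w' + 1 := ⟨w - 1, by omega⟩
        rw [Nat.add_sub_cancel, pow_succ]; ring
      linarith only [h1, this]
    have h3 : (v + 2 ^ (w - 1)) < ((2 ^ w : ℕ) : ℤ) := by push_cast; exact h2
    omega

end FT

open FT

/-- soundness: the transcript of a valid cell is the fast Hadamard transform. -/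
theorem amp_ge_of_valid {k n w : ℕ} {θ : ℤ} {x : Pos k n w → Bool} {a : Idx n × Idx n}
    (h : Valid θ x a) : θ ≤ amp (rowD x a.1) a.2 := by
  have hgate : ∀ (s : Fin (k + 1)) (z : Idx n), trv x a.1 a.2 s (Fin.last n) z =
      had (trv x a.1 a.2 s 0) z := by
    intro s z
    rw [← val_last, eq_val (fun t z => trv x a.1 a.2 s t z) (fun t z => h (.gate s t z))]
    rfl
  have key : ∀ (s : ℕ) (hs : s < k + 1) (z : Idx n), trv x a.1 a.2 ⟨s, hs⟩ (Fin.last n) z =
      phi (extF (rowD x a.1)) (s + 1) z := by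
    intro s
    induction s with
    | zero =>
      intro hs z
      rw [hgate, phi_succ]
      congr 1
      funext y
      have h1 := h (.ini ⟨0, hs⟩ y)
      simp only [okC] at h1
      rw [h1]
      have e : (⟨0, hs⟩ : Fin (k + 1)) = 0 := rfl
      rw [e]
      simp only [Fin.cases_zero, mul_one]
      simp only [extF, lt_add_iff_pos_left, Order.lt_add_one_iff, zero_le, ↓reduceDIte, rowD, Fin.zero_eta, phi_zero, mul_one]
    | succ s ih =>
      intro hs z
      rw [hgate, phi_succ]
      congr 1
      funext y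
      have h1 := h (.ini ⟨s + 1, hs⟩ y)
      simp only [okC] at h1
      rw [h1]
      have e : (⟨s + 1, hs⟩ : Fin (k + 1)) = Fin.succ ⟨s, by omega⟩ := rfl
      rw [e]
      simp only [Fin.cases_succ]
      have e2 : (Fin.castSucc ⟨s, by omega⟩ : Fin (k + 1)) = ⟨s, by omega⟩ := rfl
      rw [e2, ih (by omega) y]
      congr 1
      simp [extF, rowD, hs]
  have hfin := h .fin
  simp only [okC] at hfin
  have e : (Fin.last k) = ⟨k, Nat.lt_succ_self k⟩ := rfl
  rw [e, key k (Nat.lt_succ_self k)] at hfin
  exact hfin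

/-- completeness: there is a correct transcript for every data with large amplitude. -/
theorem exists_transcript (k n w : ℕ) (hw : (k + 1) * n + 2 ≤ w) :
    ∃ tb : Data k n → Fin (k + 1) → Fin (n + 1) → Idx n → Fin w → Bool,
    ∀ (θ : ℤ) (x : Pos k n w → Bool) (a : Idx n × Idx n), θ ≤ amp (rowD x a.1) a.2 →
      (∀ i, x (.bit a.1 i) = true) →
      (∀ j', j' ≠ a.1 → x (.bit j' (ptrv x a.1 a.2 j')) = false) →
      (∀ s t z c, x (.tr a.1 a.2 s t z c) = tb (rowD x a.1) s t z c) → Valid θ x a := by
  let u : Data k n → Fin (k + 1) → Idx n → ℤ := fun F s y =>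
    sgZ (extF F s y) * phi (extF F) s y
  refine ⟨fun F s t z => enc w (val (u F s) t z), ?_⟩
  intro θ x a hθ hbit hptr htr
  have hu : ∀ F s y, |u F s y| ≤ 2 ^ (k * n) := by
    intro F s y
    simp only [u]
    rw [abs_mul, sgZ_abs, one_mul]
    refine (phi_abs _ _ _).trans ?_
    refine pow_le_pow_right₀ (by norm_num) (Nat.mul_le_mul_right _ ?_)
    have := s.2
    omega
  have hval : ∀ F s (t : ℕ) z, |val (u F s) t z| < 2 ^ (w - 1) := by
    intro F s t z
    refine (val_abs _ _ (hu F s) t z).trans_lt ?_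
    rw [← pow_add]
    refine pow_lt_pow_right₀ (by norm_num) ?_
    have : (k + 1) * n = n + k * n := by ring
    omega
  have htrv : ∀ s t z, trv x a.1 a.2 s t z = val (u (rowD x a.1) s) t z := by
    intro s t z
    unfold trv
    have : (fun c => x (.tr a.1 a.2 s t z c)) = enc w (val (u (rowD x a.1) s) t z) := by
      funext c
      exact htr s t z c
    rw [this]
    have h1 := hval (rowD x a.1) s t z
    rw [abs_lt] at h1
    exact decZ_enc w (by omega) _ h1.1.le h1.2
  intro c
  cases c with
  | own i => exact hbit i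
  | claim j' => exact hptr j'
  | ini s z =>
    simp only [okC]
    rw [htrv]
    simp only [Fin.val_zero, val_zero, u]
    congr 1
    · congr 1
      have hs := s.2
      simp only [extF, rowD, hs, dif_pos]
    · induction s using Fin.cases with
      | zero => simp [phi_zero]
      | succ s =>
        simp only [Fin.cases_succ]
        rw [htrv]
        simp only [Fin.val_last, val_last, u, Fin.val_succ, phi_succ, Fin.val_castSucc]
  | gate s t z =>
    simp only [okC]
    rw [htrv, htrv, htrv]
    simp only [Fin.val_succ, Fin.val_castSucc]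
    exact val_succ _ t z
  | fin =>
    simp only [okC]
    rw [htrv]
    simp only [Fin.val_last, val_last, u]
    exact hθ

end Vale.Agent.P362
end
end

section

section

/-! Classical lower bound for the hard function. -/

namespace Vale.Agent.P362

namespace RC

variable {k n w : ℕ}

/-- row of a position -/
def rowOf : Pos k n w → Idx n
  | .bit j _ => j
  | .dat j _ _ => j
  | .ptr j _ _ _ => j
  | .tr j _ _ _ _ _ => j

/-- kind of a position -/
def kdOf : Pos k n w → Kd (Idx n) (Fin (k + 1) × Idx n)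
  | .bit _ i => .inl i
  | .dat _ s i => .inr (.inl (s, i))
  | .ptr _ l _ _ => .inr (.inr l)
  | .tr _ l _ _ _ _ => .inr (.inr l)

/-- hidden data of a row: position of the zero, marked cell, data -/
abbrev RowV (k n : ℕ) := Idx n × Idx n × Data k n

/-- the `0`-input -/
def x0 (ω : Idx n → RowV k n) : Pos k n w → Bool
  | .bit j i => decide (i ≠ (ω j).1)
  | .dat j s i => (ω j).2.2 (s, i)
  | .ptr _ _ _ _ => false
  | .tr _ _ _ _ _ _ => false

/-- the `1`-input -/
def x1 (tb : Data k n → Fin (k + 1) → Fin (n + 1) → Idx n → Fin w → Bool)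
    (ω : Idx n → RowV k n) (j0 : Idx n) : Pos k n w → Bool
  | .bit j i => if j = j0 then true else decide (i ≠ (ω j).1)
  | .dat j s i => (ω j).2.2 (s, i)
  | .ptr j l j' c => if j = j0 ∧ l = (ω j0).2.1 then (ω j').1 c else false
  | .tr j l s t z c => if j = j0 ∧ l = (ω j0).2.1 then tb (ω j0).2.2 s t z c else false

theorem ff_x0 (θ : ℤ) (ω : Idx n → RowV k n) : ff k n w θ (x0 ω) = false := by
  rw [ff, decide_eq_false_iff_not]
  rintro ⟨a, ha⟩
  have h := ha (.own (ω a.1).1)
  simp only [okC, x0, ne_eq, not_true_eq_false, decide_false, Bool.false_eq_true] at h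

theorem ff_x1 (θ : ℤ) (tb : Data k n → Fin (k + 1) → Fin (n + 1) → Idx n → Fin w → Bool)
    (htb : ∀ (θ : ℤ) (x : Pos k n w → Bool) (a : Idx n × Idx n), θ ≤ amp (rowD x a.1) a.2 →
      (∀ i, x (.bit a.1 i) = true) →
      (∀ j', j' ≠ a.1 → x (.bit j' (ptrv x a.1 a.2 j')) = false) →
      (∀ s t z c, x (.tr a.1 a.2 s t z c) = tb (rowD x a.1) s t z c) → Valid θ x a)
    (ω : Idx n → RowV k n) (j0 : Idx n) (hθ : θ ≤ amp (ω j0).2.2 (ω j0).2.1) :
    ff k n w θ (x1 tb ω j0) = true := by
  have key : ∃ a, Valid θ (x1 tb ω j0) a := by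
    refine ⟨(j0, (ω j0).2.1), htb θ _ _ ?_ ?_ ?_ ?_⟩
    · exact hθ
    · intro i
      simp [x1]
    · intro j' hj'
      have : ptrv (x1 tb ω j0) j0 (ω j0).2.1 j' = (ω j').1 := by
        funext c
        simp [ptrv, x1]
      simp only at hj' ⊢
      rw [this]
      simp [x1, hj']
    · intro s t z c
      have : rowD (x1 tb ω j0) j0 = (ω j0).2.2 := rfl
      simp only
      rw [this]
      simp [x1]
  simpa only [ff, Prod.exists, decide_eq_true_eq] using key

/-- positions where `x0` and `x1` may differ -/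
def DiffS (ω : Idx n → RowV k n) (j0 : Idx n) (p : Pos k n w) : Prop :=
  rowOf p = j0 ∧ (kdOf p = .inl (ω j0).1 ∨ kdOf p = .inr (.inr (ω j0).2.1))

theorem x1_eq_x0 (tb : Data k n → Fin (k + 1) → Fin (n + 1) → Idx n → Fin w → Bool)
    (ω : Idx n → RowV k n) (j0 : Idx n) (p : Pos k n w) (hp : ¬ DiffS ω j0 p) :
    x1 tb ω j0 p = x0 ω p := by
  cases p with
  | bit j i =>
    simp only [x1, x0]
    split_ifs with h
    · subst h
      symm
      rw [decide_eq_true_iff]
      rintro rfl
      exact hp ⟨rfl, Or.inl rfl⟩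
    · rfl
  | dat j s i => rfl
  | ptr j l j' c =>
    simp only [x1, x0]
    rw [if_neg]
    rintro ⟨rfl, rfl⟩
    exact hp ⟨rfl, Or.inr rfl⟩
  | tr j l s t z c =>
    simp only [x1, x0]
    rw [if_neg]
    rintro ⟨rfl, rfl⟩
    exact hp ⟨rfl, Or.inr rfl⟩

open Classical in
/-- touching probability for one row, the other rows being fixed -/
theorem row_bound {θ : ℤ} {D : ℕ} {η : ℝ} (H : HardW k n θ D η) (t : DT (Pos k n w))
    (ω : Idx n → RowV k n) (j : Idx n) :
    ∑ r : RowV k n, (1 / 2 ^ n * (1 / 2 ^ n) * H.w r.2.1 r.2.2) *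
      (if touch (x0 (Function.update ω j r)) (DiffS (Function.update ω j r) j) t ∧
          cnt (x0 (Function.update ω j r)) (fun p => rowOf p = j) t ≤ D then (1 : ℝ) else 0) ≤
      D / 2 ^ n + η := by
  set gi : Idx n → DT (Fin (k + 1) × Idx n) := fun i =>
    guess rowOf kdOf j (x0 ω : Pos k n w → Bool) (.inl i) t D with hgi
  set gl : Idx n → DT (Fin (k + 1) × Idx n) := fun l =>
    guess rowOf kdOf j (x0 ω : Pos k n w → Bool) (.inr l) t D with hgl
  have hw := H.nonneg
  have hcard : ∀ F, (Finset.univ.filter fun e : Idx n ⊕ Idx n =>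
      (guess rowOf kdOf j (x0 ω : Pos k n w → Bool) e t D).eval F = true).card ≤ D :=
    fun F => guess_card rowOf kdOf j _ F t D
  have hcardi : ∀ F, (Finset.univ.filter fun i => (gi i).eval F = true).card ≤ D := by
    intro F
    refine le_trans ?_ (hcard F)
    refine Finset.card_le_card_of_injOn Sum.inl ?_ Sum.inl_injective.injOn
    intro i hi
    simpa only [Finset.coe_filter, Finset.mem_univ, true_and, Set.mem_ofPred_eq] using hi
  have hcardl : ∀ F, (Finset.univ.filter fun l => (gl l).eval F = true).card ≤ D := by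
    intro F
    refine le_trans ?_ (hcard F)
    refine Finset.card_le_card_of_injOn Sum.inr ?_ Sum.inr_injective.injOn
    intro i hi
    simpa only [Finset.coe_filter, Finset.mem_univ, true_and, Set.mem_ofPred_eq] using hi
  have hstep : ∀ r : RowV k n,
      (if touch (x0 (Function.update ω j r)) (DiffS (Function.update ω j r) j) t ∧
          cnt (x0 (Function.update ω j r)) (fun p => rowOf p = j) t ≤ D then (1 : ℝ) else 0) ≤
      (if (gi r.1).eval r.2.2 then 1 else 0) + (if (gl r.2.1).eval r.2.2 then 1 else 0) := by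
    intro r
    split_ifs with h h1 h2 h3 h4 h5
    · norm_num
    · norm_num
    · norm_num
    · exfalso
      obtain ⟨h5, h6⟩ := h
      have := guess_of_touch rowOf kdOf j (x0 ω : Pos k n w → Bool)
        (x0 (Function.update ω j r)) r.1 r.2.1 r.2.2 ?_ ?_ ?_ ?_ t D ?_ h6
      · rcases this with h7 | h7
        · exact h1 h7
        · exact h3 h7
      · intro p hp
        cases p <;> simp_all [x0, rowOf]
      · intro p i' hp hk hi
        cases p <;> simp_all [x0, rowOf, kdOf]
      · intro p v hp hk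
        cases p <;> simp_all [x0, rowOf, kdOf]
      · intro p l' hp hk
        cases p <;> simp_all [x0, rowOf, kdOf]
      · have e : DiffS (Function.update ω j r) j = (fun p : Pos k n w => rowOf p = j ∧
            (kdOf p = .inl r.1 ∨ kdOf p = .inr (.inr r.2.1))) := by
          funext p
          simp [DiffS]
        rw [e] at h5
        exact h5
    · norm_num
    · norm_num
    · norm_num
    · norm_num
  have hN : (0 : ℝ) < 2 ^ n := by positivity
  have hcardI : (Fintype.card (Idx n) : ℝ) = 2 ^ n := by simp only [Idx, Fintype.card_pi, Fintype.card_bool, Finset.prod_const, Finset.card_univ, Fintype.card_fin, Nat.cast_pow, Nat.cast_ofNat]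
  calc _ ≤ ∑ r : RowV k n, (1 / 2 ^ n * (1 / 2 ^ n) * H.w r.2.1 r.2.2) *
        ((if (gi r.1).eval r.2.2 then 1 else 0) + (if (gl r.2.1).eval r.2.2 then 1 else 0)) :=
        Finset.sum_le_sum fun r _ => mul_le_mul_of_nonneg_left (hstep r)
          (mul_nonneg (by positivity) (hw _ _))
    _ = (∑ l, ∑ F, (1 / 2 ^ n * (1 / 2 ^ n) * H.w l F) *
          ((Finset.univ.filter fun i => (gi i).eval F = true).card : ℝ)) +
        (1 / 2 ^ n) * ∑ l, ∑ F, H.w l F * (if (gl l).eval F then 1 else 0) := by
        simp only [mul_add, Finset.sum_add_distrib]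
        congr 1
        · rw [Fintype.sum_prod_type]
          simp only [Fintype.sum_prod_type]
          rw [Finset.sum_comm]
          refine Finset.sum_congr rfl fun l _ => ?_
          rw [Finset.sum_comm]
          refine Finset.sum_congr rfl fun F _ => ?_
          rw [← Finset.mul_sum, Finset.sum_boole]
        · rw [Fintype.sum_prod_type]
          trans ∑ _i : Idx n, (1 / 2 ^ n * (1 / 2 ^ n)) * ∑ l, ∑ F, H.w l F *
            (if (gl l).eval F then (1 : ℝ) else 0)
          · refine Finset.sum_congr rfl fun i _ => ?_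
            rw [Fintype.sum_prod_type]
            simp only [Finset.mul_sum]
            refine Finset.sum_congr rfl fun l _ => Finset.sum_congr rfl fun F _ => ?_
            ring
          · rw [Finset.sum_const, Finset.card_univ, nsmul_eq_mul, hcardI]
            field_simp
    _ ≤ (∑ l : Idx n, ∑ F, (1 / 2 ^ n * (1 / 2 ^ n) * H.w l F) * (D : ℝ)) +
        (1 / 2 ^ n) * (η * 2 ^ n) := by
        refine add_le_add ?_ ?_
        · refine Finset.sum_le_sum fun l _ => Finset.sum_le_sum fun F _ => ?_
          refine mul_le_mul_of_nonneg_left ?_ (mul_nonneg (by positivity) (hw _ _))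
          exact_mod_cast hcardi F
        · refine mul_le_mul_of_nonneg_left ?_ (by positivity)
          exact H.hit gl (fun l => guess_depth rowOf kdOf j _ _ t D) hcardl
    _ = D / 2 ^ n + η := by
        simp only [← Finset.sum_mul, ← Finset.mul_sum, H.sum_one]
        rw [Finset.sum_const, Finset.card_univ, nsmul_eq_mul, hcardI]
        (clear * -; field_simp)

end RC

open RC

theorem rlow {k n w : ℕ} (θ : ℤ) (D : ℕ) (η : ℝ) (H : HardW k n θ D η)
    (hw : (k + 1) * n + 2 ≤ w) (hD : 1 ≤ D) (hη : η + D / 2 ^ n ≤ 1 / 6) (T : ℕ)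
    (hT : RandComputes (ff k n w θ) T) : (2 ^ n : ℝ) * D / 6 ≤ T := by
  classical
  obtain ⟨tb, htb⟩ := exists_transcript k n w hw
  have hN : (0 : ℝ) < 2 ^ n := by positivity
  have hcardI : (Fintype.card (Idx n) : ℝ) = 2 ^ n := by simp only [Idx, Fintype.card_pi, Fintype.card_bool, Finset.prod_const, Finset.card_univ, Fintype.card_fin, Nat.cast_pow, Nat.cast_ofNat]
  set v : RowV k n → ℝ := fun r => 1 / 2 ^ n * (1 / 2 ^ n) * H.w r.2.1 r.2.2 with hv
  have hv0 : ∀ r, 0 ≤ v r := fun r => mul_nonneg (by positivity) (H.nonneg _ _)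
  have hv1 : ∑ r, v r = 1 := by
    rw [hv]
    simp only [Fintype.sum_prod_type, ← Finset.mul_sum, H.sum_one, Finset.sum_const,
      Finset.card_univ, nsmul_eq_mul, hcardI]
    field_simp
  obtain ⟨t, htT, ht⟩ := rand_avg (O := (Idx n → RowV k n) × Idx n) _ T hT
    (fun o => (∏ i, v (o.1 i)) * (1 / 2 ^ n))
    (fun o => mul_nonneg (Finset.prod_nonneg fun i _ => hv0 _) (by positivity))
    (by
      rw [Fintype.sum_prod_type]
      simp only [Finset.sum_const, Finset.card_univ, nsmul_eq_mul, hcardI]
      refine Eq.trans ?_ (prod_sum_one v hv1 (J := Idx n))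
      refine Finset.sum_congr rfl fun ω _ => ?_
      field_simp)
    (fun o => x0 o.1) (fun o => x1 tb o.1 o.2)
    (fun o _ => ff_x0 θ o.1)
    (by
      intro o ho
      refine ff_x1 θ tb htb o.1 o.2 (H.supp _ _ ?_)
      intro h0
      refine ho ?_
      have : v (o.1 o.2) = 0 := by simp only [hv, h0, mul_zero]
      rw [Finset.prod_eq_zero (Finset.mem_univ o.2) this, zero_mul])
  have hD' : (0 : ℝ) < D := by exact_mod_cast hD
  -- pointwise bound
  have hpt : ∀ (ω : Idx n → RowV k n) (j : Idx n),
      (if t.eval (x0 ω) = t.eval (x1 tb ω j) then (0 : ℝ) else 1) ≤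
        (if D < cnt (x0 ω) (fun p => rowOf p = j) t then (1 : ℝ) else 0) +
        (if touch (x0 ω) (DiffS ω j) t ∧ cnt (x0 ω) (fun p => rowOf p = j) t ≤ D then (1 : ℝ)
          else 0) := by
    intro ω j
    by_cases h1 : t.eval (x0 ω) = t.eval (x1 tb ω j)
    · rw [if_pos h1]; (clear * -; positivity)
    · rw [if_neg h1]
      have h2 : touch (x0 ω) (DiffS ω j) t := by
        by_contra hcon
        exact h1 (eval_eq_of_not_touch _ _ _ (x1_eq_x0 tb ω j) t hcon).symm
      by_cases h3 : D < cnt (x0 ω) (fun p => rowOf p = j) t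
      · rw [if_pos h3]
        have : (0 : ℝ) ≤ (if touch (x0 ω) (DiffS ω j) t ∧
          cnt (x0 ω) (fun p => rowOf p = j) t ≤ D then (1 : ℝ) else 0) := by (clear * -; positivity)
        linarith only [this]
      · rw [if_neg h3, if_pos ⟨h2, not_lt.1 h3⟩, zero_add]
  have hmain : (1 / 3 : ℝ) ≤ (1 / 2 ^ n) * (T / D) + (D / 2 ^ n + η) := by
    refine ht.trans ?_
    rw [Fintype.sum_prod_type]
    calc ∑ ω : Idx n → RowV k n, ∑ j, (∏ i, v (ω i)) * (1 / 2 ^ n) *
          (if t.eval (x0 ω) = t.eval (x1 tb ω j) then 0 else 1)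
        ≤ ∑ ω : Idx n → RowV k n, ∑ j, (∏ i, v (ω i)) * (1 / 2 ^ n) *
          ((if D < cnt (x0 ω) (fun p => rowOf p = j) t then (1 : ℝ) else 0) +
          (if touch (x0 ω) (DiffS ω j) t ∧ cnt (x0 ω) (fun p => rowOf p = j) t ≤ D then (1 : ℝ)
            else 0)) := by
          refine Finset.sum_le_sum fun ω _ => Finset.sum_le_sum fun j _ => ?_
          exact mul_le_mul_of_nonneg_left (hpt ω j)
            (mul_nonneg (Finset.prod_nonneg fun i _ => hv0 _) (by positivity))
      _ = (∑ ω : Idx n → RowV k n, (∏ i, v (ω i)) * ((1 / 2 ^ n) *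
            ∑ j, (if D < cnt (x0 ω) (fun p => rowOf p = j) t then (1 : ℝ) else 0))) +
          (1 / 2 ^ n) * ∑ j, ∑ ω : Idx n → RowV k n, (∏ i, v (ω i)) *
            (if touch (x0 ω) (DiffS ω j) t ∧ cnt (x0 ω) (fun p => rowOf p = j) t ≤ D then (1 : ℝ)
            else 0) := by
          simp only [mul_add, Finset.sum_add_distrib]
          congr 1
          · refine Finset.sum_congr rfl fun ω _ => ?_
            rw [Finset.mul_sum, Finset.mul_sum]
            refine Finset.sum_congr rfl fun j _ => ?_
            ring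
          · rw [Finset.sum_comm, Finset.mul_sum]
            refine Finset.sum_congr rfl fun j _ => ?_
            rw [Finset.mul_sum]
            refine Finset.sum_congr rfl fun ω _ => ?_
            ring
      _ ≤ (∑ ω : Idx n → RowV k n, (∏ i, v (ω i)) * ((1 / 2 ^ n) * (T / D))) +
          (1 / 2 ^ n) * ∑ j : Idx n, (D / 2 ^ n + η) := by
          refine add_le_add ?_ ?_
          · refine Finset.sum_le_sum fun ω _ => ?_
            refine mul_le_mul_of_nonneg_left ?_ (Finset.prod_nonneg fun i _ => hv0 _)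
            exact mul_le_mul_of_nonneg_left (card_heavy rowOf _ t D T hD htT) (by positivity)
          · refine mul_le_mul_of_nonneg_left ?_ (by positivity)
            refine Finset.sum_le_sum fun j _ => ?_
            rw [resample v hv1 j]
            calc ∑ ω : Idx n → RowV k n, (∏ i, v (ω i)) * ∑ b, v b *
                  (if touch (x0 (Function.update ω j b)) (DiffS (Function.update ω j b) j) t ∧
                    cnt (x0 (Function.update ω j b)) (fun p => rowOf p = j) t ≤ D then (1 : ℝ)
                    else 0)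
                ≤ ∑ ω : Idx n → RowV k n, (∏ i, v (ω i)) * (D / 2 ^ n + η) :=
                  Finset.sum_le_sum fun ω _ => mul_le_mul_of_nonneg_left
                    (row_bound H t ω j) (Finset.prod_nonneg fun i _ => hv0 _)
              _ = D / 2 ^ n + η := by
                  rw [← Finset.sum_mul, prod_sum_one v hv1, one_mul]
      _ = _ := by
          rw [← Finset.sum_mul, prod_sum_one v hv1, one_mul, Finset.sum_const, Finset.card_univ,
            nsmul_eq_mul, hcardI]
          (clear * - hD; field_simp)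
  have h2 : (1 / 6 : ℝ) ≤ (1 / 2 ^ n) * (T / D) := by linarith only [hη, hmain]
  have h3 : (1 / 2 ^ n : ℝ) * (T / D) = T / (2 ^ n * D) := by (clear * - hD; field_simp)
  rw [h3, le_div_iff₀ (by positivity)] at h2
  linarith only [h2]

end Vale.Agent.P362
end
end

section

section

/-!
# Circuits: append, inverse, lifting along an embedding of basis sets
-/

set_option linter.unusedSectionVars false

namespace Vale.Agent.P362

open Matrix

variable {ι W : Type} [Fintype W] [DecidableEq W]

/-- The matrix of one step. -/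
noncomputable def stepMat (x : ι → Bool) (s : QStep ι W) : Matrix W W ℂ :=
  QStep.rec (motive := fun _ => Matrix W W ℂ) (fun U => U.1)
    (fun q => Matrix.diagonal (fun w => phase x (q w))) s

theorem stepMat_uni (x : ι → Bool) (U : Matrix.unitaryGroup W ℂ) :
    stepMat x (QStep.uni U : QStep ι W) = U.1 := rfl

theorem stepMat_qry (x : ι → Bool) (q : W → Option ι) :
    stepMat x (QStep.qry q : QStep ι W) = Matrix.diagonal (fun w => phase x (q w)) := rfl

theorem app_eq_mulVec (x : ι → Bool) (s : QStep ι W) (ψ : W → ℂ) :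
    s.app x ψ = stepMat x s *ᵥ ψ := by
  cases s with
  | uni U => rw [QStep.app_uni, stepMat_uni]
  | qry q =>
    rw [QStep.app_qry, stepMat_qry]
    funext w
    rw [Matrix.mulVec_diagonal]

theorem phase_mul_self (x : ι → Bool) (o : Option ι) : phase x o * phase x o = 1 := by
  cases o with
  | none => simp
  | some i => by_cases h : x i <;> simp [h]

theorem star_phase (x : ι → Bool) (o : Option ι) : star (phase x o) = phase x o := by
  cases o with
  | none => simp
  | some i => by_cases h : x i <;> simp [h]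

/-- The matrix of a circuit. -/
noncomputable def circMat (x : ι → Bool) (c : List (QStep ι W)) : Matrix W W ℂ :=
  c.foldl (fun M s => stepMat x s * M) 1

theorem foldl_stepMat (x : ι → Bool) (c : List (QStep ι W)) (M : Matrix W W ℂ) :
    c.foldl (fun M s => stepMat x s * M) M = circMat x c * M := by
  induction c generalizing M with
  | nil => simp [circMat]
  | cons s c ih =>
    have h : circMat x (s :: c) = circMat x c * stepMat x s := by
      have h1 : circMat x (s :: c) =
          c.foldl (fun M s => stepMat x s * M) (stepMat x s * 1) := rfl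
      rw [h1, ih, Matrix.mul_one]
    rw [List.foldl_cons, ih, h, Matrix.mul_assoc]

theorem circMat_nil (x : ι → Bool) : circMat x ([] : List (QStep ι W)) = 1 := rfl

theorem circMat_cons (x : ι → Bool) (s : QStep ι W) (c : List (QStep ι W)) :
    circMat x (s :: c) = circMat x c * stepMat x s := by
  rw [circMat, List.foldl_cons, foldl_stepMat, Matrix.mul_one]

theorem runC_eq_mulVec (x : ι → Bool) (c : List (QStep ι W)) (ψ : W → ℂ) :
    runC x c ψ = circMat x c *ᵥ ψ := by
  induction c generalizing ψ with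
  | nil => rw [runC_nil, circMat_nil, Matrix.one_mulVec]
  | cons s c ih => rw [runC_cons, ih, app_eq_mulVec, Matrix.mulVec_mulVec, circMat_cons]

theorem runC_append (x : ι → Bool) (c d : List (QStep ι W)) (ψ : W → ℂ) :
    runC x (c ++ d) ψ = runC x d (runC x c ψ) := by
  induction c generalizing ψ with
  | nil => rw [List.nil_append, runC_nil]
  | cons s c ih => rw [List.cons_append, runC_cons, runC_cons, ih]

theorem qcost_append (c d : List (QStep ι W)) : qcost (c ++ d) = qcost c + qcost d := by
  induction c with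
  | nil => rw [List.nil_append, qcost_nil, Nat.zero_add]
  | cons s c ih => rw [List.cons_append, qcost_cons, qcost_cons, ih, Nat.add_assoc]

theorem stepMat_unitary (x : ι → Bool) (s : QStep ι W) :
    stepMat x s ∈ Matrix.unitaryGroup W ℂ := by
  cases s with
  | uni U => exact U.2
  | qry q =>
    rw [Matrix.mem_unitaryGroup_iff, stepMat_qry, Matrix.star_eq_conjTranspose,
      Matrix.diagonal_conjTranspose, Matrix.diagonal_mul_diagonal]
    rw [← Matrix.diagonal_one]
    congr 1
    funext w
    rw [Pi.star_apply, star_phase, phase_mul_self]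

theorem circMat_unitary (x : ι → Bool) (c : List (QStep ι W)) :
    circMat x c ∈ Matrix.unitaryGroup W ℂ := by
  induction c with
  | nil => rw [circMat_nil]; exact one_mem _
  | cons s c ih => rw [circMat_cons]; exact mul_mem ih (stepMat_unitary x s)

/-- The inverse of a step. -/
noncomputable def invStep (s : QStep ι W) : QStep ι W :=
  QStep.rec (motive := fun _ => QStep ι W) (fun U => .uni U⁻¹) (fun q => .qry q) s

theorem stepMat_invStep (x : ι → Bool) (s : QStep ι W) :
    stepMat x (invStep s) = star (stepMat x s) := by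
  cases s with
  | uni U => rfl
  | qry q =>
    change stepMat x (QStep.qry q) = _
    rw [stepMat_qry, Matrix.star_eq_conjTranspose, Matrix.diagonal_conjTranspose]
    congr 1
    funext w
    rw [Pi.star_apply, star_phase]

theorem cost_invStep (s : QStep ι W) : (invStep s).cost = s.cost := by
  cases s <;> rfl

/-- The inverse circuit. -/
noncomputable def invC (c : List (QStep ι W)) : List (QStep ι W) := (c.map invStep).reverse

theorem invC_nil : invC ([] : List (QStep ι W)) = [] := rfl

theorem invC_cons (s : QStep ι W) (c : List (QStep ι W)) :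
    invC (s :: c) = invC c ++ [invStep s] := by
  rw [invC, List.map_cons, List.reverse_cons, invC]

theorem qcost_invC (c : List (QStep ι W)) : qcost (invC c) = qcost c := by
  induction c with
  | nil => rfl
  | cons s c ih =>
    rw [invC_cons, qcost_append, ih, qcost_cons, qcost_nil, qcost_cons, cost_invStep]
    omega

theorem circMat_append (x : ι → Bool) (c d : List (QStep ι W)) :
    circMat x (c ++ d) = circMat x d * circMat x c := by
  induction c with
  | nil => rw [List.nil_append, circMat_nil, Matrix.mul_one]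
  | cons s c ih => rw [List.cons_append, circMat_cons, ih, circMat_cons, Matrix.mul_assoc]

theorem circMat_invC (x : ι → Bool) (c : List (QStep ι W)) :
    circMat x (invC c) = star (circMat x c) := by
  induction c with
  | nil => rw [invC_nil, circMat_nil, star_one]
  | cons s c ih =>
    rw [invC_cons, circMat_append, circMat_cons, circMat_nil, Matrix.one_mul, ih, circMat_cons,
      star_mul, stepMat_invStep]

theorem runC_norm (x : ι → Bool) (c : List (QStep ι W)) (ψ : W → ℂ) :
    ∑ w, ‖runC x c ψ w‖ ^ 2 = ∑ w, ‖ψ w‖ ^ 2 := by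
  have key : ∀ φ : W → ℂ, ((∑ w, ‖φ w‖ ^ 2 : ℝ) : ℂ) = star φ ⬝ᵥ φ := by
    intro φ
    rw [dotProduct]
    push_cast
    refine Finset.sum_congr rfl fun w _ => ?_
    rw [Pi.star_apply, Complex.star_def, Complex.conj_mul']
  have h : ((∑ w, ‖runC x c ψ w‖ ^ 2 : ℝ) : ℂ) = ((∑ w, ‖ψ w‖ ^ 2 : ℝ) : ℂ) := by
    rw [key, key, runC_eq_mulVec, Matrix.star_mulVec, ← Matrix.dotProduct_mulVec,
      Matrix.mulVec_mulVec]
    have h1 : (circMat x c)ᴴ * circMat x c = 1 := by
      rw [← Matrix.star_eq_conjTranspose]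
      exact (Matrix.mem_unitaryGroup_iff'.mp (circMat_unitary x c))
    rw [h1, Matrix.one_mulVec]
  exact_mod_cast h

/-! ### Lifting along an embedding -/

section Lift

variable {V : Type} [Fintype V] [DecidableEq V]

/-- The matrix acting as `U` on the image of `e` and as the identity elsewhere. -/
noncomputable def liftMat (e : W ↪ V) (U : Matrix W W ℂ) : Matrix V V ℂ :=
  fun a b => Function.extend e (fun w => Function.extend e (U w) 0 b)
    (fun a => if a = b then 1 else 0) a

theorem liftMat_apply (e : W ↪ V) (U : Matrix W W ℂ) (w w' : W) :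
    liftMat e U (e w) (e w') = U w w' := by
  rw [liftMat, e.injective.extend_apply, e.injective.extend_apply]

theorem liftMat_apply_not_left (e : W ↪ V) (U : Matrix W W ℂ) {a : V}
    (ha : ¬ ∃ w, e w = a) (b : V) :
    liftMat e U a b = if a = b then 1 else 0 := by
  rw [liftMat, Function.extend_apply' _ _ _ ha]

theorem liftMat_apply_not_right (e : W ↪ V) (U : Matrix W W ℂ) (w : W) {b : V}
    (hb : ¬ ∃ w, e w = b) : liftMat e U (e w) b = 0 := by
  rw [liftMat, e.injective.extend_apply, Function.extend_apply' _ _ _ hb]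
  rfl

theorem liftMat_mulVec (e : W ↪ V) (U : Matrix W W ℂ) (ψ : V → ℂ) :
    liftMat e U *ᵥ ψ = Function.extend e (U *ᵥ (ψ ∘ e)) ψ := by
  funext a
  by_cases ha : ∃ w, e w = a
  · obtain ⟨w, rfl⟩ := ha
    rw [e.injective.extend_apply]
    simp only [Matrix.mulVec, dotProduct]
    have hsub : ∑ b, liftMat e U (e w) b * ψ b =
        ∑ b ∈ Finset.univ.map e, liftMat e U (e w) b * ψ b := by
      symm
      apply Finset.sum_subset (Finset.subset_univ _)
      intro b _ hb
      have hb' : ¬ ∃ w, e w = b := by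
        rintro ⟨w', hw'⟩
        exact hb (Finset.mem_map.mpr ⟨w', Finset.mem_univ _, hw'⟩)
      rw [liftMat_apply_not_right e U w hb', zero_mul]
    rw [hsub, Finset.sum_map]
    refine Finset.sum_congr rfl fun w' _ => ?_
    rw [liftMat_apply, Function.comp_apply]
  · rw [Function.extend_apply' _ _ _ ha]
    simp only [Matrix.mulVec, dotProduct, liftMat_apply_not_left e U ha, ite_mul, one_mul,
      zero_mul, Finset.sum_ite_eq, Finset.mem_univ, if_true]

theorem liftMat_one (e : W ↪ V) : liftMat e (1 : Matrix W W ℂ) = 1 := by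
  apply Matrix.ext_of_mulVec_single
  intro b
  rw [liftMat_mulVec, Matrix.one_mulVec, Matrix.one_mulVec]
  funext a
  by_cases ha : ∃ w, e w = a
  · obtain ⟨w, rfl⟩ := ha
    rw [e.injective.extend_apply, Function.comp_apply]
  · rw [Function.extend_apply' _ _ _ ha]

theorem liftMat_mul (e : W ↪ V) (U U' : Matrix W W ℂ) :
    liftMat e (U * U') = liftMat e U * liftMat e U' := by
  apply Matrix.ext_of_mulVec_single
  intro b
  rw [← Matrix.mulVec_mulVec, liftMat_mulVec, liftMat_mulVec, liftMat_mulVec]
  have h : (Function.extend e (U' *ᵥ (Pi.single b 1 ∘ e)) (Pi.single b (1 : ℂ))) ∘ e =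
      U' *ᵥ (Pi.single b 1 ∘ e) := by
    funext w
    rw [Function.comp_apply, e.injective.extend_apply]
  rw [h, Matrix.mulVec_mulVec]
  funext a
  by_cases ha : ∃ w, e w = a
  · obtain ⟨w, rfl⟩ := ha
    rw [e.injective.extend_apply, e.injective.extend_apply]
  · rw [Function.extend_apply' _ _ _ ha, Function.extend_apply' _ _ _ ha,
      Function.extend_apply' _ _ _ ha]

theorem liftMat_star (e : W ↪ V) (U : Matrix W W ℂ) :
    liftMat e (star U) = star (liftMat e U) := by
  ext a b
  rw [Matrix.star_apply]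
  by_cases ha : ∃ w, e w = a
  · obtain ⟨w, rfl⟩ := ha
    by_cases hb : ∃ w, e w = b
    · obtain ⟨w', rfl⟩ := hb
      rw [liftMat_apply, liftMat_apply, Matrix.star_apply]
    · rw [liftMat_apply_not_right e _ w hb, liftMat_apply_not_left e U hb]
      have : b ≠ e w := fun h => hb ⟨w, h.symm⟩
      rw [if_neg this, star_zero]
  · rw [liftMat_apply_not_left e _ ha]
    by_cases hb : ∃ w, e w = b
    · obtain ⟨w', rfl⟩ := hb
      rw [liftMat_apply_not_right e U w' ha]
      have : a ≠ e w' := fun h => ha ⟨w', h.symm⟩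
      rw [if_neg this, star_zero]
    · rw [liftMat_apply_not_left e U hb]
      by_cases hab : a = b
      · subst hab; simp
      · rw [if_neg hab, if_neg (fun h => hab h.symm), star_zero]

theorem liftMat_unitary (e : W ↪ V) (U : Matrix.unitaryGroup W ℂ) :
    liftMat e U.1 ∈ Matrix.unitaryGroup V ℂ := by
  rw [Matrix.mem_unitaryGroup_iff, ← liftMat_star, ← liftMat_mul,
    Matrix.mem_unitaryGroup_iff.mp U.2, liftMat_one]

/-- Lift a step along an embedding. -/
noncomputable def liftStep (e : W ↪ V) (s : QStep ι W) : QStep ι V :=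
  QStep.rec (motive := fun _ => QStep ι V) (fun U => .uni ⟨liftMat e U.1, liftMat_unitary e U⟩)
    (fun q => .qry (Function.extend e q (fun _ => none))) s

theorem cost_liftStep (e : W ↪ V) (s : QStep ι W) : (liftStep e s).cost = s.cost := by
  cases s <;> rfl

theorem app_liftStep (e : W ↪ V) (x : ι → Bool) (s : QStep ι W) (ψ : V → ℂ) :
    (liftStep e s).app x ψ = Function.extend e (s.app x (ψ ∘ e)) ψ := by
  cases s with
  | uni U =>
    change (QStep.uni ⟨liftMat e U.1, liftMat_unitary e U⟩ : QStep ι V).app x ψ = _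
    rw [QStep.app_uni, QStep.app_uni, liftMat_mulVec]
  | qry q =>
    change (QStep.qry (Function.extend e q (fun _ => none)) : QStep ι V).app x ψ = _
    rw [QStep.app_qry, QStep.app_qry]
    funext a
    by_cases ha : ∃ w, e w = a
    · obtain ⟨w, rfl⟩ := ha
      simp only [e.injective.extend_apply, Function.comp_apply]
    · rw [Function.extend_apply' _ _ _ ha, Function.extend_apply' _ _ _ ha, phase_none, one_mul]

/-- Lift a circuit along an embedding. -/
noncomputable def liftC (e : W ↪ V) (c : List (QStep ι W)) : List (QStep ι V) :=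
  c.map (liftStep e)

theorem qcost_liftC (e : W ↪ V) (c : List (QStep ι W)) : qcost (liftC e c) = qcost c := by
  induction c with
  | nil => rfl
  | cons s c ih =>
    rw [liftC, List.map_cons, qcost_cons, qcost_cons, cost_liftStep]
    rw [liftC] at ih
    rw [ih]

theorem runC_liftC (e : W ↪ V) (x : ι → Bool) (c : List (QStep ι W)) (ψ : V → ℂ) :
    runC x (liftC e c) ψ = Function.extend e (runC x c (ψ ∘ e)) ψ := by
  induction c generalizing ψ with
  | nil =>
    rw [liftC, List.map_nil, runC_nil, runC_nil]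
    funext a
    by_cases ha : ∃ w, e w = a
    · obtain ⟨w, rfl⟩ := ha
      rw [e.injective.extend_apply, Function.comp_apply]
    · rw [Function.extend_apply' _ _ _ ha]
  | cons s c ih =>
    rw [liftC, List.map_cons, runC_cons, runC_cons]
    rw [liftC] at ih
    rw [ih, app_liftStep]
    have h : (Function.extend e (s.app x (ψ ∘ e)) ψ) ∘ e = s.app x (ψ ∘ e) := by
      funext w
      rw [Function.comp_apply, e.injective.extend_apply]
    rw [h]
    funext a
    by_cases ha : ∃ w, e w = a
    · obtain ⟨w, rfl⟩ := ha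
      rw [e.injective.extend_apply, e.injective.extend_apply]
    · rw [Function.extend_apply' _ _ _ ha, Function.extend_apply' _ _ _ ha,
        Function.extend_apply' _ _ _ ha]

/-- Extension of a state by zero. -/
noncomputable def extV (e : W ↪ V) (ψ : W → ℂ) : V → ℂ := Function.extend e ψ 0

theorem extV_apply (e : W ↪ V) (ψ : W → ℂ) (w : W) : extV e ψ (e w) = ψ w :=
  e.injective.extend_apply _ _ _

theorem extV_apply_not (e : W ↪ V) (ψ : W → ℂ) {a : V} (ha : ¬ ∃ w, e w = a) :
    extV e ψ a = 0 := by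
  rw [extV, Function.extend_apply' _ _ _ ha]
  rfl

theorem extV_comp (e : W ↪ V) (ψ : W → ℂ) : extV e ψ ∘ e = ψ := by
  funext w
  rw [Function.comp_apply, extV_apply]

theorem runC_liftC_extV (e : W ↪ V) (x : ι → Bool) (c : List (QStep ι W)) (ψ : W → ℂ) :
    runC x (liftC e c) (extV e ψ) = extV e (runC x c ψ) := by
  rw [runC_liftC, extV_comp]
  funext a
  by_cases ha : ∃ w, e w = a
  · obtain ⟨w, rfl⟩ := ha
    rw [e.injective.extend_apply, extV_apply]
  · rw [Function.extend_apply' _ _ _ ha, extV_apply_not e _ ha, extV_apply_not e _ ha]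

theorem extV_single (e : W ↪ V) (w : W) :
    extV e (Pi.single w (1 : ℂ)) = Pi.single (e w) 1 := by
  funext a
  by_cases ha : ∃ w', e w' = a
  · obtain ⟨w', rfl⟩ := ha
    rw [extV_apply]
    by_cases h : w' = w
    · subst h; simp
    · rw [Pi.single_eq_of_ne h, Pi.single_eq_of_ne (fun h' => h (e.injective h'))]
  · rw [extV_apply_not e _ ha, Pi.single_eq_of_ne (fun h => ha ⟨w, h.symm⟩)]

end Lift

end Vale.Agent.P362
end
end

section

section

/-!
# Phase oracles from decision trees

For a family of decision trees `τ w` of depth at most `d`, the diagonal sign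
`(-1)^{τ_w(x)}` is implemented exactly with `2 d` phase queries.
-/

set_option linter.unusedSectionVars false

namespace Vale.Agent.P362

open Matrix

/-- The variable at the root of a tree. -/
def DT.rootVar {ι : Type} : DT ι → Option ι
  | .leaf _ => none
  | .node i _ _ => some i

/-- The child of a tree selected by a bit. -/
def DT.child {ι : Type} : DT ι → Bool → DT ι
  | .leaf b, _ => .leaf b
  | .node _ t0 t1, b => if b then t1 else t0

theorem DT.rootVar_node {ι : Type} (i : ι) (t0 t1 : DT ι) :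
    (DT.node i t0 t1).rootVar = some i := rfl
theorem DT.child_leaf {ι : Type} (b c : Bool) : (DT.leaf b : DT ι).child c = .leaf b := rfl
theorem DT.child_node {ι : Type} (i : ι) (t0 t1 : DT ι) (c : Bool) :
    (DT.node i t0 t1).child c = if c then t1 else t0 := rfl

/-- The answer of an optional query. -/
def optVal {ι : Type} (x : ι → Bool) (o : Option ι) : Bool := o.elim false x

theorem optVal_none {ι : Type} (x : ι → Bool) : optVal x none = false := rfl
theorem optVal_some {ι : Type} (x : ι → Bool) (i : ι) : optVal x (some i) = x i := rfl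

theorem DT.depth_child_le {ι : Type} (t : DT ι) (b : Bool) (d : ℕ) (h : t.depth ≤ d + 1) :
    (t.child b).depth ≤ d := by
  cases t with
  | leaf v => rw [DT.child_leaf, DT.depth_leaf]; exact Nat.zero_le _
  | node i t0 t1 =>
    rw [DT.depth_node] at h
    rw [DT.child_node]
    cases b <;> simp <;> omega

theorem DT.eval_child {ι : Type} (t : DT ι) (x : ι → Bool) :
    (t.child (optVal x t.rootVar)).eval x = t.eval x := by
  cases t with
  | leaf v => rfl
  | node i t0 t1 =>
    rw [DT.rootVar_node, optVal_some, DT.child_node, DT.eval_node]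
    cases x i <;> simp

section Had

variable {ι W : Type} [Fintype W] [DecidableEq W]

/-- Hadamard gate on the last bit. -/
noncomputable def hadBit (W : Type) [DecidableEq W] : Matrix (W × Bool) (W × Bool) ℂ :=
  fun a b => if a.1 = b.1 then (if (a.2 && b.2) then -1 else 1) / (Real.sqrt 2 : ℂ) else 0

theorem hadBit_mulVec (ψ : W × Bool → ℂ) (w : W) (b : Bool) :
    (hadBit W *ᵥ ψ) (w, b) =
      (ψ (w, false) + (if b then -1 else 1) * ψ (w, true)) / (Real.sqrt 2 : ℂ) := by
  rw [Matrix.mulVec, dotProduct, Fintype.sum_prod_type]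
  rw [Finset.sum_eq_single w]
  · rw [Fintype.sum_bool]
    simp only [hadBit, if_true, Bool.and_true, Bool.and_false]
    cases b <;> simp <;> ring
  · intro w' _ hw'
    have : ¬ (w = w') := fun h => hw' h.symm
    simp [hadBit, this]
  · simp only [Finset.mem_univ, not_true_eq_false, Fintype.univ_bool, Finset.mem_singleton, Bool.true_eq_false, not_false_eq_true, Finset.sum_insert, Finset.sum_singleton, IsEmpty.forall_iff]

theorem sqrt_two_sq : (Real.sqrt 2 : ℂ) * (Real.sqrt 2 : ℂ) = 2 := by
  have : Real.sqrt 2 * Real.sqrt 2 = 2 := Real.mul_self_sqrt (by norm_num)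
  exact_mod_cast this

theorem sqrt_two_ne : (Real.sqrt 2 : ℂ) ≠ 0 := by
  intro h
  have := sqrt_two_sq
  rw [h] at this
  norm_num at this

theorem hadBit_mul_self : hadBit W * hadBit W = 1 := by
  apply Matrix.ext_of_mulVec_single
  intro a
  rw [← Matrix.mulVec_mulVec, Matrix.one_mulVec]
  funext c
  obtain ⟨w, b⟩ := c
  rw [hadBit_mulVec, hadBit_mulVec, hadBit_mulVec]
  have h2 := sqrt_two_ne
  field_simp
  rw [sq, sqrt_two_sq]
  cases b <;> simp <;> ring

theorem hadBit_star : star (hadBit W) = hadBit W := by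
  ext a b
  rw [Matrix.star_apply, hadBit, hadBit]
  by_cases h : a.1 = b.1
  · rw [if_pos h, if_pos h.symm]
    rw [Bool.and_comm]
    by_cases h' : (a.2 && b.2) = true
    · simp only [h', ↓reduceIte, star_div₀, star_neg, star_one, RCLike.star_def, Complex.conj_ofReal]
    · simp only [h', Bool.false_eq_true, ↓reduceIte, one_div, star_inv₀, RCLike.star_def, Complex.conj_ofReal]
  · rw [if_neg h, if_neg (fun h' => h h'.symm), star_zero]

theorem hadBit_unitary : hadBit W ∈ Matrix.unitaryGroup (W × Bool) ℂ := by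
  rw [Matrix.mem_unitaryGroup_iff, hadBit_star, hadBit_mul_self]

/-- The circuit xoring the answer of the query `qv w` into the last bit. -/
noncomputable def xorC (qv : W → Option ι) : List (QStep ι (W × Bool)) :=
  [QStep.uni ⟨hadBit W, hadBit_unitary⟩, QStep.qry (fun a => if a.2 then qv a.1 else none),
    QStep.uni ⟨hadBit W, hadBit_unitary⟩]

theorem qcost_xorC (qv : W → Option ι) : qcost (xorC qv) = 1 := by
  rw [xorC, qcost_cons, qcost_cons, qcost_cons, qcost_nil, QStep.cost_uni, QStep.cost_qry]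

theorem runC_xorC (qv : W → Option ι) (x : ι → Bool) (ψ : W × Bool → ℂ) (w : W) (b : Bool) :
    runC x (xorC qv) ψ (w, b) = ψ (w, xor b (optVal x (qv w))) := by
  rw [xorC, runC_cons, runC_cons, runC_cons, runC_nil, QStep.app_uni, QStep.app_qry,
    QStep.app_uni, hadBit_mulVec]
  dsimp only
  rw [hadBit_mulVec, hadBit_mulVec]
  have h2 := sqrt_two_ne
  have h3 : (Real.sqrt 2 : ℂ) ^ 2 = 2 := by rw [sq, sqrt_two_sq]
  cases hq : qv w with
  | none =>
    rw [optVal_none]
    simp only [Bool.false_eq_true, if_false, if_true, phase_none]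
    field_simp
    rw [h3]
    cases b <;> simp <;> ring
  | some i =>
    rw [optVal_some]
    simp only [Bool.false_eq_true, if_false, if_true, phase_none, phase_some]
    field_simp
    rw [h3]
    cases b <;> cases x i <;> simp <;> ring

end Had

theorem phase_oracle {ι : Type} (d : ℕ) : ∀ (W : Type) [Fintype W] [DecidableEq W]
    (τ : W → DT ι), (∀ w, (τ w).depth ≤ d) →
    ∃ (V : Type) (_ : Fintype V) (_ : DecidableEq V) (e : W ↪ V) (c : List (QStep ι V)),
      qcost c ≤ 2 * d ∧ ∀ (x : ι → Bool) (ψ : W → ℂ),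
        runC x c (extV e ψ) = extV e (fun w => (if (τ w).eval x then -1 else 1) * ψ w) := by
  induction d with
  | zero =>
    intro W _ _ τ hτ
    have hleaf : ∀ w (x : ι → Bool), (τ w).eval x = (τ w).eval (fun _ => false) := by
      intro w x
      have h := hτ w
      cases hw : τ w with
      | leaf b => rfl
      | node i t0 t1 =>
        rw [hw, DT.depth_node] at h
        omega
    let D : W → ℂ := fun w => if (τ w).eval (fun _ => false) then -1 else 1
    have hD : Matrix.diagonal D ∈ Matrix.unitaryGroup W ℂ := by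
      rw [Matrix.mem_unitaryGroup_iff, Matrix.star_eq_conjTranspose,
        Matrix.diagonal_conjTranspose, Matrix.diagonal_mul_diagonal, ← Matrix.diagonal_one]
      congr 1
      funext w
      simp only [D, Pi.star_apply]
      by_cases h : (τ w).eval (fun _ => false) <;> simp [h]
    refine ⟨W, inferInstance, inferInstance, Function.Embedding.refl W,
      [QStep.uni ⟨Matrix.diagonal D, hD⟩], ?_, ?_⟩
    · rw [qcost_cons, qcost_nil, QStep.cost_uni]
    · intro x ψ
      have he : ∀ φ : W → ℂ, extV (Function.Embedding.refl W) φ = φ := by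
        intro φ
        funext w
        exact extV_apply (Function.Embedding.refl W) φ w
      rw [he, he, runC_cons, runC_nil, QStep.app_uni]
      funext w
      rw [Matrix.mulVec_diagonal, hleaf w x]
  | succ d ih =>
    intro W _ _ τ hτ
    obtain ⟨V, i1, i2, e', c', hc', hrun⟩ := ih (W × Bool) (fun a => (τ a.1).child a.2)
      (fun a => DT.depth_child_le _ _ _ (hτ a.1))
    let e : W ↪ V := ⟨fun w => e' (w, false), fun w w' h => by
      have := e'.injective h
      exact congrArg Prod.fst this⟩
    let qv : W → Option ι := fun w => (τ w).rootVar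
    refine ⟨V, i1, i2, e, liftC e' (xorC qv) ++ (c' ++ liftC e' (xorC qv)), ?_, ?_⟩
    · rw [qcost_append, qcost_append, qcost_liftC, qcost_xorC]
      omega
    · intro x ψ
      have hext : ∀ φ : W → ℂ, extV e φ =
          extV e' (fun a => if a.2 then 0 else φ a.1) := by
        intro φ
        funext v
        by_cases hv : ∃ a, e' a = v
        · obtain ⟨⟨w, b⟩, rfl⟩ := hv
          rw [extV_apply]
          cases b with
          | false =>
            have : e' (w, false) = e w := rfl
            rw [this, extV_apply]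
            simp
          | true =>
            rw [extV_apply_not]
            · simp
            · rintro ⟨w', hw'⟩
              have := e'.injective hw'
              simp at this
        · rw [extV_apply_not e' _ hv, extV_apply_not]
          rintro ⟨w', hw'⟩
          exact hv ⟨(w', false), hw'⟩
      rw [hext, runC_append, runC_append, runC_liftC_extV, hrun, runC_liftC_extV, hext]
      congr 1
      funext a
      obtain ⟨w, b⟩ := a
      rw [runC_xorC]
      dsimp only
      rw [runC_xorC]
      dsimp only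
      by_cases hb : xor (xor b (optVal x (qv w))) (optVal x (qv w)) = true
      · have hb' : b = true := by
          revert hb
          cases b <;> cases optVal x (qv w) <;> simp
        subst hb'
        rw [if_pos hb]
        simp
      · have hb' : b = false := by
          revert hb
          cases b <;> cases optVal x (qv w) <;> simp
        subst hb'
        rw [if_neg hb]
        have h1 : (xor false (optVal x (qv w))) = optVal x (τ w).rootVar := by
          simp [qv]
        rw [h1, DT.eval_child]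
        simp

end Vale.Agent.P362
end
end

section

section

/-!
# Amplitude amplification: the linear algebra

For a unit vector `ψ` and a good set `g` we study the Grover iterate
`G = (2 ψψ* - 1) * S_g` (where `S_g` flips the sign of the good coordinates).
Everything here is independent of the query model.
-/

namespace Vale.Agent.P362

open Matrix Finset

section Grover

variable {K : Type*} [Fintype K] [DecidableEq K]

/-- The phase flip on the good set. -/
noncomputable def flipGood (g : K → Bool) : Matrix K K ℂ :=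
  Matrix.diagonal (fun k => if g k then (-1 : ℂ) else 1)

/-- The reflection `1 - 2 ψψ*`. -/
noncomputable def reflPsi (ψ : K → ℂ) : Matrix K K ℂ :=
  1 - (2 : ℂ) • Matrix.vecMulVec ψ (star ψ)

/-- The amplitude coefficients `(a_m, b_m)` on the good and on the bad part after `m` Grover
iterations, when the initial good mass is `p`. -/
noncomputable def ampCoeff (p : ℝ) : ℕ → ℝ × ℝ
  | 0 => (1, 1)
  | m + 1 =>
    (((ampCoeff p m).1 * (1 - 2 * p) + 2 * (ampCoeff p m).2 * (1 - p)),
      (-2 * (ampCoeff p m).1 * p + (ampCoeff p m).2 * (1 - 2 * p)))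

/-- The mass of the good part of `ψ`. -/
noncomputable def goodMass (ψ : K → ℂ) (g : K → Bool) : ℝ :=
  ∑ k, if g k then ‖ψ k‖ ^ 2 else 0

/-- One Grover step acts on the two-dimensional span of the good and bad parts. -/
theorem grover_step (ψ : K → ℂ) (g : K → Bool) (hψ : ∑ k, ‖ψ k‖ ^ 2 = 1) (a b : ℝ) :
    (reflPsi ψ * flipGood g) *ᵥ (fun k => if g k then (a : ℂ) * ψ k else (b : ℂ) * ψ k) =
      fun k => -(if g k then ((a * (1 - 2 * goodMass ψ g) + 2 * b * (1 - goodMass ψ g) : ℝ) : ℂ)
          * ψ k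
        else ((-2 * a * goodMass ψ g + b * (1 - 2 * goodMass ψ g) : ℝ) : ℂ) * ψ k) := by
  have hflip : flipGood g *ᵥ (fun k => if g k then (a : ℂ) * ψ k else (b : ℂ) * ψ k) =
      fun k => if g k then -(a : ℂ) * ψ k else (b : ℂ) * ψ k := by
    funext k
    rw [flipGood, Matrix.mulVec_diagonal]
    by_cases h : g k <;> simp [h]
  have hinner : star ψ ⬝ᵥ (fun k => if g k then -(a : ℂ) * ψ k else (b : ℂ) * ψ k) =
      ((-a * goodMass ψ g + b * (1 - goodMass ψ g) : ℝ) : ℂ) := by
    have h1 : (1 : ℝ) - goodMass ψ g = ∑ k, if g k then 0 else ‖ψ k‖ ^ 2 := by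
      rw [goodMass, ← hψ, ← Finset.sum_sub_distrib]
      refine Finset.sum_congr rfl fun k _ => ?_
      by_cases h : g k <;> simp [h]
    rw [h1, goodMass, Finset.mul_sum, Finset.mul_sum, ← Finset.sum_add_distrib]
    rw [dotProduct]
    push_cast
    refine Finset.sum_congr rfl fun k _ => ?_
    have hk : ((‖ψ k‖ ^ 2 : ℝ) : ℂ) = star (ψ k) * ψ k := by
      rw [Complex.star_def, Complex.conj_mul']
      push_cast
      rfl
    by_cases h : g k
    · simp only [h, Pi.star_apply, if_true]
      rw [hk]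
      push_cast
      ring
    · simp only [h, Pi.star_apply, if_false, Bool.false_eq_true]
      rw [hk]
      push_cast
      ring
  rw [← Matrix.mulVec_mulVec, hflip, reflPsi, Matrix.sub_mulVec, Matrix.one_mulVec,
    Matrix.smul_mulVec]
  have hvm : Matrix.vecMulVec ψ (star ψ) *ᵥ
      (fun k => if g k then -(a : ℂ) * ψ k else (b : ℂ) * ψ k) =
      fun k => ((-a * goodMass ψ g + b * (1 - goodMass ψ g) : ℝ) : ℂ) * ψ k := by
    funext k
    rw [← hinner]
    simp only [Matrix.mulVec, Matrix.vecMulVec_apply, dotProduct, Finset.sum_mul]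
    refine Finset.sum_congr rfl fun j _ => ?_
    ring
  rw [hvm]
  funext k
  simp only [Pi.sub_apply, Pi.smul_apply, smul_eq_mul]
  by_cases h : g k
  · simp only [h, if_true]
    push_cast
    ring
  · simp only [h]
    push_cast
    simp only [neg_mul]
    ring

/-- The vector after `m` Grover iterations. -/
theorem grover_pow (ψ : K → ℂ) (g : K → Bool) (hψ : ∑ k, ‖ψ k‖ ^ 2 = 1) (m : ℕ) :
    ((reflPsi ψ * flipGood g) ^ m) *ᵥ ψ =
      fun k => (-1) ^ m * (if g k then ((ampCoeff (goodMass ψ g) m).1 : ℂ) * ψ k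
        else ((ampCoeff (goodMass ψ g) m).2 : ℂ) * ψ k) := by
  induction m with
  | zero =>
    funext k
    simp only [pow_zero, one_mulVec, ampCoeff, Complex.ofReal_one, one_mul, ite_self]
  | succ m ih =>
    rw [pow_succ', ← Matrix.mulVec_mulVec, ih]
    have : (fun k => (-1 : ℂ) ^ m * (if g k then ((ampCoeff (goodMass ψ g) m).1 : ℂ) * ψ k
        else ((ampCoeff (goodMass ψ g) m).2 : ℂ) * ψ k)) =
        ((-1 : ℂ) ^ m) • (fun k => (if g k then ((ampCoeff (goodMass ψ g) m).1 : ℂ) * ψ k
        else ((ampCoeff (goodMass ψ g) m).2 : ℂ) * ψ k)) := by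
      funext k; simp only [mul_ite, Pi.smul_apply, smul_eq_mul]
    rw [this, Matrix.mulVec_smul, grover_step ψ g hψ]
    funext k
    simp only [Pi.smul_apply, smul_eq_mul, ampCoeff]
    rw [pow_succ]
    ring

end Grover

section Trig

open Real

/-- Closed form of the amplitude coefficients. -/
theorem ampCoeff_trig (θ : ℝ) (m : ℕ) :
    (ampCoeff (sin θ ^ 2) m).1 * sin θ = sin ((2 * m + 1) * θ) ∧
      (ampCoeff (sin θ ^ 2) m).2 * cos θ = cos ((2 * m + 1) * θ) := by
  induction m with
  | zero => simp [ampCoeff]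
  | succ m ih =>
    obtain ⟨h1, h2⟩ := ih
    have hc : cos θ ^ 2 = 1 - sin θ ^ 2 := by
      have := sin_sq_add_cos_sq θ
      linarith only [this]
    have e : (2 * ((m + 1 : ℕ) : ℝ) + 1) * θ = (2 * m + 1) * θ + 2 * θ := by
      push_cast
      ring
    constructor
    · rw [e, sin_add, ← h1, ← h2, sin_two_mul, cos_two_mul, ampCoeff]
      dsimp only
      rw [show (1 - sin θ ^ 2 : ℝ) = cos θ ^ 2 from hc.symm]
      have : (1 - 2 * sin θ ^ 2 : ℝ) = 2 * cos θ ^ 2 - 1 := by linarith only [hc]
      rw [this]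
      ring
    · rw [e, cos_add, ← h1, ← h2, sin_two_mul, cos_two_mul, ampCoeff]
      dsimp only
      have : (1 - 2 * sin θ ^ 2 : ℝ) = 2 * cos θ ^ 2 - 1 := by linarith only [hc]
      rw [this]
      ring

end Trig

end Vale.Agent.P362
end
end

section

section

/-!
# The circuit for `m` Grover iterations
-/

set_option linter.unusedSectionVars false

namespace Vale.Agent.P362

open Matrix

variable {ι W : Type} [Fintype W] [DecidableEq W]

theorem reflPsi_mulVec (φ ψ : W → ℂ) :
    reflPsi φ *ᵥ ψ = fun w => ψ w - 2 * (star φ ⬝ᵥ ψ) * φ w := by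
  rw [reflPsi, Matrix.sub_mulVec, Matrix.one_mulVec, Matrix.smul_mulVec]
  funext w
  simp only [Pi.sub_apply, Pi.smul_apply, smul_eq_mul, Matrix.mulVec, Matrix.vecMulVec_apply,
    dotProduct]
  congr 1
  rw [Finset.mul_sum, Finset.mul_sum, Finset.sum_mul]
  refine Finset.sum_congr rfl fun j _ => ?_
  ring

theorem star_dot_self (φ : W → ℂ) : star φ ⬝ᵥ φ = ((∑ w, ‖φ w‖ ^ 2 : ℝ) : ℂ) := by
  rw [dotProduct]
  push_cast
  refine Finset.sum_congr rfl fun w _ => ?_
  rw [Pi.star_apply, Complex.star_def, Complex.conj_mul']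

theorem reflPsi_star (φ : W → ℂ) : star (reflPsi φ) = reflPsi φ := by
  ext a b
  rw [Matrix.star_apply, reflPsi, Matrix.sub_apply, Matrix.sub_apply, Matrix.smul_apply,
    Matrix.smul_apply, Matrix.vecMulVec_apply, Matrix.vecMulVec_apply, star_sub, smul_eq_mul,
    smul_eq_mul, star_mul', star_mul', Pi.star_apply, Pi.star_apply, star_star]
  congr 1
  · by_cases h : a = b
    · subst h; simp
    · rw [Matrix.one_apply_ne h, Matrix.one_apply_ne (fun h' => h h'.symm), star_zero]
  · have : star (2 : ℂ) = 2 := by simp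
    rw [this]
    ring

theorem reflPsi_unitary (φ : W → ℂ) (hφ : ∑ w, ‖φ w‖ ^ 2 = 1) :
    reflPsi φ ∈ Matrix.unitaryGroup W ℂ := by
  rw [Matrix.mem_unitaryGroup_iff, reflPsi_star]
  apply Matrix.ext_of_mulVec_single
  intro a
  rw [← Matrix.mulVec_mulVec, Matrix.one_mulVec]
  rw [reflPsi_mulVec φ (Pi.single a 1), reflPsi_mulVec]
  funext w
  have h : star φ ⬝ᵥ (fun w => (Pi.single a (1 : ℂ) : W → ℂ) w -
      2 * (star φ ⬝ᵥ (Pi.single a 1 : W → ℂ)) * φ w) =
      -(star φ ⬝ᵥ (Pi.single a 1 : W → ℂ)) := by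
    have h1 : (fun w => (Pi.single a (1 : ℂ) : W → ℂ) w -
      2 * (star φ ⬝ᵥ (Pi.single a 1 : W → ℂ)) * φ w) = (Pi.single a (1 : ℂ) : W → ℂ) -
      (2 * (star φ ⬝ᵥ (Pi.single a 1 : W → ℂ))) • φ := by
      funext w
      simp only [dotProduct_single, Pi.star_apply, RCLike.star_def, mul_one, Pi.sub_apply, Pi.smul_apply, smul_eq_mul]
    rw [h1, dotProduct_sub, dotProduct_smul, star_dot_self, hφ]
    simp only [dotProduct_single, Pi.star_apply, RCLike.star_def, mul_one, Complex.ofReal_one, smul_eq_mul]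
    ring
  rw [h]
  ring

/-- The reflection about the initial basis state, as a circuit step. -/
noncomputable def refl0 (w0 : W) : Matrix.unitaryGroup W ℂ :=
  ⟨reflPsi (Pi.single w0 1), reflPsi_unitary _ (by
    rw [Finset.sum_eq_single w0]
    · simp
    · intro b _ hb
      rw [Pi.single_eq_of_ne hb]
      simp
    · simp)⟩

/-- The circuit of the reflection about the state prepared by `c` from `w0`. -/
noncomputable def reflC (c : List (QStep ι W)) (w0 : W) : List (QStep ι W) :=
  invC c ++ (QStep.uni (refl0 w0) :: c)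

theorem qcost_reflC (c : List (QStep ι W)) (w0 : W) : qcost (reflC c w0) = 2 * qcost c := by
  rw [reflC, qcost_append, qcost_cons, qcost_invC, QStep.cost_uni]
  omega

theorem runC_reflC (c : List (QStep ι W)) (w0 : W) (x : ι → Bool) (ψ : W → ℂ) :
    runC x (reflC c w0) ψ = reflPsi (runC x c (Pi.single w0 1)) *ᵥ ψ := by
  rw [reflC, runC_append, runC_cons, QStep.app_uni]
  have h0 : (refl0 w0 : Matrix.unitaryGroup W ℂ).1 = reflPsi (Pi.single w0 1) := rfl
  rw [h0, reflPsi_mulVec, reflPsi_mulVec]
  set φ := runC x (invC c) ψ with hφ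
  have hinner : star (Pi.single w0 (1 : ℂ) : W → ℂ) ⬝ᵥ φ =
      star (runC x c (Pi.single w0 1)) ⬝ᵥ ψ := by
    rw [hφ, runC_eq_mulVec, circMat_invC, runC_eq_mulVec, Matrix.star_eq_conjTranspose,
      Matrix.star_mulVec, ← Matrix.dotProduct_mulVec]
  have h1 : (fun w => φ w - 2 * (star (Pi.single w0 (1 : ℂ) : W → ℂ) ⬝ᵥ φ) *
      (Pi.single w0 (1 : ℂ) : W → ℂ) w) =
      φ - (2 * (star (runC x c (Pi.single w0 1)) ⬝ᵥ ψ)) • (Pi.single w0 (1 : ℂ) : W → ℂ) := by
    funext w
    rw [hinner]
    simp only [Pi.sub_apply, Pi.smul_apply, smul_eq_mul]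
  have h2 : circMat x c *ᵥ φ = ψ := by
    rw [hφ, runC_eq_mulVec, circMat_invC, Matrix.mulVec_mulVec,
      Matrix.mem_unitaryGroup_iff.mp (circMat_unitary x c), Matrix.one_mulVec]
  rw [h1, runC_eq_mulVec, Matrix.mulVec_sub, Matrix.mulVec_smul, h2, ← runC_eq_mulVec]
  funext w
  simp only [Pi.sub_apply, Pi.smul_apply, smul_eq_mul]

/-- `m` copies of a circuit in a row. -/
noncomputable def repC (c : List (QStep ι W)) (m : ℕ) : List (QStep ι W) :=
  (List.replicate m c).flatten

theorem repC_zero (c : List (QStep ι W)) : repC c 0 = [] := rfl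

theorem repC_succ (c : List (QStep ι W)) (m : ℕ) : repC c (m + 1) = c ++ repC c m := by
  rw [repC, List.replicate_succ, List.flatten_cons, repC]

theorem qcost_repC (c : List (QStep ι W)) (m : ℕ) : qcost (repC c m) = m * qcost c := by
  induction m with
  | zero => rw [repC_zero, qcost_nil, Nat.zero_mul]
  | succ m ih =>
    rw [repC_succ, qcost_append, ih]
    ring

/-- The Grover circuit: `m` iterations starting from the prepared state; the outcome law. -/
theorem grover_ach {S d : ℕ} {Ψ : (ι → Bool) → W → ℂ} (hΨ : Prep S Ψ) (τ : W → DT ι)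
    (hτ : ∀ w, (τ w).depth ≤ d) (m : ℕ) :
    Ach (S + m * (2 * S + 2 * d)) (fun x (w : W) =>
      ‖(((reflPsi (Ψ x) * flipGood (fun w => (τ w).eval x)) ^ m) *ᵥ Ψ x) w‖ ^ 2) := by
  obtain ⟨c, w0, hc, hrun⟩ := hΨ
  obtain ⟨V, i1, i2, e, cp, hcp, hrunp⟩ := phase_oracle d W τ hτ
  have hne : Nonempty W := ⟨w0⟩
  let it : List (QStep ι V) := cp ++ liftC e (reflC c w0)
  have hit : ∀ (x : ι → Bool) (ψ : W → ℂ), runC x it (extV e ψ) =
      extV e ((reflPsi (Ψ x) * flipGood (fun w => (τ w).eval x)) *ᵥ ψ) := by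
    intro x ψ
    rw [runC_append, hrunp, runC_liftC_extV, runC_reflC, hrun, ← Matrix.mulVec_mulVec]
    congr 2
    funext w
    rw [flipGood, Matrix.mulVec_diagonal]
  have hrep : ∀ (k : ℕ) (x : ι → Bool) (ψ : W → ℂ), runC x (repC it k) (extV e ψ) =
      extV e (((reflPsi (Ψ x) * flipGood (fun w => (τ w).eval x)) ^ k) *ᵥ ψ) := by
    intro k x
    induction k with
    | zero => intro ψ; rw [repC_zero, runC_nil, pow_zero, Matrix.one_mulVec]
    | succ k ih =>
      intro ψ
      rw [repC_succ, runC_append, hit, ih, Matrix.mulVec_mulVec, ← pow_succ]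
  refine ⟨V, i1, i2, liftC e c ++ repC it m, e w0, Function.invFun e, ?_, ?_⟩
  · rw [qcost_append, qcost_liftC, qcost_repC, qcost_append, qcost_liftC, qcost_reflC]
    have : m * (qcost cp + 2 * qcost c) ≤ m * (2 * S + 2 * d) :=
      Nat.mul_le_mul_left _ (by omega)
    omega
  · intro x w
    rw [runC_append, ← extV_single, runC_liftC_extV, hrun, hrep]
    symm
    rw [Finset.sum_eq_single (e w)]
    · rw [Function.leftInverse_invFun e.injective, if_pos rfl, extV_apply]
    · intro v _ hv
      by_cases hv' : ∃ w', e w' = v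
      · obtain ⟨w', rfl⟩ := hv'
        rw [Function.leftInverse_invFun e.injective]
        rw [if_neg (fun h => hv (by rw [h]))]
      · rw [extV_apply_not _ _ hv']
        simp
    · intro h
      exact absurd (Finset.mem_univ _) h

end Vale.Agent.P362
end
end

section

section

/-!
# The amplitude amplification sampler
-/

set_option linter.unusedSectionVars false

namespace Vale.Agent.P362

open Matrix

namespace AmpAux

variable {ι : Type}

/-- Reading one bit. -/
theorem ach_read (i : ι) : Ach 1 (fun (x : ι → Bool) (b : Bool) => if x i = b then (1 : ℝ) else 0) := by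
  refine ⟨Unit × Bool, inferInstance, inferInstance, xorC (fun _ => some i), ((), false),
    Prod.snd, (qcost_xorC _).le, ?_⟩
  intro x b
  rw [Fintype.sum_prod_type]
  simp only [Finset.univ_unique, Finset.sum_singleton, Fintype.sum_bool, runC_xorC, optVal_some]
  cases b <;> cases h : x i <;> simp

/-- Evaluating a decision tree and post-processing the answer. -/
theorem ach_dt {Ω : Type} [DecidableEq Ω] (t : DT ι) (g : Bool → Ω) :
    Ach t.depth (fun (x : ι → Bool) (o : Ω) => if g (t.eval x) = o then (1 : ℝ) else 0) := by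
  induction t with
  | leaf b =>
    rw [DT.depth_leaf]
    exact (Ach.pure (ι := ι) (g b)).congr rfl (fun x o => rfl)
  | node i t0 t1 ih0 ih1 =>
    rw [DT.depth_node]
    have h : ∀ b : Bool, Ach (max t0.depth t1.depth) (fun (x : ι → Bool) (o : Ω) =>
        if g ((if b then t1 else t0).eval x) = o then (1 : ℝ) else 0) := by
      intro b
      cases b with
      | false => exact (ih0.mono (le_max_left _ _)).congr rfl (fun x o => by simp)
      | true => exact (ih1.mono (le_max_right _ _)).congr rfl (fun x o => by simp)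
    refine ((ach_read i).bind h).congr (by omega) ?_
    intro x o
    rw [Fintype.sum_bool, DT.eval_node]
    cases x i <;> simp

/-- Samplers for the conditional law of `|Ψ|²` on the good set, with a bound on the
failure probability. -/
def Smp {W : Type} [Fintype W] [DecidableEq W] (T : ℕ) (Ψ : (ι → Bool) → W → ℂ)
    (τ : W → DT ι) (bd : (ι → Bool) → ℝ) : Prop :=
  ∃ μ : (ι → Bool) → Option W → ℝ, Ach T μ ∧ ∀ x,
    (∃ c : ℝ, 0 ≤ c ∧ ∀ w, μ x (some w) = if (τ w).eval x then c * ‖Ψ x w‖ ^ 2 else 0) ∧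
    μ x none ≤ bd x

variable {W : Type} [Fintype W] [DecidableEq W]

theorem Smp.bd_nonneg {T : ℕ} {Ψ : (ι → Bool) → W → ℂ} {τ : W → DT ι} {bd : (ι → Bool) → ℝ}
    (h : Smp T Ψ τ bd) (x : ι → Bool) : 0 ≤ bd x := by
  obtain ⟨μ, hμ, hs⟩ := h
  exact (hμ.nonneg x none).trans (hs x).2

theorem Smp.mono {S T : ℕ} {Ψ : (ι → Bool) → W → ℂ} {τ : W → DT ι} {bd bd' : (ι → Bool) → ℝ}
    (h : Smp S Ψ τ bd) (hST : S ≤ T) (hbd : ∀ x, bd x ≤ bd' x) : Smp T Ψ τ bd' := by
  obtain ⟨μ, hμ, hs⟩ := h
  exact ⟨μ, hμ.mono hST, fun x => ⟨(hs x).1, (hs x).2.trans (hbd x)⟩⟩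

/-- The trivial sampler which always fails. -/
theorem Smp.fail (Ψ : (ι → Bool) → W → ℂ) (τ : W → DT ι) :
    Smp 0 Ψ τ (fun _ => 1) := by
  refine ⟨_, Ach.pure (none : Option W), fun x => ⟨⟨0, le_rfl, fun w => ?_⟩, ?_⟩⟩
  · simp
  · simp

/-- First success of two samplers. -/
theorem Smp.orElse {S T : ℕ} {Ψ : (ι → Bool) → W → ℂ} {τ : W → DT ι}
    {bd bd' : (ι → Bool) → ℝ} (h : Smp S Ψ τ bd) (h' : Smp T Ψ τ bd') :
    Smp (S + T) Ψ τ (fun x => bd x * bd' x) := by
  have hbd := h.bd_nonneg
  obtain ⟨μ, hμ, hs⟩ := h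
  obtain ⟨μ', hμ', hs'⟩ := h'
  let ν : Option W → (ι → Bool) → Option W → ℝ := fun o =>
    match o with
    | some w => fun _ o' => if some w = o' then 1 else 0
    | none => μ'
  have hν : ∀ o, Ach T (ν o) := by
    intro o
    cases o with
    | none => exact hμ'
    | some w => exact (Ach.pure (ι := ι) (some w)).mono (Nat.zero_le _)
  refine ⟨_, hμ.bind hν, fun x => ?_⟩
  obtain ⟨⟨c, hc, hw⟩, hn⟩ := hs x
  obtain ⟨⟨c', hc', hw'⟩, hn'⟩ := hs' x
  have hnone : 0 ≤ μ x none := hμ.nonneg x none
  have hnone' : 0 ≤ μ' x none := hμ'.nonneg x none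
  refine ⟨⟨c + μ x none * c', by (clear * - hc hnone hc'; positivity), fun w => ?_⟩, ?_⟩
  · rw [Fintype.sum_option]
    have h1 : ∀ v : W, μ x (some v) * ν (some v) x (some w) =
        if v = w then μ x (some w) else 0 := by
      intro v
      by_cases hv : v = w
      · subst hv
        simp [ν]
      · have : ¬ (some v = some w) := fun h => hv (Option.some.inj h)
        simp [ν, hv]
    simp only [h1, Finset.sum_ite_eq', Finset.mem_univ, if_true]
    change μ x none * μ' x (some w) + μ x (some w) = _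
    rw [hw w, hw' w]
    by_cases hg : (τ w).eval x
    · simp only [hg, if_true]
      ring
    · simp [hg]
  · dsimp only
    rw [Fintype.sum_option]
    have h1 : ∀ v : W, μ x (some v) * ν (some v) x none = 0 := by
      intro v
      simp [ν]
    simp only [h1, Finset.sum_const_zero, add_zero]
    change μ x none * μ' x none ≤ _
    exact mul_le_mul hn hn' hnone' (hbd x)

/-- Sequences of samplers. -/
theorem Smp.seq {Ψ : (ι → Bool) → W → ℂ} {τ : W → DT ι} (T : ℕ → ℕ)
    (bd : ℕ → (ι → Bool) → ℝ) (h : ∀ j, Smp (T j) Ψ τ (bd j)) (n : ℕ) :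
    Smp (∑ j ∈ Finset.range n, T j) Ψ τ (fun x => ∏ j ∈ Finset.range n, bd j x) := by
  induction n with
  | zero => simpa using Smp.fail Ψ τ
  | succ n ih =>
    simp only [Finset.sum_range_succ, Finset.prod_range_succ]
    exact ih.orElse (h n)

/-- One run: `m` Grover iterations, measurement, and reading of the predicate. -/
theorem Smp.grover {S d : ℕ} {Ψ : (ι → Bool) → W → ℂ} (hΨ : Prep S Ψ) (τ : W → DT ι)
    (hτ : ∀ w, (τ w).depth ≤ d) (hnorm : ∀ x, ∑ w, ‖Ψ x w‖ ^ 2 = 1) (m : ℕ) :
    Smp ((2 * m + 1) * (S + d)) Ψ τ (fun x =>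
      1 - (ampCoeff (goodMass (Ψ x) (fun w => (τ w).eval x)) m).1 ^ 2 *
        goodMass (Ψ x) (fun w => (τ w).eval x)) := by
  have hA := grover_ach hΨ τ hτ m
  have hν : ∀ w : W, Ach d (fun (x : ι → Bool) (o : Option W) =>
      if (if (τ w).eval x then some w else none) = o then (1 : ℝ) else 0) := by
    intro w
    exact ((ach_dt (τ w) (fun b => if b then some w else none)).mono (hτ w)).congr rfl
      (fun x o => rfl)
  have hB := (hA.bind hν).congr (show S + m * (2 * S + 2 * d) + d = (2 * m + 1) * (S + d) by ring)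
    (fun x o => rfl)
  have hsome : ∀ (x : ι → Bool) (w : W),
      (∑ a, ‖(((reflPsi (Ψ x) * flipGood (fun w => (τ w).eval x)) ^ m) *ᵥ Ψ x) a‖ ^ 2 *
        (if (if (τ a).eval x then some a else none) = some w then (1 : ℝ) else 0)) =
      if (τ w).eval x then
        (ampCoeff (goodMass (Ψ x) (fun w => (τ w).eval x)) m).1 ^ 2 * ‖Ψ x w‖ ^ 2 else 0 := by
    intro x w
    rw [Finset.sum_eq_single w]
    · rw [grover_pow (Ψ x) (fun w => (τ w).eval x) (hnorm x) m]
      by_cases hg : (τ w).eval x
      · simp only [hg, if_true, mul_one]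
        rw [norm_mul, norm_mul, norm_pow, norm_neg, norm_one, one_pow, one_mul, mul_pow,
          Complex.norm_real, Real.norm_eq_abs, sq_abs]
      · simp [hg]
    · intro v _ hv
      by_cases hg : (τ v).eval x
      · have : ¬ (some v = some w) := fun h => hv (Option.some.inj h)
        simp [hg, hv]
      · simp [hg]
    · intro h
      exact absurd (Finset.mem_univ _) h
  refine ⟨_, hB, fun x => ⟨⟨(ampCoeff (goodMass (Ψ x) (fun w => (τ w).eval x)) m).1 ^ 2,
    sq_nonneg _, fun w => hsome x w⟩, ?_⟩⟩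
  have hsum := hB.sum_eq_one x
  rw [Fintype.sum_option] at hsum
  have h2 : ∑ w : W, (∑ a, ‖(((reflPsi (Ψ x) * flipGood (fun w => (τ w).eval x)) ^ m) *ᵥ
        Ψ x) a‖ ^ 2 * (if (if (τ a).eval x then some a else none) = some w then (1 : ℝ) else 0)) =
      (ampCoeff (goodMass (Ψ x) (fun w => (τ w).eval x)) m).1 ^ 2 *
        goodMass (Ψ x) (fun w => (τ w).eval x) := by
    rw [goodMass, Finset.mul_sum]
    refine Finset.sum_congr rfl fun w _ => ?_
    rw [hsome x w]
    by_cases hg : (τ w).eval x <;> simp [hg, goodMass]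
  rw [h2] at hsum
  linarith only [hsum]

/-- Some level of the tripling sequence succeeds with probability at least `1/4`. -/
theorem exists_level {p : ℝ} (hp1 : p ≤ 1) (J : ℕ) (hJ : 1 ≤ (3 : ℝ) ^ J * Real.sqrt p) :
    ∃ j ≤ J, 1 / 4 ≤ (ampCoeff p ((3 ^ j - 1) / 2)).1 ^ 2 * p := by
  have hsqpos : 0 < Real.sqrt p := by
    by_contra h
    have : Real.sqrt p = 0 := le_antisymm (not_lt.mp h) (Real.sqrt_nonneg p)
    rw [this, mul_zero] at hJ
    linarith
  have hppos : 0 < p := Real.sqrt_pos.mp hsqpos
  have hsq1 : Real.sqrt p ≤ 1 := by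
    rw [Real.sqrt_le_one]
    exact hp1
  set θ := Real.arcsin (Real.sqrt p) with hθ
  have hs : Real.sin θ = Real.sqrt p := Real.sin_arcsin (by linarith only [hsqpos]) hsq1
  have hs2 : Real.sin θ ^ 2 = p := by rw [hs, Real.sq_sqrt hppos.le]
  have hθpos : 0 < θ := Real.arcsin_pos.mpr hsqpos
  have hθle : θ ≤ Real.pi / 2 := Real.arcsin_le_pi_div_two _
  have hθge : Real.sqrt p ≤ θ := by
    rw [← hs]
    exact Real.sin_le hθpos.le
  have hpi : Real.pi / 6 < 1 := by
    have := Real.pi_lt_d2
    linarith only [this]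
  have hex : ∃ j, Real.pi / 6 ≤ (3 : ℝ) ^ j * θ := by
    refine ⟨J, ?_⟩
    have : 1 ≤ (3 : ℝ) ^ J * θ := hJ.trans (mul_le_mul_of_nonneg_left hθge (by positivity))
    linarith only [hpi, this]
  classical
  have hfind := Nat.find_spec hex
  set j := Nat.find hex with hj
  refine ⟨j, ?_, ?_⟩
  · apply Nat.find_min'
    have : 1 ≤ (3 : ℝ) ^ J * θ := hJ.trans (mul_le_mul_of_nonneg_left hθge (by positivity))
    linarith only [hpi, this]
  · have hup : (3 : ℝ) ^ j * θ ≤ Real.pi / 2 := by
      rcases Nat.eq_zero_or_pos j with h0 | h0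
      · rw [h0, pow_zero, one_mul]
        exact hθle
      · have hlt := Nat.find_min hex (m := j - 1) (by omega)
        push Not at hlt
        have hjj : j = (j - 1) + 1 := by omega
        rw [hjj, pow_succ]
        nlinarith only [hlt]
    have hodd : (2 * (((3 ^ j - 1) / 2 : ℕ) : ℝ) + 1) = (3 : ℝ) ^ j := by
      have h1 : 2 * ((3 ^ j - 1) / 2) + 1 = 3 ^ j := by
        have h3 : Odd (3 ^ j) := Odd.pow (by decide)
        obtain ⟨k, hk⟩ := h3
        (clear * - hex hk; omega)
      have h2 : ((2 * ((3 ^ j - 1) / 2) + 1 : ℕ) : ℝ) = ((3 ^ j : ℕ) : ℝ) := by rw [h1]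
      push_cast at h2
      linarith only [h2]
    have h1 := (ampCoeff_trig θ ((3 ^ j - 1) / 2)).1
    rw [hs2, hodd] at h1
    have h2 : (ampCoeff p ((3 ^ j - 1) / 2)).1 ^ 2 * p = Real.sin ((3 : ℝ) ^ j * θ) ^ 2 := by
      rw [← h1, mul_pow, hs2]
    rw [h2]
    have h3 : 1 / 2 ≤ Real.sin ((3 : ℝ) ^ j * θ) := by
      rw [← Real.sin_pi_div_six]
      apply Real.sin_le_sin_of_le_of_le_pi_div_two _ hup hfind
      have := Real.pi_pos
      linarith only [hθpos, hθle]
    nlinarith only [h3]

end AmpAux

open AmpAux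

theorem goodMass_le_one {W : Type} [Fintype W] (ψ : W → ℂ) (g : W → Bool)
    (h : ∑ w, ‖ψ w‖ ^ 2 = 1) : goodMass ψ g ≤ 1 := by
  rw [← h, goodMass]
  refine Finset.sum_le_sum fun w _ => ?_
  by_cases hg : g w <;> simp [hg]

theorem prep_norm {ι W : Type} [Fintype W] [DecidableEq W] {T : ℕ} {Ψ : (ι → Bool) → W → ℂ}
    (h : Prep T Ψ) (x : ι → Bool) : ∑ w, ‖Ψ x w‖ ^ 2 = 1 := by
  obtain ⟨c, w0, -, hrun⟩ := h
  rw [← hrun x, runC_norm, Finset.sum_eq_single w0]
  · simp
  · intro b _ hb
    rw [Pi.single_eq_of_ne hb]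
    simp
  · simp only [Finset.mem_univ, not_true_eq_false, Pi.single_eq_same, norm_one, one_pow, one_ne_zero, imp_self]

/-- The amplitude amplification sampler. -/
theorem aa_sampler : ∃ K : ℕ, ∀ (ι W : Type) [Fintype W] [DecidableEq W] (T D M m : ℕ)
    (Ψ : (ι → Bool) → W → ℂ) (_ : Prep T Ψ) (g : W → DT ι) (_ : ∀ w, (g w).depth ≤ D)
    (_ : 1 ≤ M), ∃ μ : (ι → Bool) → Option W → ℝ, Ach (m * (K * M * (T + D + 1))) μ ∧
      ∀ x, (∀ w, (g w).eval x = false → μ x (some w) = 0) ∧
        (∃ c : ℝ, 0 ≤ c ∧ ∀ w, (g w).eval x = true → μ x (some w) = c * ‖Ψ x w‖ ^ 2) ∧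
        (1 ≤ (M : ℝ) ^ 2 * (∑ w, if (g w).eval x then ‖Ψ x w‖ ^ 2 else 0) →
          μ x none ≤ (7 / 8) ^ m) := by
  refine ⟨9, ?_⟩
  intro ι W _ _ T D M m Ψ hΨ g hg hM
  have hnorm := prep_norm hΨ
  -- the number of levels
  set J := Nat.clog 3 M with hJ
  have hJ1 : M ≤ 3 ^ J := Nat.le_pow_clog (by norm_num) M
  have hJ2 : 3 ^ J ≤ 3 * M := by
    rcases Nat.lt_or_ge 1 M with h | h
    · have h1 := Nat.pow_pred_clog_lt_self (b := 3) (by norm_num) h
      have h2 : 0 < Nat.clog 3 M := Nat.clog_pos (by norm_num) h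
      have h3 : J = (J - 1) + 1 := by omega
      have h4 : 3 ^ (J - 1) < M := h1
      rw [h3, pow_succ]
      omega
    · have : M = 1 := by omega
      rw [hJ, this]
      simp
  let P : (ι → Bool) → ℝ := fun x => goodMass (Ψ x) (fun w => (g w).eval x)
  have hseq := Smp.seq (Ψ := Ψ) (τ := g) (fun j => (2 * ((3 ^ j - 1) / 2) + 1) * (T + D))
    (fun j x => 1 - (ampCoeff (P x) ((3 ^ j - 1) / 2)).1 ^ 2 * P x)
    (fun j => Smp.grover hΨ g hg hnorm _) (J + 1)
  have hcost : ∑ j ∈ Finset.range (J + 1), (2 * ((3 ^ j - 1) / 2) + 1) * (T + D) ≤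
      9 * M * (T + D + 1) := by
    rw [← Finset.sum_mul]
    have h1 : ∀ n : ℕ, ∑ j ∈ Finset.range n, (2 * ((3 ^ j - 1) / 2) + 1) ≤ 3 ^ n := by
      intro n
      induction n with
      | zero => simp only [Finset.range_zero, Finset.sum_empty, pow_zero, zero_le]
      | succ n ih =>
        rw [Finset.sum_range_succ, pow_succ]
        have : 2 * ((3 ^ n - 1) / 2) + 1 ≤ 3 ^ n := by
          have : 0 < 3 ^ n := by positivity
          omega
        omega
    have h2 := h1 (J + 1)
    have h3 : 3 ^ (J + 1) ≤ 9 * M := by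
      rw [pow_succ]
      omega
    exact Nat.mul_le_mul (h2.trans h3) (Nat.le_succ _)
  have hlev := hseq.mono hcost (fun x => le_rfl)
  have hall := Smp.seq (Ψ := Ψ) (τ := g) (fun _ => 9 * M * (T + D + 1)) _ (fun _ => hlev) m
  rw [Finset.sum_const, Finset.card_range, smul_eq_mul] at hall
  obtain ⟨μ, hμ, hs⟩ := hall
  refine ⟨μ, hμ, fun x => ?_⟩
  obtain ⟨⟨c, hc, hw⟩, hn⟩ := hs x
  refine ⟨fun w hgw => ?_, ⟨c, hc, fun w hgw => ?_⟩, fun hmass => hn.trans ?_⟩
  · rw [hw w, hgw]
    simp
  · rw [hw w, hgw]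
    simp
  · dsimp only
    rw [Finset.prod_const, Finset.card_range]
    have hPx1 : P x ≤ 1 := goodMass_le_one _ _ (hnorm x)
    have hPx0 : 0 ≤ P x := by
      refine Finset.sum_nonneg fun w _ => ?_
      split_ifs <;> positivity
    have hmass' : 1 ≤ (M : ℝ) ^ 2 * P x := hmass
    have hMp : 1 ≤ (M : ℝ) * Real.sqrt (P x) := by
      have h1 : 1 ≤ ((M : ℝ) * Real.sqrt (P x)) ^ 2 := by
        rw [mul_pow, Real.sq_sqrt hPx0]
        exact hmass'
      have h0 : 0 ≤ (M : ℝ) * Real.sqrt (P x) := by (clear * - hM; positivity)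
      by_contra hlt
      push Not at hlt
      nlinarith only [h1, hlt, h0]
    have hJp : 1 ≤ (3 : ℝ) ^ J * Real.sqrt (P x) := by
      refine hMp.trans (mul_le_mul_of_nonneg_right ?_ (Real.sqrt_nonneg _))
      exact_mod_cast hJ1
    obtain ⟨j, hjJ, hj⟩ := exists_level hPx1 J hJp
    -- each factor lies in [0,1]
    have hfac0 : ∀ i, 0 ≤ 1 - (ampCoeff (P x) ((3 ^ i - 1) / 2)).1 ^ 2 * P x := fun i =>
      (Smp.grover hΨ g hg hnorm ((3 ^ i - 1) / 2)).bd_nonneg x
    have hfac1 : ∀ i, 1 - (ampCoeff (P x) ((3 ^ i - 1) / 2)).1 ^ 2 * P x ≤ 1 := fun i => by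
      have := mul_nonneg (sq_nonneg (ampCoeff (P x) ((3 ^ i - 1) / 2)).1) hPx0
      linarith only [this]
    have hprod : ∏ i ∈ Finset.range (J + 1),
        (1 - (ampCoeff (P x) ((3 ^ i - 1) / 2)).1 ^ 2 * P x) ≤ 7 / 8 := by
      have hmem : j ∈ Finset.range (J + 1) := Finset.mem_range.mpr (by omega)
      rw [← Finset.mul_prod_erase _ _ hmem]
      have h1 : ∏ i ∈ (Finset.range (J + 1)).erase j,
          (1 - (ampCoeff (P x) ((3 ^ i - 1) / 2)).1 ^ 2 * P x) ≤ 1 :=
        Finset.prod_le_one (fun i _ => hfac0 i) (fun i _ => hfac1 i)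
      have h2 : 0 ≤ ∏ i ∈ (Finset.range (J + 1)).erase j,
          (1 - (ampCoeff (P x) ((3 ^ i - 1) / 2)).1 ^ 2 * P x) :=
        Finset.prod_nonneg (fun i _ => hfac0 i)
      have h3 := hfac0 j
      nlinarith only [h1, hj, h2]
    exact pow_le_pow_left₀ (Finset.prod_nonneg fun i _ => hfac0 i) hprod m

end Vale.Agent.P362
end
end

section

section

/-!
Input-independent states are prepared with no query.
-/

set_option linter.unusedSectionVars false

namespace Vale.Agent.P362

open Matrix

/-- Every unit vector is a column of a unitary matrix. -/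
theorem exists_unitary_col {W : Type} [Fintype W] [DecidableEq W] (w0 : W) (ψ : W → ℂ)
    (hψ : ∑ w, ‖ψ w‖ ^ 2 = 1) :
    ∃ U : Matrix W W ℂ, U ∈ Matrix.unitaryGroup W ℂ ∧ ∀ w, U w w0 = ψ w := by
  let v : W → EuclideanSpace ℂ W := fun _ => WithLp.toLp 2 ψ
  have hn : ‖(WithLp.toLp 2 ψ : EuclideanSpace ℂ W)‖ = 1 := by
    rw [EuclideanSpace.norm_eq]
    simp only
    rw [hψ, Real.sqrt_one]
  have hv : Orthonormal ℂ (({w0} : Set W).domRestrict v) := by
    refine ⟨fun i => hn, fun i j hij => ?_⟩
    exact absurd (Subsingleton.elim i j) hij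
  obtain ⟨b, hb⟩ := hv.exists_orthonormalBasis_extension_of_card_eq
    (by rw [finrank_euclideanSpace])
  refine ⟨(EuclideanSpace.basisFun W ℂ).toBasis.toMatrix b,
    OrthonormalBasis.toMatrix_orthonormalBasis_mem_unitary _ _, fun w => ?_⟩
  rw [Module.Basis.toMatrix_apply, hb w0 rfl]
  simp [v]

/-- An input-independent unit vector is prepared with no query. -/
theorem Prep.const {ι W : Type} [Fintype W] [DecidableEq W] (ψ : W → ℂ)
    (hψ : ∑ w, ‖ψ w‖ ^ 2 = 1) : Prep 0 (fun _ : ι → Bool => ψ) := by
  have hne : Nonempty W := by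
    by_contra h
    rw [not_nonempty_iff] at h
    simp at hψ
  obtain ⟨w0⟩ := hne
  obtain ⟨U, hU, hc⟩ := exists_unitary_col w0 ψ hψ
  rw [prep_iff]
  exact ⟨fun _ => U, w0, QF.const hU, fun _ w => hc w⟩

/-- The uniform state is prepared with no query. -/
theorem Prep.uniform {ι W : Type} [Fintype W] [DecidableEq W] [Nonempty W] :
    Prep 0 (fun (_ : ι → Bool) (_ : W) => ((1 / Real.sqrt (Fintype.card W) : ℝ) : ℂ)) := by
  refine Prep.const _ ?_
  have hc : (0 : ℝ) < Fintype.card W := by exact_mod_cast Fintype.card_pos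
  have h1 : ‖((1 / Real.sqrt (Fintype.card W) : ℝ) : ℂ)‖ ^ 2 = 1 / Fintype.card W := by
    rw [Complex.norm_real, Real.norm_eq_abs, sq_abs, div_pow, Real.sq_sqrt hc.le, one_pow]
  rw [Finset.sum_congr rfl fun _ _ => h1, Finset.sum_const, Finset.card_univ, nsmul_eq_mul]
  (clear ι hc h1; field_simp)

end Vale.Agent.P362
end
end

section

section

/-! The elimination algorithm, abstractly. -/

namespace Vale.Agent.P362.QM

theorem ach_mono {ι Ω : Type} [DecidableEq Ω] {T T' : ℕ} {μ : (ι → Bool) → Ω → ℝ}
    (h : Ach T μ) (hT : T ≤ T') : Ach T' μ := h.mono hT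

theorem ach_pure {ι Ω : Type} [DecidableEq Ω] (o : Ω) :
    Ach (ι := ι) 0 (fun _ o' => if o' = o then 1 else 0) := by
  refine (Ach.pure (ι := ι) o).congr rfl fun x a => ?_
  simp only [eq_comm]

theorem ach_nonneg {ι Ω : Type} [DecidableEq Ω] {T : ℕ} {μ : (ι → Bool) → Ω → ℝ}
    (h : Ach T μ) (x : ι → Bool) (o : Ω) : 0 ≤ μ x o := h.nonneg x o

theorem ach_sum {ι Ω : Type} [Fintype Ω] [DecidableEq Ω] {T : ℕ} {μ : (ι → Bool) → Ω → ℝ}
    (h : Ach T μ) (x : ι → Bool) : ∑ o, μ x o = 1 := h.sum_eq_one x

theorem ach_map {ι Ω Ω' : Type} [Fintype Ω] [DecidableEq Ω] [DecidableEq Ω'] {T : ℕ}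
    {μ : (ι → Bool) → Ω → ℝ} (h : Ach T μ) (g : Ω → Ω') :
    Ach T (fun x o' => ∑ o, if g o = o' then μ x o else 0) := h.map g

theorem ach_bind {ι Ω Ω' : Type} [Fintype Ω] [DecidableEq Ω] [DecidableEq Ω'] {T T' : ℕ}
    {μ : (ι → Bool) → Ω → ℝ} {ν : Ω → (ι → Bool) → Ω' → ℝ} (h : Ach T μ)
    (h' : ∀ o, Ach T' (ν o)) : Ach (T + T') (fun x o' => ∑ o, μ x o * ν o x o') := h.bind h'

theorem prep_uniform {ι W : Type} [Fintype W] [DecidableEq W] [Nonempty W] :
    Prep (ι := ι) (W := W) 0 (fun _ _ => ((1 / Real.sqrt (Fintype.card W) : ℝ) : ℂ)) :=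
  Prep.uniform

section trees

variable {ι : Type}

/-- sequential composition of decision trees -/
def bindT : DT ι → (Bool → DT ι) → DT ι
  | .leaf b, k => k b
  | .node i t0 t1, k => .node i (bindT t0 k) (bindT t1 k)

theorem bindT_eval (t : DT ι) (k : Bool → DT ι) (x : ι → Bool) :
    (bindT t k).eval x = (k (t.eval x)).eval x := by
  induction t with
  | leaf b => rfl
  | node i t0 t1 h0 h1 =>
    simp only [bindT, DT.eval_node]
    split_ifs <;> assumption

theorem bindT_depth (t : DT ι) (k : Bool → DT ι) (d1 d2 : ℕ) (h1 : t.depth ≤ d1)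
    (h2 : ∀ b, (k b).depth ≤ d2) : (bindT t k).depth ≤ d1 + d2 := by
  induction t generalizing d1 with
  | leaf b => exact (h2 b).trans (Nat.le_add_left _ _)
  | node i t0 t1 ih0 ih1 =>
    simp only [bindT, DT.depth_node] at h1 ⊢
    obtain ⟨d, rfl⟩ : ∃ d, d1 = d + 1 := ⟨d1 - 1, by omega⟩
    have h3 := ih0 d (by omega)
    have h4 := ih1 d (by omega)
    omega

/-- conjunction of a list of trees -/
def allT : List (DT ι) → DT ι
  | [] => .leaf true
  | t :: l => bindT t (fun b => if b then allT l else .leaf false)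

theorem allT_eval (l : List (DT ι)) (x : ι → Bool) :
    (allT l).eval x = true ↔ ∀ t ∈ l, t.eval x = true := by
  induction l with
  | nil => simp only [allT, DT.eval_leaf, List.not_mem_nil, IsEmpty.forall_iff, implies_true]
  | cons t l ih =>
    simp only [allT, bindT_eval, List.mem_cons, forall_eq_or_imp]
    cases h : t.eval x <;> simp [ih]

theorem allT_depth (l : List (DT ι)) (d : ℕ) (h : ∀ t ∈ l, t.depth ≤ d) :
    (allT l).depth ≤ l.length * d := by
  induction l with
  | nil => simp [allT]
  | cons t l ih =>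
    have h1 := ih (fun t ht => h t (List.mem_cons_of_mem _ ht))
    have := bindT_depth t (fun b => if b then allT l else .leaf false) d (l.length * d)
      (h t List.mem_cons_self) (by intro b; cases b <;> simp [h1])
    simp only [allT, List.length_cons]
    calc _ ≤ d + l.length * d := this
      _ = (l.length + 1) * d := by ring

/-- negation of a tree -/
def notT (t : DT ι) : DT ι := bindT t (fun b => .leaf (!b))

theorem notT_eval (t : DT ι) (x : ι → Bool) : (notT t).eval x = !(t.eval x) := by
  simp [notT, bindT_eval]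

theorem notT_depth (t : DT ι) (d : ℕ) (h : t.depth ≤ d) : (notT t).depth ≤ d :=
  bindT_depth t _ d 0 h (fun b => by simp)

end trees

section expectations

variable {Ω Ω' : Type} [Fintype Ω] [Fintype Ω']

theorem ex_bind (μ : Ω → ℝ) (ν : Ω → Ω' → ℝ) (φ : Ω' → ℝ) :
    ∑ o', (∑ o, μ o * ν o o') * φ o' = ∑ o, μ o * ∑ o', ν o o' * φ o' := by
  simp only [Finset.sum_mul, Finset.mul_sum]
  rw [Finset.sum_comm]
  refine Finset.sum_congr rfl fun o _ => Finset.sum_congr rfl fun o' _ => ?_
  ring

theorem ex_map [DecidableEq Ω'] (μ : Ω → ℝ) (g : Ω → Ω') (φ : Ω' → ℝ) :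
    ∑ o', (∑ o, if g o = o' then μ o else 0) * φ o' = ∑ o, μ o * φ (g o) := by
  simp only [Finset.sum_mul]
  rw [Finset.sum_comm]
  refine Finset.sum_congr rfl fun o _ => ?_
  rw [Finset.sum_eq_single (g o)]
  · simp
  · intro o' _ h
    rw [if_neg (fun h' => h h'.symm), zero_mul]
  · simp only [Finset.mem_univ, not_true_eq_false, ↓reduceIte, mul_eq_zero, IsEmpty.forall_iff]

end expectations

/-- the hypothesis provided by amplitude amplification -/
def AAS (K : ℕ) : Prop := ∀ (ι W : Type) [Fintype W] [DecidableEq W] (T D M m : ℕ)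
    (Ψ : (ι → Bool) → W → ℂ) (_ : Prep T Ψ) (g : W → DT ι) (_ : ∀ w, (g w).depth ≤ D)
    (_ : 1 ≤ M), ∃ μ : (ι → Bool) → Option W → ℝ, Ach (m * (K * M * (T + D + 1))) μ ∧ ∀ x,
      (∀ w, (g w).eval x = false → μ x (some w) = 0) ∧
      (∃ c : ℝ, 0 ≤ c ∧ ∀ w, (g w).eval x = true → μ x (some w) = c * ‖Ψ x w‖ ^ 2) ∧
      (1 ≤ (M : ℝ) ^ 2 * (∑ w, if (g w).eval x then ‖Ψ x w‖ ^ 2 else 0) →
        μ x none ≤ (7 / 8) ^ m)

theorem exists_AAS : ∃ K, AAS K := aa_sampler

/-- consequences: probability of a set of outcomes -/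
theorem aas_prob {W : Type} [Fintype W] {g : W → Bool} {μ : Option W → ℝ}
    {q : W → ℝ} (hsum : ∑ o, μ o = 1) (h0 : ∀ w, g w = false → μ (some w) = 0) {c : ℝ}
    (hc : ∀ w, g w = true → μ (some w) = c * q w) :
    μ none + c * ∑ w, (if g w then q w else 0) = 1 := by
  rw [Fintype.sum_option] at hsum
  rw [← hsum, Finset.mul_sum]
  congr 1
  refine Finset.sum_congr rfl fun w _ => ?_
  cases h : g w
  · simp [h0 w h]
  · simp [hc w h]

theorem norm_uniform {J : Type} [Fintype J] [Nonempty J] :
    ‖((1 / Real.sqrt (Fintype.card J) : ℝ) : ℂ)‖ ^ 2 = 1 / (Fintype.card J : ℝ) := by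
  rw [Complex.norm_real, Real.norm_eq_abs, sq_abs, div_pow, one_pow,
    Real.sq_sqrt (Nat.cast_nonneg _)]

open Classical in
/-- one sample from the uniform distribution on `{j | g j}` -/
theorem one_sample {K : ℕ} (hAA : AAS K) {ι J : Type} [Fintype J] [DecidableEq J] [Nonempty J]
    (g : J → DT ι) (D M : ℕ) (hg : ∀ j, (g j).depth ≤ D) (hM : 1 ≤ M)
    (hMJ : (Fintype.card J : ℝ) ≤ (M : ℝ) ^ 2) :
    ∃ μ : (ι → Bool) → Option J → ℝ, Ach (11 * (K * M * (0 + D + 1))) μ ∧ ∀ x,
      (∃ j, (g j).eval x = true) → ∀ P : J → Prop,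
      2 * ((Finset.univ.filter fun j => (g j).eval x = true ∧ P j).card : ℝ) ≤
        ((Finset.univ.filter fun j => (g j).eval x = true).card : ℝ) →
      ∑ o, μ x o * (if (∀ j, o = some j → P j) then 1 else 0) ≤ 3 / 4 := by
  obtain ⟨μ, hμ, hx⟩ := hAA ι J 0 D M 11 _ prep_uniform g hg hM
  refine ⟨μ, hμ, fun x ⟨j0, hj0⟩ P hP => ?_⟩
  obtain ⟨h0, ⟨c, hc0, hc⟩, hn⟩ := hx x
  have hJ : (0 : ℝ) < Fintype.card J := by exact_mod_cast Fintype.card_pos
  have hsum := ach_sum hμ x
  have htot := aas_prob hsum h0 hc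
  set G : ℝ := ((Finset.univ.filter fun j => (g j).eval x = true).card : ℝ) with hG
  have hG1 : 1 ≤ G := by
    rw [hG]
    exact_mod_cast Finset.card_pos.2 ⟨j0, by simp [hj0]⟩
  have hmass : ∑ w, (if (g w).eval x then ‖((1 / Real.sqrt (Fintype.card J) : ℝ) : ℂ)‖ ^ 2
      else 0) = G / Fintype.card J := by
    rw [← Finset.sum_filter, norm_uniform, Finset.sum_const, nsmul_eq_mul, hG]
    ring
  have hnone : μ x none ≤ 1 / 4 := by
    refine (hn ?_).trans (by norm_num)
    rw [hmass, mul_div_assoc', le_div_iff₀ hJ, one_mul]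
    nlinarith
  rw [hmass] at htot
  rw [Fintype.sum_option]
  have h1 : μ x none * (if (∀ j, (none : Option J) = some j → P j) then 1 else 0) = μ x none := by
    simp
  have h2 : ∑ j, μ x (some j) * (if (∀ j', (some j : Option J) = some j' → P j') then 1 else 0)
      = c * (((Finset.univ.filter fun j => (g j).eval x = true ∧ P j).card : ℝ) /
        Fintype.card J) := by
    have : ∀ j, μ x (some j) * (if (∀ j', (some j : Option J) = some j' → P j') then 1 else 0) =
        if (g j).eval x = true ∧ P j then c / Fintype.card J else 0 := by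
      intro j
      have e : (∀ j', (some j : Option J) = some j' → P j') ↔ P j := by simp
      simp only [e]
      cases hgj : (g j).eval x
      · simp [h0 j hgj]
      · rw [hc j hgj, norm_uniform]
        by_cases hPj : P j <;> simp [hPj]
        ring
    simp only [this]
    rw [← Finset.sum_filter, Finset.sum_const, nsmul_eq_mul]
    ring
  rw [h1, h2]
  have h3 : c * (((Finset.univ.filter fun j => (g j).eval x = true ∧ P j).card : ℝ) /
        Fintype.card J) ≤ c * (G / Fintype.card J) / 2 := by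
    rw [mul_div_assoc, div_div, mul_comm (Fintype.card J : ℝ) 2, ← div_div]
    refine mul_le_mul_of_nonneg_left ?_ hc0
    gcongr
    linarith only [hP]
  linarith only [htot, hnone, h3]

open Classical in
/-- `t` samples -/
theorem samples {K : ℕ} (hAA : AAS K) {ι J : Type} [Fintype J] [DecidableEq J] [Nonempty J]
    (g : J → DT ι) (D M : ℕ) (hg : ∀ j, (g j).depth ≤ D) (hM : 1 ≤ M)
    (hMJ : (Fintype.card J : ℝ) ≤ (M : ℝ) ^ 2) (t : ℕ) :
    ∃ σ : (ι → Bool) → Finset J → ℝ, Ach (t * (11 * (K * M * (0 + D + 1)))) σ ∧ ∀ x,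
      (∀ S, σ x S ≠ 0 → S.card ≤ t) ∧
      ((∃ j, (g j).eval x = true) → ∀ P : J → Prop,
      2 * ((Finset.univ.filter fun j => (g j).eval x = true ∧ P j).card : ℝ) ≤
        ((Finset.univ.filter fun j => (g j).eval x = true).card : ℝ) →
      ∑ S, σ x S * (if (∀ j ∈ S, P j) then 1 else 0) ≤ (3 / 4) ^ t) := by
  induction t with
  | zero =>
    refine ⟨_, by simpa using ach_pure (ι := ι) (∅ : Finset J), fun x => ⟨fun S hS => ?_,
      fun _ P _ => ?_⟩⟩
    · by_cases h : S = ∅
      · simp [h]
      · simp [h] at hS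
    · rw [Finset.sum_eq_single (∅ : Finset J)]
      · simp
      · intro S _ hS
        simp [hS]
      · simp
  | succ t ih =>
    obtain ⟨σ, hσ, hx⟩ := ih
    obtain ⟨μ, hμ, hμx⟩ := one_sample hAA g D M hg hM hMJ
    have hA := ach_bind hσ (fun S => ach_map hμ (fun o : Option J => o.elim S (fun j => insert j S)))
    refine ⟨_, ach_mono hA (le_of_eq (by ring)), fun x => ⟨fun S' hS' => ?_,
      fun hj P hP => ?_⟩⟩
    · obtain ⟨S, -, hS⟩ := Finset.exists_ne_zero_of_sum_ne_zero hS'
      have h1 : σ x S ≠ 0 := left_ne_zero_of_mul hS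
      obtain ⟨o, -, ho⟩ := Finset.exists_ne_zero_of_sum_ne_zero (right_ne_zero_of_mul hS)
      have h2 : (o.elim S (fun j => insert j S)) = S' := by
        by_contra h
        rw [if_neg h] at ho
        exact ho rfl
      have h3 := (hx x).1 S h1
      rw [← h2]
      cases o with
      | none => simpa only [Option.elim_none, ge_iff_le, Nat.succ_eq_add_one] using h3.trans (Nat.le_succ t)
      | some j =>
        simp only [Option.elim]
        exact (Finset.card_insert_le _ _).trans (Nat.succ_le_succ h3)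
    · rw [ex_bind]
      simp only [ex_map]
      have h1 := hμx x hj P hP
      have h2 := (hx x).2 hj P hP
      have hσ0 : ∀ S, 0 ≤ σ x S := ach_nonneg hσ x
      have hμ0 : ∀ o, 0 ≤ μ x o := ach_nonneg hμ x
      calc ∑ S, σ x S * ∑ o, μ x o *
            (if (∀ j ∈ o.elim S (fun j => insert j S), P j) then (1 : ℝ) else 0)
          ≤ ∑ S, (σ x S * (if (∀ j ∈ S, P j) then 1 else 0)) * (3 / 4) := by
            refine Finset.sum_le_sum fun S _ => ?_
            rw [mul_assoc]
            refine mul_le_mul_of_nonneg_left ?_ (hσ0 S)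
            by_cases hS : ∀ j ∈ S, P j
            · rw [if_pos hS, one_mul]
              refine le_trans (Finset.sum_le_sum fun o _ => ?_) h1
              refine mul_le_mul_of_nonneg_left ?_ (hμ0 o)
              cases o with
              | none =>
                refine (if_pos ?_).le.trans (if_pos ?_).ge
                · exact hS
                · simp
              | some j =>
                simp only [Option.elim, Finset.mem_insert, forall_eq_or_imp, Option.some.injEq,
                  forall_eq']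
                by_cases hPj : P j
                · rw [if_pos ⟨hPj, hS⟩, if_pos hPj]
                · rw [if_neg (fun h => hPj h.1), if_neg hPj]
            · rw [if_neg hS, zero_mul]
              refine le_of_eq (Finset.sum_eq_zero fun o _ => ?_)
              rw [if_neg, mul_zero]
              intro h
              refine hS fun j hj' => h j ?_
              cases o with
              | none => exact hj'
              | some j'' => exact Finset.mem_insert_of_mem hj'
        _ = (∑ S, σ x S * (if (∀ j ∈ S, P j) then 1 else 0)) * (3 / 4) := by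
            rw [Finset.sum_mul]
        _ ≤ (3 / 4) ^ (t + 1) := by
            rw [pow_succ]
            exact mul_le_mul_of_nonneg_right h2 (by norm_num)

section rounds

variable {ι J A : Type}

/-- is `j` not yet eliminated by the history `ρ`? -/
noncomputable def gR (el : A → J → DT ι) (ρ : Finset A) (j : J) : DT ι :=
  allT (ρ.toList.map fun a => notT (el a j))

theorem gR_eval (el : A → J → DT ι) (ρ : Finset A) (j : J) (x : ι → Bool) :
    (gR el ρ j).eval x = true ↔ ∀ a ∈ ρ, (el a j).eval x = false := by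
  rw [gR, allT_eval]
  simp only [List.mem_map, Finset.mem_toList, forall_exists_index, and_imp, forall_apply_eq_imp_iff₂, notT_eval, Bool.not_eq_eq_eq_not, Bool.not_true]

theorem gR_depth (el : A → J → DT ι) (d : ℕ) (hel : ∀ a j, (el a j).depth ≤ d) (ρ : Finset A)
    (j : J) (L : ℕ) (hρ : ρ.card ≤ L) : (gR el ρ j).depth ≤ L * d := by
  refine (allT_depth _ d ?_).trans ?_
  · intro t ht
    simp only [List.mem_map, Finset.mem_toList] at ht
    obtain ⟨a, -, rfl⟩ := ht
    exact notT_depth _ _ (hel a j)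
  · rw [List.length_map, Finset.length_toList]
    exact Nat.mul_le_mul_right _ hρ

open Classical in
/-- predicate for the next candidate given the samples `S` -/
noncomputable def gP (row : A → J) (el : A → J → DT ι) (ρ : Finset A) (S : Finset J) (a : A) :
    DT ι :=
  allT ((ρ.toList.map fun a' => notT (el a' (row a))) ++
    (S.toList.map fun j => if j = row a then .leaf true else el a j))

theorem gP_eval (row : A → J) (el : A → J → DT ι) (ρ : Finset A) (S : Finset J) (a : A)
    (x : ι → Bool) : (gP row el ρ S a).eval x = true ↔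
      (∀ a' ∈ ρ, (el a' (row a)).eval x = false) ∧
      (∀ j ∈ S, j = row a ∨ (el a j).eval x = true) := by
  classical
  rw [gP, allT_eval]
  simp only [List.mem_append, List.mem_map, Finset.mem_toList]
  constructor
  · intro h
    refine ⟨fun a' ha' => ?_, fun j hj => ?_⟩
    · have := h _ (Or.inl ⟨a', ha', rfl⟩)
      simpa [notT_eval] using this
    · have := h _ (Or.inr ⟨j, hj, rfl⟩)
      by_cases hjr : j = row a
      · exact Or.inl hjr
      · rw [if_neg hjr] at this
        exact Or.inr this
  · rintro ⟨h1, h2⟩ t (⟨a', ha', rfl⟩ | ⟨j, hj, rfl⟩)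
    · rw [notT_eval, h1 a' ha']; rfl
    · by_cases hjr : j = row a
      · rw [if_pos hjr]; rfl
      · rw [if_neg hjr]
        exact (h2 j hj).resolve_left hjr

theorem gP_depth (row : A → J) (el : A → J → DT ι) (d : ℕ) (hel : ∀ a j, (el a j).depth ≤ d)
    (ρ : Finset A) (S : Finset J) (a : A) (L s : ℕ) (hρ : ρ.card ≤ L) (hS : S.card ≤ s) :
    (gP row el ρ S a).depth ≤ (L + s) * d := by
  classical
  refine (allT_depth _ d ?_).trans ?_
  · intro t ht
    simp only [List.mem_append, List.mem_map, Finset.mem_toList] at ht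
    rcases ht with ⟨a', -, rfl⟩ | ⟨j, -, rfl⟩
    · exact notT_depth _ _ (hel _ _)
    · split_ifs
      · simp
      · exact hel _ _
  · rw [List.length_append, List.length_map, List.length_map, Finset.length_toList,
      Finset.length_toList]
    exact Nat.mul_le_mul_right _ (by omega)

variable [Fintype J] [Fintype A] [DecidableEq J] [DecidableEq A]

open Classical in
/-- the rows not eliminated by `ρ` -/
noncomputable def RR (el : A → J → DT ι) (x : ι → Bool) (ρ : Finset A) : Finset J :=
  Finset.univ.filter fun j => ∀ a ∈ ρ, (el a j).eval x = false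

/-- `x` is a good input: there is a candidate of large amplitude eliminating all other rows
while its own row is never eliminated -/
def GoodX (row : A → J) (el : A → J → DT ι) (Ψ : (ι → Bool) → A → ℂ) (p0 : ℝ)
    (x : ι → Bool) (a : A) : Prop :=
  p0 / Fintype.card J ≤ ‖Ψ x a‖ ^ 2 ∧ (∀ j, j ≠ row a → (el a j).eval x = true) ∧
    (∀ a', (el a' (row a)).eval x = false)

open Classical in
/-- one round of the algorithm -/
theorem one_round {K : ℕ} (hAA : AAS K) [Nonempty J]
    (row : A → J) (el : A → J → DT ι) (d T0 : ℕ) (hel : ∀ a j, (el a j).depth ≤ d)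
    (Ψ : (ι → Bool) → A → ℂ) (hΨ : Prep T0 Ψ) (p0 : ℝ) (hp0 : 0 < p0)
    (L s m M1 M2 : ℕ) (hM1 : 1 ≤ M1) (hM2 : 1 ≤ M2)
    (hMJ : (Fintype.card J : ℝ) ≤ (M1 : ℝ) ^ 2)
    (hMp : (Fintype.card J : ℝ) / p0 ≤ (M2 : ℝ) ^ 2) (ρ : Finset A) (hρ : ρ.card ≤ L) :
    ∃ τ : (ι → Bool) → Finset A → ℝ,
      Ach (s * (11 * (K * M1 * (0 + L * d + 1))) + m * (K * M2 * (T0 + (L + s) * d + 1))) τ ∧
      ∀ x, (∀ ρ', τ x ρ' ≠ 0 → ρ'.card ≤ ρ.card + 1) ∧
        ((∃ a, GoodX row el Ψ p0 x a) →
          ∑ ρ', τ x ρ' * (if 2 * (RR el x ρ').card ≤ (RR el x ρ).card + 2 then 0 else 1) ≤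
            Fintype.card A * (3 / 4) ^ s + (7 / 8) ^ m) := by
  obtain ⟨σ, hσ, hσx⟩ := samples hAA (gR el ρ) (L * d) M1 (fun j => gR_depth el d hel ρ j L hρ)
    hM1 hMJ s
  have hμ : ∀ S : Finset J, ∃ μ : (ι → Bool) → Option A → ℝ,
      Ach (m * (K * M2 * (T0 + (L + s) * d + 1))) μ ∧ ∀ x,
      (∀ a, (if S.card ≤ s then gP row el ρ S a else .leaf false).eval x = false →
        μ x (some a) = 0) ∧
      (∃ c : ℝ, 0 ≤ c ∧ ∀ a, (if S.card ≤ s then gP row el ρ S a else .leaf false).eval x = true →
        μ x (some a) = c * ‖Ψ x a‖ ^ 2) ∧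
      (1 ≤ (M2 : ℝ) ^ 2 * (∑ a, if (if S.card ≤ s then gP row el ρ S a else .leaf false).eval x
        then ‖Ψ x a‖ ^ 2 else 0) → μ x none ≤ (7 / 8) ^ m) := fun S =>
    hAA ι A T0 ((L + s) * d) M2 m Ψ hΨ (fun a => if S.card ≤ s then gP row el ρ S a else .leaf false)
      (fun a => by
        split_ifs with hS
        · exact gP_depth row el d hel ρ S a L s hρ hS
        · simp) hM2
  choose μ hμA hμx using hμ
  have hA := ach_bind hσ (fun S => ach_map (hμA S)
    (fun o : Option A => o.elim ρ (fun a => insert a ρ)))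
  refine ⟨_, hA, fun x => ⟨fun ρ' hρ' => ?_, ?_⟩⟩
  · obtain ⟨S, -, hS⟩ := Finset.exists_ne_zero_of_sum_ne_zero hρ'
    obtain ⟨o, -, ho⟩ := Finset.exists_ne_zero_of_sum_ne_zero (right_ne_zero_of_mul hS)
    have h2 : (o.elim ρ (fun a => insert a ρ)) = ρ' := by
      by_contra h
      rw [if_neg h] at ho
      exact ho rfl
    rw [← h2]
    cases o with
    | none => exact Nat.le_succ _
    | some j => exact Finset.card_insert_le _ _
  · rintro ⟨a0, h1, h2, h3⟩
    have hJ : (0 : ℝ) < Fintype.card J := by exact_mod_cast Fintype.card_pos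
    rw [ex_bind]
    simp only [ex_map]
    have hσ0 : ∀ S, 0 ≤ σ x S := ach_nonneg hσ x
    have hσ1 : ∑ S, σ x S = 1 := ach_sum hσ x
    have hμ0 : ∀ S o, 0 ≤ μ S x o := fun S => ach_nonneg (hμA S) x
    have hμ1 : ∀ S, ∑ o, μ S x o = 1 := fun S => ach_sum (hμA S) x
    -- bad candidates
    obtain ⟨Bad, hBad⟩ : ∃ Bad : A → Prop, ∀ a, Bad a ↔
        ¬ 2 * (RR el x (insert a ρ)).card ≤ (RR el x ρ).card + 2 := ⟨_, fun _ => Iff.rfl⟩
    obtain ⟨PP, hPP⟩ : ∃ PP : A → J → Prop, ∀ a j, PP a j ↔
        (j = row a ∨ (el a j).eval x = true) := ⟨_, fun _ _ => Iff.rfl⟩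
    have hR0 : row a0 ∈ RR el x ρ := by
      simp only [RR, Finset.mem_filter, Finset.mem_univ, true_and]
      exact fun a _ => h3 a
    have hRR : (Finset.univ.filter fun j => (gR el ρ j).eval x = true) = RR el x ρ := by
      unfold RR
      refine Finset.filter_congr fun j _ => ?_
      rw [gR_eval]
    -- samples kill bad candidates
    have hbad : ∀ a, Bad a → ∑ S, σ x S * (if (∀ j ∈ S, PP a j) then 1 else 0) ≤ (3 / 4) ^ s := by
      intro a ha
      refine (hσx x).2 ⟨row a0, ?_⟩ (PP a) ?_
      · rw [gR_eval]; exact fun a _ => h3 a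
      · rw [hRR]
        have e1 : (Finset.univ.filter fun j => (gR el ρ j).eval x = true ∧ PP a j) ⊆
            insert (row a) ((RR el x ρ) \ (RR el x (insert a ρ))) := by
          intro j
          simp only [Finset.mem_filter, Finset.mem_univ, true_and, Finset.mem_insert,
            Finset.mem_sdiff, RR, gR_eval, hPP]
          rintro ⟨h4, h5 | h5⟩
          · exact Or.inl h5
          · refine Or.inr ⟨h4, fun h6 => ?_⟩
            have := h6 a (Or.inl rfl)
            rw [h5] at this
            exact absurd this (by simp)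
        have e2 := (Finset.card_le_card e1).trans (Finset.card_insert_le _ _)
        have e3 : RR el x (insert a ρ) ⊆ RR el x ρ := by
          intro j
          simp only [RR, Finset.mem_filter, Finset.mem_univ, true_and, Finset.mem_insert]
          exact fun h4 a' ha' => h4 a' (Or.inr ha')
        rw [Finset.card_sdiff_of_subset e3] at e2
        have e4 := Finset.card_le_card e3
        have e5 : ¬ 2 * (RR el x (insert a ρ)).card ≤ (RR el x ρ).card + 2 := (hBad a).1 ha
        have e6 : 2 * (Finset.univ.filter fun j => (gR el ρ j).eval x = true ∧ PP a j).card ≤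
            (RR el x ρ).card := by omega
        exact_mod_cast e6
    -- inner bound
    have hin : ∀ S, σ x S ≠ 0 → ∑ o, μ S x o *
        (if 2 * (RR el x (o.elim ρ (fun a => insert a ρ))).card ≤ (RR el x ρ).card + 2 then 0
          else 1) ≤ (7 / 8) ^ m + ∑ a, (if Bad a then (if (∀ j ∈ S, PP a j) then (1 : ℝ) else 0)
            else 0) := by
      intro S hS
      have hSs : S.card ≤ s := (hσx x).1 S hS
      obtain ⟨g0, ⟨c, hc0, hc⟩, hn⟩ := hμx S x
      simp only [if_pos hSs] at g0 hc hn
      rw [Fintype.sum_option]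
      refine add_le_add ?_ ?_
      · have hn1 : μ S x none ≤ (7 / 8) ^ m := by
          refine hn ?_
          have hg0 : (gP row el ρ S a0).eval x = true := by
            rw [gP_eval]
            refine ⟨fun a' _ => h3 a', fun j _ => ?_⟩
            by_cases hj : j = row a0
            · exact Or.inl hj
            · exact Or.inr (h2 j hj)
          have hle : ‖Ψ x a0‖ ^ 2 ≤ ∑ a, if (gP row el ρ S a).eval x then ‖Ψ x a‖ ^ 2 else 0 := by
            have := Finset.single_le_sum (f := fun a => if (gP row el ρ S a).eval x then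
              ‖Ψ x a‖ ^ 2 else 0) (s := Finset.univ) (fun a _ => by (clear * -; positivity))
              (Finset.mem_univ a0)
            simpa only [ge_iff_le, hg0, ↓reduceIte] using this
          calc (1 : ℝ) = (Fintype.card J : ℝ) / p0 * (p0 / Fintype.card J) := by
                field_simp
            _ ≤ (M2 : ℝ) ^ 2 * (∑ a, if (gP row el ρ S a).eval x then ‖Ψ x a‖ ^ 2 else 0) :=
                mul_le_mul hMp (h1.trans hle) (by positivity) (by positivity)
        calc _ ≤ μ S x none * 1 := by
              refine mul_le_mul_of_nonneg_left ?_ (hμ0 S none)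
              split_ifs <;> norm_num
          _ ≤ _ := by rw [mul_one]; exact hn1
      · by_cases hex : ∃ a, Bad a ∧ ∀ j ∈ S, PP a j
        · obtain ⟨a1, ha1, ha1'⟩ := hex
          calc _ ≤ ∑ a, μ S x (some a) := by
                refine Finset.sum_le_sum fun a _ => ?_
                refine mul_le_of_le_one_right (hμ0 S _) ?_
                split_ifs <;> norm_num
            _ ≤ 1 := by
                have := hμ1 S
                rw [Fintype.sum_option] at this
                have h0 := hμ0 S none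
                linarith only [this, h0]
            _ ≤ _ := by
                have := Finset.single_le_sum (f := fun a => if Bad a then
                  (if (∀ j ∈ S, PP a j) then (1 : ℝ) else 0) else 0) (s := Finset.univ)
                  (fun a _ => by (clear * -; positivity)) (Finset.mem_univ a1)
                simp only [if_pos ha1] at this
                rw [if_pos ha1'] at this
                exact this
        · refine le_trans (le_of_eq (Finset.sum_eq_zero fun a _ => ?_))
            (Finset.sum_nonneg fun a _ => by (clear * -; positivity))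
          by_cases hg : (gP row el ρ S a).eval x = true
          · rw [gP_eval] at hg
            have hnb : ¬ Bad a := fun hb => hex ⟨a, hb, fun j hj => (hPP a j).2 (hg.2 j hj)⟩
            have hnb' : 2 * (RR el x (insert a ρ)).card ≤ (RR el x ρ).card + 2 := by
              by_contra hcon
              exact hnb ((hBad a).2 hcon)
            exact mul_eq_zero_of_right _ (if_pos hnb')
          · rw [Bool.not_eq_true] at hg
            rw [g0 a hg, zero_mul]
    calc _ ≤ ∑ S, σ x S * ((7 / 8) ^ m + ∑ a, (if Bad a then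
            (if (∀ j ∈ S, PP a j) then (1 : ℝ) else 0) else 0)) := by
          refine Finset.sum_le_sum fun S _ => ?_
          by_cases hS : σ x S = 0
          · simp only [hS, mul_ite, mul_zero, mul_one, Fintype.sum_option, Option.elim_none, Option.elim_some, zero_mul, Std.le_refl]
          · exact mul_le_mul_of_nonneg_left (hin S hS) (hσ0 S)
      _ = (7 / 8) ^ m + ∑ a, (if Bad a then
            ∑ S, σ x S * (if (∀ j ∈ S, PP a j) then (1 : ℝ) else 0) else 0) := by
          simp only [mul_add, Finset.sum_add_distrib, ← Finset.sum_mul, hσ1, one_mul]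
          congr 1
          simp only [Finset.mul_sum]
          rw [Finset.sum_comm]
          refine Finset.sum_congr rfl fun a _ => ?_
          split_ifs with hb
          · rfl
          · simp
      _ ≤ (7 / 8) ^ m + ∑ a : A, (3 / 4) ^ s := by
          refine add_le_add le_rfl (Finset.sum_le_sum fun a _ => ?_)
          split_ifs with hb
          · exact hbad a hb
          · positivity
      _ = _ := by
          rw [Finset.sum_const, Finset.card_univ, nsmul_eq_mul]
          ring

open Classical in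
/-- `t` rounds of the algorithm -/
theorem rounds {K : ℕ} (hAA : AAS K) [Nonempty J]
    (row : A → J) (el : A → J → DT ι) (d T0 : ℕ) (hel : ∀ a j, (el a j).depth ≤ d)
    (Ψ : (ι → Bool) → A → ℂ) (hΨ : Prep T0 Ψ) (p0 : ℝ) (hp0 : 0 < p0)
    (L s m M1 M2 : ℕ) (hM1 : 1 ≤ M1) (hM2 : 1 ≤ M2)
    (hMJ : (Fintype.card J : ℝ) ≤ (M1 : ℝ) ^ 2)
    (hMp : (Fintype.card J : ℝ) / p0 ≤ (M2 : ℝ) ^ 2) (t : ℕ) (ht : t ≤ L) :
    ∃ τ : (ι → Bool) → Finset A → ℝ,
      Ach (t * (s * (11 * (K * M1 * (0 + L * d + 1))) +
        m * (K * M2 * (T0 + (L + s) * d + 1)))) τ ∧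
      ∀ x, (∀ ρ, τ x ρ ≠ 0 → ρ.card ≤ t) ∧
        ((∃ a, GoodX row el Ψ p0 x a) →
          ∑ ρ, τ x ρ * (if 2 ^ t * (RR el x ρ).card ≤ Fintype.card J + 2 * 2 ^ t then 0 else 1) ≤
            t * (Fintype.card A * (3 / 4) ^ s + (7 / 8) ^ m)) := by
  induction t with
  | zero =>
    refine ⟨_, by simpa using ach_pure (ι := ι) (∅ : Finset A), fun x => ⟨fun S hS => ?_,
      fun _ => ?_⟩⟩
    · by_cases h : S = ∅
      · simp [h]
      · simp [h] at hS
    · rw [Finset.sum_eq_single (∅ : Finset A)]
      · have h1 : (RR el x ∅).card ≤ Fintype.card J := Finset.card_le_univ _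
        rw [if_pos (by omega : 2 ^ 0 * (RR el x ∅).card ≤ Fintype.card J + 2 * 2 ^ 0)]
        simp only [↓reduceIte, mul_zero, CharP.cast_eq_zero, zero_mul, Std.le_refl]
      · intro S _ hS
        simp only [hS, ↓reduceIte, pow_zero, one_mul, mul_one, mul_ite, mul_zero, ite_self]
      · simp only [Finset.mem_univ, not_true_eq_false, ↓reduceIte, pow_zero, one_mul, mul_one, mul_ite, mul_zero, ite_eq_left_iff, not_le, one_ne_zero, imp_false, not_lt, IsEmpty.forall_iff]
  | succ t ih =>
    obtain ⟨τ, hτ, hx⟩ := ih (by omega)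
    have hr : ∀ ρ : Finset A, ∃ τ : (ι → Bool) → Finset A → ℝ,
      Ach (s * (11 * (K * M1 * (0 + L * d + 1))) + m * (K * M2 * (T0 + (L + s) * d + 1))) τ ∧
      (ρ.card ≤ L → ∀ x, (∀ ρ', τ x ρ' ≠ 0 → ρ'.card ≤ ρ.card + 1) ∧
        ((∃ a, GoodX row el Ψ p0 x a) →
          ∑ ρ', τ x ρ' * (if 2 * (RR el x ρ').card ≤ (RR el x ρ).card + 2 then 0 else 1) ≤
            Fintype.card A * (3 / 4) ^ s + (7 / 8) ^ m)) := by
      intro ρ
      by_cases hρ : ρ.card ≤ L
      · obtain ⟨τ, h1, h2⟩ := one_round hAA row el d T0 hel Ψ hΨ p0 hp0 L s m M1 M2 hM1 hM2 hMJ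
          hMp ρ hρ
        exact ⟨τ, h1, fun _ => h2⟩
      · exact ⟨_, ach_mono (ach_pure ρ) (Nat.zero_le _), fun h => absurd h hρ⟩
    choose r hrA hrx using hr
    refine ⟨_, ach_mono (ach_bind hτ hrA) (le_of_eq (by ring)), fun x => ⟨fun ρ' hρ' => ?_,
      fun hg => ?_⟩⟩
    · obtain ⟨ρ, -, hρ⟩ := Finset.exists_ne_zero_of_sum_ne_zero hρ'
      have h1 := (hx x).1 ρ (left_ne_zero_of_mul hρ)
      have h2 := ((hrx ρ (by omega)) x).1 ρ' (right_ne_zero_of_mul hρ)
      omega
    · rw [ex_bind]
      have hτ0 : ∀ ρ, 0 ≤ τ x ρ := ach_nonneg hτ x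
      have hτ1 : ∑ ρ, τ x ρ = 1 := ach_sum hτ x
      have hr0 : ∀ ρ ρ', 0 ≤ r ρ x ρ' := fun ρ => ach_nonneg (hrA ρ) x
      have hr1 : ∀ ρ, ∑ ρ', r ρ x ρ' = 1 := fun ρ => ach_sum (hrA ρ) x
      have h1 := (hx x).2 hg
      set ε : ℝ := Fintype.card A * (3 / 4) ^ s + (7 / 8) ^ m with hε
      have hε0 : 0 ≤ ε := by (clear * -; positivity)
      calc _ ≤ ∑ ρ, τ x ρ * ((if 2 ^ t * (RR el x ρ).card ≤ Fintype.card J + 2 * 2 ^ t then 0
              else 1) + ε) := by
            refine Finset.sum_le_sum fun ρ _ => ?_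
            by_cases hρ0 : τ x ρ = 0
            · simp only [hρ0, mul_ite, mul_zero, mul_one, zero_mul, Std.le_refl]
            refine mul_le_mul_of_nonneg_left ?_ (hτ0 ρ)
            have hρ := (hx x).1 ρ hρ0
            by_cases hb : 2 ^ t * (RR el x ρ).card ≤ Fintype.card J + 2 * 2 ^ t
            · rw [if_pos hb, zero_add]
              refine le_trans (Finset.sum_le_sum fun ρ' _ => ?_)
                (((hrx ρ (by omega)) x).2 hg)
              refine mul_le_mul_of_nonneg_left ?_ (hr0 ρ ρ')
              by_cases h2 : 2 * (RR el x ρ').card ≤ (RR el x ρ).card + 2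
              · have h3 : 2 ^ (t + 1) * (RR el x ρ').card ≤
                    Fintype.card J + 2 * 2 ^ (t + 1) := by
                  calc 2 ^ (t + 1) * (RR el x ρ').card = 2 ^ t * (2 * (RR el x ρ').card) := by
                        rw [pow_succ]; ring
                    _ ≤ 2 ^ t * ((RR el x ρ).card + 2) := Nat.mul_le_mul_left _ h2
                    _ = 2 ^ t * (RR el x ρ).card + 2 * 2 ^ t := by ring
                    _ ≤ Fintype.card J + 2 * 2 ^ t + 2 * 2 ^ t := by omega
                    _ = _ := by rw [pow_succ]; ring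
                rw [if_pos h3, if_pos h2]
              · rw [if_neg h2]
                split_ifs <;> norm_num
            · rw [if_neg hb]
              calc _ ≤ ∑ ρ', r ρ x ρ' * 1 := by
                    refine Finset.sum_le_sum fun ρ' _ => mul_le_mul_of_nonneg_left ?_ (hr0 ρ ρ')
                    split_ifs <;> norm_num
                _ ≤ 1 + ε := by
                    simp only [mul_one, hr1]
                    linarith only [hε0]
        _ = (∑ ρ, τ x ρ * (if 2 ^ t * (RR el x ρ).card ≤ Fintype.card J + 2 * 2 ^ t then 0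
              else 1)) + ε := by
            simp only [mul_add, Finset.sum_add_distrib, ← Finset.sum_mul, hτ1, one_mul]
        _ ≤ t * ε + ε := by linarith only [h1]
        _ = ((t + 1 : ℕ) : ℝ) * ε := by push_cast; ring

/-- one verification trial -/
theorem trial {K : ℕ} (hAA : AAS K) {C : Type} [Fintype C] [DecidableEq C] [Nonempty C] [Nonempty J]
    (row : A → J) (el : A → J → DT ι) (viol : A → C → DT ι) (d T0 : ℕ)
    (hel : ∀ a j, (el a j).depth ≤ d) (hviol : ∀ a c, (viol a c).depth ≤ d)
    (Ψ : (ι → Bool) → A → ℂ) (hΨ : Prep T0 Ψ) (p0 : ℝ) (hp0 : 0 < p0)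
    (hrow : ∀ x j, ∑ a, (if row a = j then ‖Ψ x a‖ ^ 2 else 0) ≤
      1 / Fintype.card J)
    (L m m' M2 M3 : ℕ) (hM2 : 1 ≤ M2) (hM3 : 1 ≤ M3)
    (hMp : (Fintype.card J : ℝ) / p0 ≤ (M2 : ℝ) ^ 2)
    (hMC : (Fintype.card C : ℝ) ≤ (M3 : ℝ) ^ 2) (ρ : Finset A) (hρ : ρ.card ≤ L) :
    ∃ β : (ι → Bool) → Bool → ℝ,
      Ach (m * (K * M2 * (T0 + L * d + 1)) + m' * (K * M3 * (0 + d + 1))) β ∧
      ∀ x, (∀ a0, GoodX row el Ψ p0 x a0 → (∀ c, (viol a0 c).eval x = false) →
          (RR el x ρ).card ≤ 3 → (1 - (7 / 8) ^ m) * (p0 / 3) ≤ β x true) ∧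
        ((∀ a, ∃ c, (viol a c).eval x = true) → β x true ≤ (7 / 8) ^ m') := by
  classical
  obtain ⟨μ, hμ, hμx⟩ := hAA ι A T0 (L * d) M2 m Ψ hΨ (fun a => gR el ρ (row a))
    (fun a => gR_depth el d hel ρ (row a) L hρ) hM2
  have hν : ∀ a : A, ∃ ν : (ι → Bool) → Option C → ℝ, Ach (m' * (K * M3 * (0 + d + 1))) ν ∧
      ∀ x, (∀ w, (viol a w).eval x = false → ν x (some w) = 0) ∧
      (∃ c : ℝ, 0 ≤ c ∧ ∀ w, (viol a w).eval x = true → ν x (some w) =
        c * ‖((1 / Real.sqrt (Fintype.card C) : ℝ) : ℂ)‖ ^ 2) ∧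
      (1 ≤ (M3 : ℝ) ^ 2 * (∑ w, if (viol a w).eval x then
        ‖((1 / Real.sqrt (Fintype.card C) : ℝ) : ℂ)‖ ^ 2 else 0) →
        ν x none ≤ (7 / 8) ^ m') := fun a =>
    hAA ι C 0 d M3 m' _ prep_uniform (viol a) (hviol a) hM3
  choose ν hνA hνx using hν
  have hbr : ∀ o : Option A, ∃ κ : (ι → Bool) → Bool → ℝ, Ach (m' * (K * M3 * (0 + d + 1))) κ ∧
      (o = none → ∀ x, κ x true = 0) ∧ (∀ a, o = some a → ∀ x, κ x true = ν a x none) := by
    intro o
    cases o with
    | none => exact ⟨_, ach_mono (ach_pure false) (Nat.zero_le _), by simp, by simp only [reduceCtorEq, Bool.true_eq_false, ↓reduceIte, IsEmpty.forall_iff, implies_true]⟩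
    | some a =>
      refine ⟨_, ach_map (hνA a) (fun o' => o'.isNone), by simp only [reduceCtorEq, Option.isNone_iff_eq_none, Finset.sum_ite_eq', Finset.mem_univ, ↓reduceIte, IsEmpty.forall_iff], ?_⟩
      intro a' ha' x
      obtain rfl : a = a' := by simpa using ha'
      rw [Fintype.sum_option]
      simp
  choose κ hκA hκ0 hκ1 using hbr
  refine ⟨_, ach_bind hμ hκA, fun x => ⟨fun a0 hg hv hR => ?_, fun hv => ?_⟩⟩
  · have hJ : (0 : ℝ) < Fintype.card J := by exact_mod_cast Fintype.card_pos
    obtain ⟨g0, ⟨c, hc0, hc⟩, hn⟩ := hμx x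
    have htot := aas_prob (ach_sum hμ x) g0 hc
    obtain ⟨h1, h2, h3⟩ := hg
    have hμ0 : ∀ o, 0 ≤ μ x o := ach_nonneg hμ x
    have hκ00 : ∀ o b, 0 ≤ κ o x b := fun o => ach_nonneg (hκA o) x
    have hga0 : (gR el ρ (row a0)).eval x = true := by
      rw [gR_eval]; exact fun a _ => h3 a
    have hmass0 : ‖Ψ x a0‖ ^ 2 ≤
        ∑ a, if (gR el ρ (row a)).eval x then ‖Ψ x a‖ ^ 2 else 0 := by
      have := Finset.single_le_sum (f := fun a => if (gR el ρ (row a)).eval x then
        ‖Ψ x a‖ ^ 2 else 0) (s := Finset.univ) (fun a _ => by (clear * -; positivity)) (Finset.mem_univ a0)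
      simpa only [ge_iff_le, hga0, ↓reduceIte] using this
    have hnone : μ x none ≤ (7 / 8) ^ m := by
      refine hn ?_
      calc (1 : ℝ) = (Fintype.card J : ℝ) / p0 * (p0 / Fintype.card J) := by
            field_simp
        _ ≤ _ := mul_le_mul hMp (h1.trans hmass0) (by positivity) (by positivity)
    have hmass : ∑ a, (if (gR el ρ (row a)).eval x then ‖Ψ x a‖ ^ 2 else 0) ≤
        3 / Fintype.card J := by
      calc ∑ a, (if (gR el ρ (row a)).eval x then ‖Ψ x a‖ ^ 2 else 0)
          = ∑ a, ∑ j ∈ RR el x ρ, (if row a = j then ‖Ψ x a‖ ^ 2 else 0) := by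
            refine Finset.sum_congr rfl fun a _ => ?_
            rw [Finset.sum_ite_eq]
            have : (row a ∈ RR el x ρ) ↔ (gR el ρ (row a)).eval x = true := by
              rw [gR_eval]; simp only [RR, Finset.mem_filter, Finset.mem_univ, true_and]
            simp only [this]
        _ = ∑ j ∈ RR el x ρ, ∑ a, (if row a = j then ‖Ψ x a‖ ^ 2 else 0) := Finset.sum_comm
        _ ≤ ∑ j ∈ RR el x ρ, 1 / (Fintype.card J : ℝ) :=
            Finset.sum_le_sum fun j _ => hrow x j
        _ = (RR el x ρ).card / (Fintype.card J : ℝ) := by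
            rw [Finset.sum_const, nsmul_eq_mul]; ring
        _ ≤ 3 / Fintype.card J := by
            gcongr
            exact_mod_cast hR
    have hκa0 : κ (some a0) x true = 1 := by
      rw [hκ1 (some a0) a0 rfl x]
      have h4 := ach_sum (hνA a0) x
      rw [Fintype.sum_option] at h4
      have h5 : ∑ c, ν a0 x (some c) = 0 :=
        Finset.sum_eq_zero fun c _ => (hνx a0 x).1 c (hv c)
      linarith only [h4, h5]
    have hμa0 : (1 - (7 / 8) ^ m) * (p0 / 3) ≤ μ x (some a0) := by
      rw [hc a0 hga0]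
      have h4 : 1 - (7 / 8 : ℝ) ^ m ≤ c * (3 / Fintype.card J) := by
        have := mul_le_mul_of_nonneg_left hmass hc0
        linarith only [htot, hnone, this]
      calc (1 - (7 / 8) ^ m) * (p0 / 3) ≤ (c * (3 / Fintype.card J)) * (p0 / 3) :=
            mul_le_mul_of_nonneg_right h4 (by positivity)
        _ = c * (p0 / Fintype.card J) := by ring
        _ ≤ c * ‖Ψ x a0‖ ^ 2 := mul_le_mul_of_nonneg_left h1 hc0
    calc _ ≤ μ x (some a0) * κ (some a0) x true := by rw [hκa0, mul_one]; exact hμa0
      _ ≤ ∑ o, μ x o * κ o x true :=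
        Finset.single_le_sum (f := fun o => μ x o * κ o x true)
          (fun o _ => mul_nonneg (hμ0 o) (hκ00 o true)) (Finset.mem_univ _)
  · have hμ0 : ∀ o, 0 ≤ μ x o := ach_nonneg hμ x
    have hμ1 : ∑ o, μ x o = 1 := ach_sum hμ x
    have hb : ∀ o, κ o x true ≤ (7 / 8) ^ m' := by
      intro o
      cases ho : o with
      | none => rw [hκ0 none rfl x]; positivity
      | some a =>
        rw [hκ1 (some a) a rfl x]
        refine (hνx a x).2.2 ?_
        obtain ⟨c, hc⟩ := hv a
        have hC : (0 : ℝ) < Fintype.card C := by exact_mod_cast Fintype.card_pos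
        have h5 : 1 / (Fintype.card C : ℝ) ≤ ∑ w, if (viol a w).eval x then
            ‖((1 / Real.sqrt (Fintype.card C) : ℝ) : ℂ)‖ ^ 2 else 0 := by
          have := Finset.single_le_sum (f := fun w => if (viol a w).eval x then
            ‖((1 / Real.sqrt (Fintype.card C) : ℝ) : ℂ)‖ ^ 2 else 0) (s := Finset.univ)
            (fun a _ => by (clear * -; positivity)) (Finset.mem_univ c)
          simp only [hc, if_true] at this
          rw [norm_uniform] at this ⊢
          exact this
        calc (1 : ℝ) = Fintype.card C * (1 / Fintype.card C) := by field_simp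
          _ ≤ _ := mul_le_mul hMC h5 (by positivity) (by positivity)
    calc ∑ o, μ x o * κ o x true ≤ ∑ o, μ x o * (7 / 8) ^ m' :=
          Finset.sum_le_sum fun o _ => mul_le_mul_of_nonneg_left (hb o) (hμ0 o)
      _ = (7 / 8) ^ m' := by rw [← Finset.sum_mul, hμ1, one_mul]

/-- the disjunction of `F` independent trials -/
theorem or_trials {T : ℕ} {β : (ι → Bool) → Bool → ℝ} (hβ : Ach T β) (F : ℕ) :
    ∃ γ : (ι → Bool) → Bool → ℝ, Ach (F * T) γ ∧ ∀ x, γ x false = (β x false) ^ F := by
  induction F with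
  | zero => exact ⟨_, by simpa using ach_pure (ι := ι) false, fun x => by simp⟩
  | succ F ih =>
    obtain ⟨γ, hγ, hγx⟩ := ih
    refine ⟨_, ach_mono (ach_bind hγ (fun b => ach_map hβ (fun b' => b || b')))
      (le_of_eq (by ring)), fun x => ?_⟩
    rw [Fintype.sum_bool]
    simp only [Fintype.sum_bool, Bool.true_or, Bool.false_or]
    simp [hγx, pow_succ]

end rounds

end Vale.Agent.P362.QM
end
end

section

section

/-! The elimination algorithm: final combination. -/

namespace Vale.Agent.P362.QM

theorem pow_bound (a : ℕ) : (7 / 8 : ℝ) ^ (7 * a) ≤ 1 / (1 + a) := by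
  have h1 : (1 : ℝ) + a ≤ (8 / 7) ^ (7 * a) := by
    have := one_add_mul_le_pow (a := (1 / 7 : ℝ)) (by norm_num) (7 * a)
    have h2 : (1 : ℝ) + (7 * a : ℕ) * (1 / 7) = 1 + a := by push_cast; ring
    rw [h2] at this
    refine this.trans (le_of_eq (by norm_num))
  have h3 : (0 : ℝ) < 1 + a := by positivity
  rw [le_div_iff₀ h3]
  calc (7 / 8 : ℝ) ^ (7 * a) * (1 + a) ≤ (7 / 8) ^ (7 * a) * (8 / 7) ^ (7 * a) :=
        mul_le_mul_of_nonneg_left h1 (by positivity)
    _ = 1 := by rw [← mul_pow]; norm_num

theorem one_sub_pow_bound (q : ℝ) (hq0 : 0 ≤ q) (hq1 : q ≤ 1) (F : ℕ) (h : 4 ≤ q * F) :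
    (1 - q) ^ F ≤ 1 / 4 := by
  have h1 : (1 : ℝ) + F * q ≤ (1 + q) ^ F := one_add_mul_le_pow (by linarith) F
  have h2 : (1 - q) ^ F * (1 + q) ^ F ≤ 1 := by
    rw [← mul_pow]
    refine pow_le_one₀ ?_ ?_ <;> nlinarith only [hq0, hq1]
  have h3 : 0 ≤ (1 - q) ^ F := pow_nonneg (by linarith) F
  have h4 : (1 - q) ^ F * 5 ≤ 1 := by
    refine le_trans (mul_le_mul_of_nonneg_left ?_ h3) h2
    linarith
  linarith only [h4]

theorem round_error (L : ℕ) (hL : 1 ≤ L) (a : ℝ) (ha0 : 0 ≤ a) (ha : a ≤ 2 ^ L) :
    (L : ℝ) * (a * (3 / 4) ^ (3 * (2 * L + 5)) + (7 / 8) ^ (7 * (24 * L))) ≤ 1 / 12 := by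
  have hL' : (1 : ℝ) ≤ L := by exact_mod_cast hL
  have h1 := pow_bound (24 * L)
  have h2 : (3 / 4 : ℝ) ^ (3 * (2 * L + 5)) ≤ (1 / 2) ^ (2 * L + 5) := by
    rw [pow_mul]
    refine pow_le_pow_left₀ (by norm_num) (by norm_num) _
  have h3 : (L : ℝ) ≤ 2 ^ L := by exact_mod_cast Nat.lt_two_pow_self.le
  have h4 : (L : ℝ) * (a * (3 / 4) ^ (3 * (2 * L + 5))) ≤ 1 / 32 := by
    calc (L : ℝ) * (a * (3 / 4) ^ (3 * (2 * L + 5))) ≤ 2 ^ L * (2 ^ L * (1 / 2) ^ (2 * L + 5)) := by
          gcongr
      _ = 1 / 32 := by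
          rw [pow_add, pow_mul, one_div, inv_pow, inv_pow]
          have : (2 : ℝ) ^ L ≠ 0 := by positivity
          rw [show ((2 : ℝ) ^ 2) = 2 * 2 by norm_num, mul_pow, mul_inv]
          field_simp
          norm_num
  have h5 : (L : ℝ) * (7 / 8) ^ (7 * (24 * L)) ≤ 1 / 24 := by
    calc (L : ℝ) * (7 / 8) ^ (7 * (24 * L)) ≤ L * (1 / (1 + (24 * L : ℕ))) := by gcongr
      _ ≤ 1 / 24 := by
        rw [mul_one_div, div_le_div_iff₀ (by positivity) (by norm_num)]
        push_cast
        linarith only []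
  rw [mul_add]
  linarith only [h4, h5]

variable {ι J A C : Type} [Fintype J] [Fintype A] [DecidableEq J] [DecidableEq A]
  [Fintype C] [DecidableEq C] [Nonempty C] [Nonempty J]

theorem trials {K : ℕ} (hAA : AAS K)
    (row : A → J) (el : A → J → DT ι) (viol : A → C → DT ι) (d T0 : ℕ)
    (hel : ∀ a j, (el a j).depth ≤ d) (hviol : ∀ a c, (viol a c).depth ≤ d)
    (Ψ : (ι → Bool) → A → ℂ) (hΨ : Prep T0 Ψ) (p0 : ℝ) (hp0 : 0 < p0)
    (hrow : ∀ x j, ∑ a, (if row a = j then ‖Ψ x a‖ ^ 2 else 0) ≤ 1 / Fintype.card J)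
    (L F M2 M3 : ℕ) (hF1 : 1 ≤ F) (hF : 24 ≤ p0 * F) (hM2 : 1 ≤ M2) (hM3 : 1 ≤ M3)
    (hMp : (Fintype.card J : ℝ) / p0 ≤ (M2 : ℝ) ^ 2)
    (hMC : (Fintype.card C : ℝ) ≤ (M3 : ℝ) ^ 2) (ρ : Finset A) (hρ : ρ.card ≤ L) :
    ∃ γ : (ι → Bool) → Bool → ℝ,
      Ach (F * (6 * (K * M2 * (T0 + L * d + 1)) + 7 * (3 * F) * (K * M3 * (0 + d + 1)))) γ ∧
      ∀ x, (∀ a0, GoodX row el Ψ p0 x a0 → (∀ c, (viol a0 c).eval x = false) →
          (RR el x ρ).card ≤ 3 → γ x false ≤ 1 / 4) ∧
        ((∀ a, ∃ c, (viol a c).eval x = true) → γ x true ≤ 1 / 3) := by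
  obtain ⟨β, hβ, hβx⟩ := trial hAA row el viol d T0 hel hviol Ψ hΨ p0 hp0 hrow L 6 (7 * (3 * F))
    M2 M3 hM2 hM3 hMp hMC ρ hρ
  obtain ⟨γ, hγ, hγx⟩ := or_trials hβ F
  refine ⟨γ, hγ, fun x => ⟨fun a0 hg hv hR => ?_, fun hv => ?_⟩⟩
  · have h1 := (hβx x).1 a0 hg hv hR
    have h2 := ach_sum hβ x
    rw [Fintype.sum_bool] at h2
    have h3 := ach_nonneg hβ x false
    have h4 : p0 / 6 ≤ β x true := by
      refine le_trans ?_ h1
      have : (7 / 8 : ℝ) ^ 6 ≤ 1 / 2 := by norm_num
      nlinarith only [hp0]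
    rw [hγx]
    calc β x false ^ F ≤ (1 - p0 / 6) ^ F := pow_le_pow_left₀ h3 (by linarith only [hp0, h1, h2]) F
      _ ≤ 1 / 4 := one_sub_pow_bound _ (by linarith only [hp0]) (by linarith only [h1, h2, h3]) F (by linarith only [hF])
  · have h1 := (hβx x).2 hv
    have h2 := ach_sum hβ x
    rw [Fintype.sum_bool] at h2
    have h3 := ach_nonneg hβ x false
    have h3' := ach_nonneg hβ x true
    have h4 := ach_sum hγ x
    rw [Fintype.sum_bool, hγx] at h4
    have h5 := pow_bound (3 * F)
    have h6 : (1 : ℝ) + F * (-(β x true)) ≤ (1 + -(β x true)) ^ F :=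
      one_add_mul_le_pow (by linarith only [h2, h3]) F
    have h7 : (1 : ℝ) + -(β x true) = β x false := by linarith only [h2]
    rw [h7] at h6
    have hF' : (1 : ℝ) ≤ F := by exact_mod_cast hF1
    have h8 : (F : ℝ) * β x true ≤ 1 / 3 := by
      calc (F : ℝ) * β x true ≤ F * (1 / (1 + (3 * F : ℕ))) :=
            mul_le_mul_of_nonneg_left (h1.trans h5) (by positivity)
        _ ≤ 1 / 3 := by
            rw [mul_one_div, div_le_div_iff₀ (by positivity) (by norm_num)]
            push_cast
            linarith only []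
    linarith only [h4, h6, h8]

theorem main_prob {K : ℕ} (hAA : AAS K)
    (row : A → J) (el : A → J → DT ι) (viol : A → C → DT ι) (d T0 : ℕ)
    (hel : ∀ a j, (el a j).depth ≤ d) (hviol : ∀ a c, (viol a c).depth ≤ d)
    (Ψ : (ι → Bool) → A → ℂ) (hΨ : Prep T0 Ψ) (p0 : ℝ) (hp0 : 0 < p0)
    (hrow : ∀ x j, ∑ a, (if row a = j then ‖Ψ x a‖ ^ 2 else 0) ≤ 1 / Fintype.card J)
    (f : (ι → Bool) → Bool)
    (L F M1 M2 M3 : ℕ) (hL : 1 ≤ L) (hJL : Fintype.card J ≤ 2 ^ L) (hAL : Fintype.card A ≤ 2 ^ L)
    (hF1 : 1 ≤ F) (hF : 24 ≤ p0 * F) (hM1 : 1 ≤ M1) (hM2 : 1 ≤ M2) (hM3 : 1 ≤ M3)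
    (hMJ : (Fintype.card J : ℝ) ≤ (M1 : ℝ) ^ 2)
    (hMp : (Fintype.card J : ℝ) / p0 ≤ (M2 : ℝ) ^ 2)
    (hMC : (Fintype.card C : ℝ) ≤ (M3 : ℝ) ^ 2)
    (hf1 : ∀ x, f x = true → ∃ a, p0 / Fintype.card J ≤ ‖Ψ x a‖ ^ 2 ∧
        (∀ c, (viol a c).eval x = false) ∧ (∀ j, j ≠ row a → (el a j).eval x = true) ∧
        (∀ a', (el a' (row a)).eval x = false))
    (hf0 : ∀ x, f x = false → ∀ a, ∃ c, (viol a c).eval x = true) :
    ∃ μ : (ι → Bool) → Bool → ℝ,
      Ach (L * (3 * (2 * L + 5) * (11 * (K * M1 * (0 + L * d + 1))) +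
          7 * (24 * L) * (K * M2 * (T0 + (L + 3 * (2 * L + 5)) * d + 1))) +
        F * (6 * (K * M2 * (T0 + L * d + 1)) + 7 * (3 * F) * (K * M3 * (0 + d + 1)))) μ ∧
      ∀ x, 2 / 3 ≤ μ x (f x) := by
  classical
  obtain ⟨τ, hτ, hτx⟩ := rounds hAA row el d T0 hel Ψ hΨ p0 hp0 L (3 * (2 * L + 5))
    (7 * (24 * L)) M1 M2 hM1 hM2 hMJ hMp L le_rfl
  have hγ : ∀ ρ : Finset A, ∃ γ : (ι → Bool) → Bool → ℝ,
      Ach (F * (6 * (K * M2 * (T0 + L * d + 1)) + 7 * (3 * F) * (K * M3 * (0 + d + 1)))) γ ∧
      (ρ.card ≤ L → ∀ x, (∀ a0, GoodX row el Ψ p0 x a0 → (∀ c, (viol a0 c).eval x = false) →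
          (RR el x ρ).card ≤ 3 → γ x false ≤ 1 / 4) ∧
        ((∀ a, ∃ c, (viol a c).eval x = true) → γ x true ≤ 1 / 3)) := by
    intro ρ
    by_cases hρ : ρ.card ≤ L
    · obtain ⟨γ, h1, h2⟩ := trials hAA row el viol d T0 hel hviol Ψ hΨ p0 hp0 hrow L F M2 M3
        hF1 hF hM2 hM3 hMp hMC ρ hρ
      exact ⟨γ, h1, fun _ => h2⟩
    · exact ⟨_, ach_mono (ach_pure false) (Nat.zero_le _), fun h => absurd h hρ⟩
  choose γ hγA hγx using hγ
  have hμ := ach_bind hτ hγA
  refine ⟨_, hμ, fun x => ?_⟩
  have hτ0 : ∀ ρ, 0 ≤ τ x ρ := ach_nonneg hτ x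
  have hτ1 : ∑ ρ, τ x ρ = 1 := ach_sum hτ x
  have hγ0 : ∀ ρ b, 0 ≤ γ ρ x b := fun ρ => ach_nonneg (hγA ρ) x
  have hγ1 : ∀ ρ, γ ρ x true + γ ρ x false = 1 := fun ρ => by
    have := ach_sum (hγA ρ) x
    rwa [Fintype.sum_bool] at this
  have htot := ach_sum hμ x
  rw [Fintype.sum_bool] at htot
  cases hfx : f x with
  | true =>
    obtain ⟨a0, h1, h2, h3, h4⟩ := hf1 x hfx
    have hg : GoodX row el Ψ p0 x a0 := ⟨h1, h3, h4⟩
    have h5 := (hτx x).2 ⟨a0, hg⟩
    have h6 := round_error L hL (Fintype.card A) (by (clear * -; positivity)) (by exact_mod_cast hAL)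
    have h7 : ∑ ρ, τ x ρ * γ ρ x false ≤ 1 / 3 := by
      calc ∑ ρ, τ x ρ * γ ρ x false
          ≤ ∑ ρ, τ x ρ * ((if 2 ^ L * (RR el x ρ).card ≤ Fintype.card J + 2 * 2 ^ L then 0
              else 1) + 1 / 4) := by
            refine Finset.sum_le_sum fun ρ _ => ?_
            by_cases hρ0 : τ x ρ = 0
            · simp only [hρ0, zero_mul, one_div, Std.le_refl]
            refine mul_le_mul_of_nonneg_left ?_ (hτ0 ρ)
            have hρ := (hτx x).1 ρ hρ0
            by_cases hb : 2 ^ L * (RR el x ρ).card ≤ Fintype.card J + 2 * 2 ^ L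
            · rw [if_pos hb, zero_add]
              refine ((hγx ρ hρ) x).1 a0 hg h2 ?_
              have h8 : 2 ^ L * (RR el x ρ).card ≤ 2 ^ L * 3 := by omega
              exact Nat.le_of_mul_le_mul_left h8 (by positivity)
            · rw [if_neg hb]
              have h8 := hγ1 ρ
              have h9 := hγ0 ρ true
              linarith only [h8, h9]
        _ = (∑ ρ, τ x ρ * (if 2 ^ L * (RR el x ρ).card ≤ Fintype.card J + 2 * 2 ^ L then 0
              else 1)) + 1 / 4 := by
            simp only [mul_add, Finset.sum_add_distrib, ← Finset.sum_mul, hτ1, one_mul]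
        _ ≤ 1 / 12 + 1 / 4 := add_le_add (h5.trans h6) le_rfl
        _ = 1 / 3 := by norm_num
    linarith only [htot, h7]
  | false =>
    have h5 := hf0 x hfx
    have h7 : ∑ ρ, τ x ρ * γ ρ x true ≤ 1 / 3 := by
      calc ∑ ρ, τ x ρ * γ ρ x true ≤ ∑ ρ, τ x ρ * (1 / 3) := by
            refine Finset.sum_le_sum fun ρ _ => ?_
            by_cases hρ0 : τ x ρ = 0
            · simp [hρ0]
            refine mul_le_mul_of_nonneg_left ?_ (hτ0 ρ)
            exact ((hγx ρ ((hτx x).1 ρ hρ0)) x).2 h5
        _ = 1 / 3 := by rw [← Finset.sum_mul, hτ1, one_mul]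
    linarith only [htot, h7]

/-- `⌈√a⌉` -/
theorem ceil_sqrt_sq (a : ℝ) : a ≤ ((⌈Real.sqrt a⌉₊ : ℕ) : ℝ) ^ 2 := by
  rcases le_total a 0 with ha | ha
  · exact ha.trans (by positivity)
  · calc a = Real.sqrt a ^ 2 := (Real.sq_sqrt ha).symm
      _ ≤ _ := pow_le_pow_left₀ (Real.sqrt_nonneg _) (Nat.le_ceil _) 2

theorem ceil_le_two (y Y : ℝ) (h0 : 0 ≤ y) (hy : y ≤ Y) (hY : 1 ≤ Y) : ((⌈y⌉₊ : ℕ) : ℝ) ≤ 2 * Y := by
  have := Nat.ceil_lt_add_one h0
  linarith

/-- cost arithmetic -/
theorem cost_bound (K T0 d L F M1 M2 M3 : ℕ) (Y B : ℝ) (hL : 1 ≤ L) (hF : 1 ≤ F) (hY : 1 ≤ Y)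
    (hB : 1 ≤ B) (h1 : (M1 : ℝ) ≤ B * Y) (h2 : (M2 : ℝ) ≤ B * Y) (h3 : (M3 : ℝ) ≤ B * Y) :
    ((L * (3 * (2 * L + 5) * (11 * (K * M1 * (0 + L * d + 1))) +
          7 * (24 * L) * (K * M2 * (T0 + (L + 3 * (2 * L + 5)) * d + 1))) +
        F * (6 * (K * M2 * (T0 + L * d + 1)) + 7 * (3 * F) * (K * M3 * (0 + d + 1))) : ℕ) : ℝ) ≤
      (10000 * K * F ^ 2 * B) * ((T0 + d + L : ℕ) : ℝ) ^ 4 * Y := by
  set X : ℝ := ((T0 + d + L : ℕ) : ℝ) with hX
  have hT0 : (T0 : ℝ) ≤ X := by rw [hX]; push_cast; linarith only []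
  have hd : (d : ℝ) ≤ X := by rw [hX]; push_cast; linarith only []
  have hLX : (L : ℝ) ≤ X := by rw [hX]; push_cast; linarith only []
  have hL1 : (1 : ℝ) ≤ L := by exact_mod_cast hL
  have hX1 : 1 ≤ X := hL1.trans hLX
  have hF1 : (1 : ℝ) ≤ F := by exact_mod_cast hF
  have hX2 : X ≤ X ^ 2 := by nlinarith only [hLX, hL1]
  have hX21 : 1 ≤ X ^ 2 := by nlinarith only [hLX, hL1]
  have hX24 : X ^ 2 ≤ X ^ 4 := by nlinarith only [hLX, hL1, sq_nonneg (X ^ 2 - X)]
  have hX4 : X ≤ X ^ 4 := hX2.trans hX24
  have hX41 : 1 ≤ X ^ 4 := hX21.trans hX24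
  have e1 : (3 * (2 * L + 5) : ℝ) ≤ 21 * X := by nlinarith only [hLX, hL1]
  have e2 : (0 + L * d + 1 : ℝ) ≤ 2 * X ^ 2 := by
    have : (L : ℝ) * d ≤ X * X := mul_le_mul hLX hd (by (clear * -; positivity)) (by positivity)
    linarith
  have e3 : (T0 + (L + 3 * (2 * L + 5)) * d + 1 : ℝ) ≤ 24 * X ^ 2 := by
    have : ((L : ℝ) + 3 * (2 * L + 5)) * d ≤ (22 * X) * X :=
      mul_le_mul (by linarith only [hLX, hL1]) hd (by (clear * -; positivity)) (by positivity)
    linarith
  have e4 : (T0 + L * d + 1 : ℝ) ≤ 3 * X ^ 2 := by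
    have : (L : ℝ) * d ≤ X * X := mul_le_mul hLX hd (by (clear * -; positivity)) (by positivity)
    linarith
  have e5 : (0 + d + 1 : ℝ) ≤ 2 * X := by linarith only [hd, hLX, hL1]
  have hK : (0 : ℝ) ≤ K := Nat.cast_nonneg K
  have hBY : 0 ≤ B * Y := by positivity
  push_cast
  calc (L * (3 * (2 * L + 5) * (11 * (K * M1 * (0 + L * d + 1))) +
          7 * (24 * L) * (K * M2 * (T0 + (L + 3 * (2 * L + 5)) * d + 1))) +
        F * (6 * (K * M2 * (T0 + L * d + 1)) + 7 * (3 * F) * (K * M3 * (0 + d + 1))) : ℝ)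
      ≤ X * ((21 * X) * (11 * (K * (B * Y) * (2 * X ^ 2))) +
          7 * (24 * X) * (K * (B * Y) * (24 * X ^ 2))) +
        F * (6 * (K * (B * Y) * (3 * X ^ 2)) + 7 * (3 * F) * (K * (B * Y) * (2 * X))) := by
        (clear * - hLX e1 h1 e2 hL hB hY h2 e3 e4 h3 e5 hF; gcongr)
    _ = (K * B * Y) * (4494 * X ^ 4 + 18 * F * X ^ 2 + 42 * F ^ 2 * X) := by ring
    _ ≤ (K * B * Y) * (10000 * F ^ 2 * X ^ 4) := by
        refine mul_le_mul_of_nonneg_left ?_ (by (clear * - hB hY; positivity))
        have hF2 : (1 : ℝ) ≤ (F : ℝ) ^ 2 := by nlinarith only [hF1]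
        have hFF : (F : ℝ) ≤ (F : ℝ) ^ 2 := by nlinarith only [hF1]
        have g1 : X ^ 4 ≤ (F : ℝ) ^ 2 * X ^ 4 := le_mul_of_one_le_left (by positivity) hF2
        have g2 : (F : ℝ) * X ^ 2 ≤ (F : ℝ) ^ 2 * X ^ 4 :=
          mul_le_mul hFF hX24 (by positivity) (by positivity)
        have g3 : (F : ℝ) ^ 2 * X ≤ (F : ℝ) ^ 2 * X ^ 4 :=
          mul_le_mul_of_nonneg_left hX4 (by positivity)
        nlinarith only [g1, g2, g3]
    _ = (10000 * K * F ^ 2 * B) * X ^ 4 * Y := by ring

end Vale.Agent.P362.QM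

namespace Vale.Agent.P362

open QM

theorem quantum_main (p0 : ℝ) (hp0 : 0 < p0) : ∃ (K : ℝ) (c : ℕ),
    ∀ (ι J A C : Type) [Fintype ι] [DecidableEq ι] [Fintype J] [DecidableEq J] [Nonempty J]
      [Fintype A] [DecidableEq A] [Fintype C] [DecidableEq C] [Nonempty C]
      (row : A → J) (el : A → J → DT ι) (viol : A → C → DT ι) (d T0 L : ℕ)
      (Ψ : (ι → Bool) → A → ℂ) (f : (ι → Bool) → Bool),
      1 ≤ L → Fintype.card J ≤ 2 ^ L → Fintype.card A ≤ 2 ^ L → Fintype.card C ≤ 2 ^ L →
      (∀ a j, (el a j).depth ≤ d) → (∀ a c, (viol a c).depth ≤ d) →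
      Prep T0 Ψ →
      (∀ x j, ∑ a, (if row a = j then ‖Ψ x a‖ ^ 2 else 0) ≤ 1 / Fintype.card J) →
      (∀ x, f x = true → ∃ a, p0 / Fintype.card J ≤ ‖Ψ x a‖ ^ 2 ∧
        (∀ c, (viol a c).eval x = false) ∧ (∀ j, j ≠ row a → (el a j).eval x = true) ∧
        (∀ a', (el a' (row a)).eval x = false)) →
      (∀ x, f x = false → ∀ a, ∃ c, (viol a c).eval x = true) →
      ∃ (T : ℕ) (μ : (ι → Bool) → Bool → ℝ), Ach T μ ∧ (∀ x, 2 / 3 ≤ μ x (f x)) ∧
        (T : ℝ) ≤ K * ((T0 + d + L : ℕ) : ℝ) ^ c *
          Real.sqrt ((Fintype.card J : ℝ) + (Fintype.card C : ℝ)) := by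
  obtain ⟨K, hAA⟩ := exists_AAS
  set F : ℕ := ⌈24 / p0⌉₊ with hF
  have hF1 : 1 ≤ F := Nat.ceil_pos.2 (by positivity)
  have hF2 : 24 ≤ p0 * F := by
    have := Nat.le_ceil (24 / p0)
    rw [div_le_iff₀ hp0] at this
    rw [hF]
    linarith only [this]
  refine ⟨10000 * K * F ^ 2 * (2 + 2 * (1 + 1 / Real.sqrt p0)), 4, ?_⟩
  intro ι J A C _ _ _ _ _ _ _ _ _ _ row el viol d T0 L Ψ f hL hJL hAL hCL hel hviol hΨ hrow
    hf1 hf0
  set Y : ℝ := Real.sqrt ((Fintype.card J : ℝ) + (Fintype.card C : ℝ)) with hY
  have hJ1 : (1 : ℝ) ≤ Fintype.card J := by exact_mod_cast Fintype.card_pos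
  have hC1 : (1 : ℝ) ≤ Fintype.card C := by exact_mod_cast Fintype.card_pos
  have hJY : Real.sqrt (Fintype.card J) ≤ Y := Real.sqrt_le_sqrt (by linarith only [])
  have hCY : Real.sqrt (Fintype.card C) ≤ Y := Real.sqrt_le_sqrt (by linarith only [])
  have hY1 : 1 ≤ Y := by
    refine le_trans ?_ hJY
    rw [← Real.sqrt_one]
    exact Real.sqrt_le_sqrt hJ1
  have hs0 : 0 < Real.sqrt p0 := Real.sqrt_pos.2 hp0
  have hsJ : 0 < Real.sqrt ((Fintype.card J : ℝ) / p0) := Real.sqrt_pos.2 (by (clear K hAA F hF hF1 hF2 row el viol d T0 L Ψ f hL hJL hAL hCL hel hviol hΨ hrow hf1 hf0 Y hY hJ1 hC1 hJY hCY hY1 hs0; positivity))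
  have hb0 : 0 < 1 / Real.sqrt p0 := by positivity
  obtain ⟨μ, hμ, hμx⟩ := main_prob hAA row el viol d T0 hel hviol Ψ hΨ p0 hp0 hrow f L F
    ⌈Real.sqrt (Fintype.card J)⌉₊ ⌈Real.sqrt ((Fintype.card J : ℝ) / p0)⌉₊
    ⌈Real.sqrt (Fintype.card C)⌉₊ hL hJL hAL hF1 hF2
    (Nat.ceil_pos.2 (Real.sqrt_pos.2 (by linarith only [hJ1]))) (Nat.ceil_pos.2 hsJ)
    (Nat.ceil_pos.2 (Real.sqrt_pos.2 (by linarith only [hC1])))
    (ceil_sqrt_sq _) (ceil_sqrt_sq _) (ceil_sqrt_sq _) hf1 hf0
  refine ⟨_, μ, hμ, hμx, ?_⟩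
  refine cost_bound K T0 d L F _ _ _ Y (2 + 2 * (1 + 1 / Real.sqrt p0)) hL hF1 hY1
    (by linarith only [hb0]) ?_ ?_ ?_
  · have := ceil_le_two _ Y (Real.sqrt_nonneg _) hJY hY1
    nlinarith only [hb0, this]
  · have h1 : Real.sqrt ((Fintype.card J : ℝ) / p0) ≤ (1 + 1 / Real.sqrt p0) * Y := by
      rw [Real.sqrt_div (by linarith only [])]
      calc Real.sqrt (Fintype.card J) / Real.sqrt p0 ≤ Y / Real.sqrt p0 := by (clear * - hJY hp0; gcongr)
        _ = 1 / Real.sqrt p0 * Y := by ring
        _ ≤ _ := by nlinarith only [hY1]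
    have := ceil_le_two _ ((1 + 1 / Real.sqrt p0) * Y) (Real.sqrt_nonneg _) h1 (by nlinarith only [hY1, hb0])
    nlinarith only [hY1, this]
  · have := ceil_le_two _ Y (Real.sqrt_nonneg _) hCY hY1
    nlinarith only [hb0, this]

end Vale.Agent.P362
end
end

section

section

/-!
# Decision trees for the local checks of the hard function
-/

namespace Vale.Agent.P362

namespace RdAux

/-- `g` can be read off adaptively with at most `d` queries (continuation form). -/
def Rd {ι α : Type} (d : ℕ) (g : (ι → Bool) → α) : Prop :=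
  ∀ (e : ℕ) (k : α → DT ι), (∀ a, (k a).depth ≤ e) →
    ∃ t : DT ι, t.depth ≤ d + e ∧ ∀ x, t.eval x = (k (g x)).eval x

variable {ι α β : Type}

theorem Rd.mono {d d' : ℕ} {g : (ι → Bool) → α} (h : Rd d g) (hd : d ≤ d') : Rd d' g := by
  intro e k hk
  obtain ⟨t, ht, hx⟩ := h e k hk
  exact ⟨t, by omega, hx⟩

theorem Rd.const (a : α) : Rd 0 (fun _ : ι → Bool => a) := by
  intro e k hk
  exact ⟨k a, by have := hk a; omega, fun _ => rfl⟩

theorem Rd.bit (i : ι) : Rd 1 (fun x : ι → Bool => x i) := by
  intro e k hk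
  refine ⟨DT.node i (k false) (k true), ?_, ?_⟩
  · rw [DT.depth_node]
    have h0 := hk false
    have h1 := hk true
    omega
  · intro x
    rw [DT.eval_node]
    show (if x i then (k true).eval x else (k false).eval x) = (k (x i)).eval x
    by_cases h : x i = true
    · rw [h, if_pos rfl]
    · rw [Bool.not_eq_true] at h
      rw [h]
      simp

theorem Rd.bind {d d' : ℕ} {g : (ι → Bool) → α} {h : α → (ι → Bool) → β} (hg : Rd d g)
    (hh : ∀ a, Rd d' (h a)) : Rd (d + d') (fun x => h (g x) x) := by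
  intro e k hk
  choose t ht hx using fun a => hh a e k hk
  obtain ⟨s, hs, hsx⟩ := hg (d' + e) t ht
  refine ⟨s, by omega, fun x => ?_⟩
  rw [hsx x, hx (g x) x]

theorem Rd.map {d : ℕ} {g : (ι → Bool) → α} (hg : Rd d g) (f : α → β) :
    Rd d (fun x => f (g x)) := by
  intro e k hk
  exact hg e (fun a => k (f a)) (fun a => hk (f a))

theorem Rd.pair {d d' : ℕ} {g : (ι → Bool) → α} {h : (ι → Bool) → β} (hg : Rd d g)
    (hh : Rd d' h) : Rd (d + d') (fun x => (g x, h x)) :=
  Rd.bind (h := fun a x => (a, h x)) hg (fun a => hh.map (fun b => (a, b)))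

theorem Rd.pi {m : ℕ} (p : Fin m → ι) : Rd m (fun (x : ι → Bool) (c : Fin m) => x (p c)) := by
  induction m with
  | zero =>
    have h : (fun (x : ι → Bool) (c : Fin 0) => x (p c)) = fun _ => Fin.elim0 := by
      funext x c
      exact c.elim0
    rw [h]
    exact Rd.const _
  | succ m ih =>
    have h := ((Rd.bit (p 0)).pair (ih (fun c => p c.succ))).map
      (fun ab => (Fin.cons ab.1 ab.2 : Fin (m + 1) → Bool))
    have h2 : (fun x : ι → Bool => (Fin.cons (x (p 0)) (fun c : Fin m => x (p c.succ)) :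
        Fin (m + 1) → Bool)) = fun x c => x (p c) := by
      funext x c
      refine Fin.cases ?_ (fun c' => ?_) c
      · rw [Fin.cons_zero]
      · rw [Fin.cons_succ]
    rw [← h2]
    exact h.mono (by omega)

theorem Rd.toDT {d : ℕ} {g : (ι → Bool) → Bool} (hg : Rd d g) :
    ∃ t : DT ι, t.depth ≤ d ∧ ∀ x, t.eval x = g x := by
  obtain ⟨t, ht, hx⟩ := hg 0 (fun b => DT.leaf b) (fun b => le_rfl)
  exact ⟨t, by omega, fun x => by rw [hx x, DT.eval_leaf]⟩

end RdAux

open RdAux

variable {k n w : ℕ}

theorem rd_trv (j l : Idx n) (s : Fin (k + 1)) (t : Fin (n + 1)) (z : Idx n) :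
    Rd w (fun x : Pos k n w → Bool => trv x j l s t z) :=
  (Rd.pi (fun c : Fin w => Pos.tr j l s t z c)).map decZ

theorem rd_ptrv (j l j' : Idx n) : Rd n (fun x : Pos k n w → Bool => ptrv x j l j') :=
  Rd.pi (fun c : Fin n => Pos.ptr j l j' c)

theorem rd_target (j l j' : Idx n) :
    Rd (n + 1) (fun x : Pos k n w → Bool => x (.bit j' (ptrv x j l j'))) :=
  Rd.bind (h := fun y x => x (Pos.bit j' y)) (rd_ptrv j l j') (fun y => Rd.bit (Pos.bit j' y))

theorem exists_elim (k n w : ℕ) : ∃ el : Idx n × Idx n → Idx n → DT (Pos k n w),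
    (∀ a j', (el a j').depth ≤ n + 1) ∧
    ∀ a j' x, (el a j').eval x = true ↔ j' ≠ a.1 ∧ x (.bit j' (ptrv x a.1 a.2 j')) = false := by
  have h : ∀ (a : Idx n × Idx n) (j' : Idx n), ∃ t : DT (Pos k n w), t.depth ≤ n + 1 ∧
      ∀ x, t.eval x = (decide (j' ≠ a.1) && !(x (.bit j' (ptrv x a.1 a.2 j')))) := by
    intro a j'
    exact ((rd_target a.1 a.2 j').map (fun b => decide (j' ≠ a.1) && !b)).toDT
  choose el hd he using h
  refine ⟨el, hd, fun a j' x => ?_⟩
  rw [he a j' x]
  simp

theorem exists_viol (k n w : ℕ) (θ : ℤ) : ∃ viol : Idx n × Idx n → Chk k n → DT (Pos k n w),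
    (∀ a c, (viol a c).depth ≤ 3 * w + n + 2) ∧
    ∀ a c x, (viol a c).eval x = true ↔ ¬ okC θ x a c := by
  have h : ∀ (a : Idx n × Idx n) (c : Chk k n), ∃ t : DT (Pos k n w),
      t.depth ≤ 3 * w + n + 2 ∧ ∀ x, t.eval x = true ↔ ¬ okC θ x a c := by
    intro a c
    cases c with
    | own i =>
      obtain ⟨t, ht, hx⟩ := ((Rd.bit (Pos.bit a.1 i : Pos k n w)).map (fun b => !b)).toDT
      refine ⟨t, by omega, fun x => ?_⟩
      rw [hx x, okC]
      simp
    | claim j' =>
      obtain ⟨t, ht, hx⟩ := ((rd_target (k := k) (w := w) a.1 a.2 j').map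
        (fun b => decide (j' ≠ a.1) && b)).toDT
      refine ⟨t, by omega, fun x => ?_⟩
      rw [hx x, okC]
      simp
    | ini s z =>
      have hprev : Rd w (fun x : Pos k n w → Bool => Fin.cases (motive := fun _ => ℤ) 1
          (fun s' : Fin k => trv x a.1 a.2 s'.castSucc (Fin.last n) z) s) := by
        refine Fin.cases ?_ (fun s' => ?_) s
        · exact (Rd.const (ι := Pos k n w) (1 : ℤ)).mono (Nat.zero_le _)
        · exact rd_trv a.1 a.2 s'.castSucc (Fin.last n) z
      obtain ⟨t, ht, hx⟩ := (((rd_trv (k := k) (w := w) a.1 a.2 s 0 z).pair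
        ((Rd.bit (Pos.dat a.1 s z : Pos k n w)).pair hprev)).map
        (fun v : ℤ × Bool × ℤ => decide (¬ (v.1 = sgZ v.2.1 * v.2.2)))).toDT
      refine ⟨t, by omega, fun x => ?_⟩
      rw [hx x, okC, decide_eq_true_iff]
    | gate s t z =>
      obtain ⟨t', ht, hx⟩ := (((rd_trv (k := k) (w := w) a.1 a.2 s t.succ z).pair
        ((rd_trv (k := k) (w := w) a.1 a.2 s t.castSucc (Function.update z t false)).pair
        (rd_trv (k := k) (w := w) a.1 a.2 s t.castSucc (Function.update z t true)))).map
        (fun v : ℤ × ℤ × ℤ => decide (¬ (v.1 = v.2.1 + (if z t then -1 else 1) * v.2.2)))).toDT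
      refine ⟨t', by omega, fun x => ?_⟩
      rw [hx x, okC, decide_eq_true_iff]
    | fin =>
      obtain ⟨t, ht, hx⟩ := ((rd_trv (k := k) (w := w) a.1 a.2 (Fin.last k) (Fin.last n) a.2).map
        (fun v : ℤ => decide (¬ (θ ≤ v)))).toDT
      refine ⟨t, by omega, fun x => ?_⟩
      rw [hx x, okC, decide_eq_true_iff]
  choose viol hd he using h
  exact ⟨viol, hd, he⟩

end Vale.Agent.P362
end
end

section

section

/-! Quantum upper bound for the hard function. -/

namespace Vale.Agent.P362

open Forr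

theorem card_Idx (n : ℕ) : Fintype.card (Idx n) = 2 ^ n := by
  simp only [Idx, Fintype.card_pi, Fintype.card_bool, Finset.prod_const, Finset.card_univ, Fintype.card_fin]

theorem card_Chk (k n : ℕ) : Fintype.card (Chk k n) =
    2 ^ n + 2 ^ n + ((k + 1) * 2 ^ n + ((k + 1) * (n * 2 ^ n) + 1)) := by
  rw [← Fintype.card_congr (Chk.equiv k n)]
  simp only [Fintype.card_sum, Fintype.card_pi, Fintype.card_bool, Finset.prod_const, Finset.card_univ, Fintype.card_fin, Fintype.card_prod, Fintype.card_unique, Nat.add_left_cancel_iff]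

theorem card_Chk_le (k n : ℕ) (hn : 1 ≤ n) :
    Fintype.card (Chk k n) ≤ (2 * k + 5) * n * 2 ^ n := by
  rw [card_Chk]
  have h1 : 1 ≤ 2 ^ n := Nat.one_le_two_pow
  have h2 : 2 ^ n ≤ n * 2 ^ n := Nat.le_mul_of_pos_left _ hn
  nlinarith only [h1, h2]

theorem mul_le_two_pow (a n : ℕ) : a * n ≤ 2 ^ (a * n) := Nat.lt_two_pow_self.le

theorem qUp_core (k : ℕ) (K : ℝ) (c : ℕ)
    (hK : ∀ (n w : ℕ) (θ : ℤ) (T0 d L : ℕ), 1 ≤ n →
      (1 / 32 : ℝ) ^ k / 2 * Real.sqrt (2 ^ n) ^ (k + 2) ≤ θ →
      1 ≤ L → 2 ^ n ≤ 2 ^ L → 2 ^ n * 2 ^ n ≤ 2 ^ L → Fintype.card (Chk k n) ≤ 2 ^ L →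
      n + 1 ≤ d → 3 * w + n + 2 ≤ d → T0 = k + 1 →
      ∃ T : ℕ, QuantComputes (ff k n w θ) T ∧
        (T : ℝ) ≤ K * ((T0 + d + L : ℕ) : ℝ) ^ c *
          Real.sqrt ((2 ^ n : ℝ) + (Fintype.card (Chk k n) : ℝ))) :
    ∃ (K : ℝ) (c : ℕ), ∀ (n : ℕ) (θ : ℤ), 1 ≤ n →
    (1 / 32 : ℝ) ^ k / 2 * Real.sqrt (2 ^ n) ^ (k + 2) ≤ θ →
    ∃ T : ℕ, QuantComputes (ff k n ((k + 1) * n + 2) θ) T ∧
      (T : ℝ) ≤ K * (n : ℝ) ^ c * Real.sqrt (2 ^ n) := by
  classical
  refine ⟨|K| * ((7 * k + 20 : ℕ) : ℝ) ^ c * (2 * k + 6), c + 1, fun n θ hn hθ => ?_⟩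
  obtain ⟨T, hT, hTle⟩ := hK n ((k + 1) * n + 2) θ (k + 1) (3 * ((k + 1) * n + 2) + n + 2)
    ((2 * k + 7) * n) hn hθ (by nlinarith only [hn]) (Nat.pow_le_pow_right (by norm_num) (by nlinarith only []))
    (by rw [← pow_add]; exact Nat.pow_le_pow_right (by norm_num) (by nlinarith only []))
    (by
      refine (card_Chk_le k n hn).trans ?_
      calc (2 * k + 5) * n * 2 ^ n ≤ 2 ^ ((2 * k + 5) * n) * 2 ^ n :=
            Nat.mul_le_mul_right _ (mul_le_two_pow _ _)
        _ = 2 ^ ((2 * k + 5) * n + n) := (pow_add _ _ _).symm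
        _ ≤ 2 ^ ((2 * k + 7) * n) := Nat.pow_le_pow_right (by norm_num) (by nlinarith only []))
    (by nlinarith only []) le_rfl rfl
  refine ⟨T, hT, hTle.trans ?_⟩
  have hn' : (1 : ℝ) ≤ n := by exact_mod_cast hn
  have h1 : ((k + 1 + (3 * ((k + 1) * n + 2) + n + 2) + (2 * k + 7) * n : ℕ) : ℝ) ≤
      ((7 * k + 20 : ℕ) : ℝ) * n := by
    have : k + 1 + (3 * ((k + 1) * n + 2) + n + 2) + (2 * k + 7) * n ≤ (7 * k + 20) * n := by
      nlinarith only [hn]
    exact_mod_cast this
  have h2 : Real.sqrt ((2 ^ n : ℝ) + (Fintype.card (Chk k n) : ℝ)) ≤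
      (2 * k + 6) * n * Real.sqrt (2 ^ n) := by
    have h3 : (2 ^ n : ℝ) + (Fintype.card (Chk k n) : ℝ) ≤ ((2 * k + 6) * n) ^ 2 * 2 ^ n := by
      have h4 : (Fintype.card (Chk k n) : ℝ) ≤ (2 * k + 5) * n * 2 ^ n := by
        exact_mod_cast card_Chk_le k n hn
      have h5 : (2 ^ n : ℝ) ≤ n * 2 ^ n := le_mul_of_one_le_left (by positivity) hn'
      have h6 : (2 ^ n : ℝ) + (Fintype.card (Chk k n) : ℝ) ≤ ((2 * k + 6) * n) * 2 ^ n := by
        nlinarith only [h4, h5]
      refine h6.trans (mul_le_mul_of_nonneg_right ?_ (by positivity))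
      have h7 : (1 : ℝ) ≤ (2 * k + 6) * n := by
        have : (0 : ℝ) ≤ k := Nat.cast_nonneg k
        nlinarith only [hn']
      nlinarith only [h7]
    calc Real.sqrt ((2 ^ n : ℝ) + (Fintype.card (Chk k n) : ℝ))
        ≤ Real.sqrt (((2 * k + 6) * n) ^ 2 * 2 ^ n) := Real.sqrt_le_sqrt h3
      _ = (2 * k + 6) * n * Real.sqrt (2 ^ n) := by
        rw [Real.sqrt_mul (by (clear * - hn; positivity)), Real.sqrt_sq (by positivity)]
  calc K * ((k + 1 + (3 * ((k + 1) * n + 2) + n + 2) + (2 * k + 7) * n : ℕ) : ℝ) ^ c *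
          Real.sqrt ((2 ^ n : ℝ) + (Fintype.card (Chk k n) : ℝ))
      ≤ |K| * (((7 * k + 20 : ℕ) : ℝ) * n) ^ c * ((2 * k + 6) * n * Real.sqrt (2 ^ n)) := by
        gcongr
        exact le_abs_self K
    _ = |K| * ((7 * k + 20 : ℕ) : ℝ) ^ c * (2 * k + 6) * (n : ℝ) ^ (c + 1) *
        Real.sqrt (2 ^ n) := by
        rw [mul_pow, pow_succ]; ring

/-- the amplitude of a valid cell is large -/
theorem Amp_ge_of_valid {k n w : ℕ} {θ : ℤ}
    (hθ : (1 / 32 : ℝ) ^ k / 2 * Real.sqrt (2 ^ n) ^ (k + 2) ≤ θ)
    {x : Pos k n w → Bool} {a : Idx n × Idx n} (h : Valid θ x a) :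
    (1 / 32 : ℝ) ^ k / 2 ≤ Amp (rowD x a.1) a.2 := by
  have h1 := amp_ge_of_valid h
  have h2 : (θ : ℝ) ≤ (amp (rowD x a.1) a.2 : ℝ) := by exact_mod_cast h1
  unfold Amp
  rw [le_div_iff₀ (pow_pos (sqrtN_pos n) _)]
  exact hθ.trans h2

instance (k n : ℕ) : Nonempty (Chk k n) := ⟨Chk.fin⟩

instance (k n w : ℕ) : Nonempty (Pos k n w) := ⟨.bit (fun _ => false) (fun _ => false)⟩

theorem qUp (k : ℕ) (_ : 1 ≤ k) : ∃ (K : ℝ) (c : ℕ), ∀ (n : ℕ) (θ : ℤ), 1 ≤ n →
    (1 / 32 : ℝ) ^ k / 2 * Real.sqrt (2 ^ n) ^ (k + 2) ≤ θ →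
    ∃ T : ℕ, QuantComputes (ff k n ((k + 1) * n + 2) θ) T ∧
      (T : ℝ) ≤ K * (n : ℝ) ^ c * Real.sqrt (2 ^ n) := by
  classical
  obtain ⟨K, c, hK⟩ := quantum_main (((1 / 32 : ℝ) ^ k / 2) ^ 2) (by positivity)
  refine qUp_core k K c fun n w θ T0 d L hn hθ hL hJ hA hC hd1 hd2 hT0 => ?_
  obtain ⟨viol, hvd, hve⟩ := exists_viol k n w θ
  obtain ⟨el, hed, hee⟩ := exists_elim k n w
  have hN : (0 : ℝ) < 2 ^ n := by positivity
  have hnorm : ∀ (x : Pos k n w → Bool) (a : Idx n × Idx n),
      ‖((Amp (rowD x a.1) a.2 / Real.sqrt (2 ^ n) : ℝ) : ℂ)‖ ^ 2 =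
        Amp (rowD x a.1) a.2 ^ 2 / 2 ^ n := by
    intro x a
    rw [Complex.norm_real, Real.norm_eq_abs, sq_abs, div_pow, sqrtN_sq]
  obtain ⟨T, μ, hμ, hμ2, hT⟩ := hK (Pos k n w) (Idx n) (Idx n × Idx n) (Chk k n)
    Prod.fst el viol d T0 L
    (fun x a => ((Amp (rowD x a.1) a.2 / Real.sqrt (2 ^ n) : ℝ) : ℂ)) (ff k n w θ)
    hL (by rw [card_Idx]; exact hJ) (by rw [Fintype.card_prod, card_Idx]; exact hA) hC
    (fun a j => (hed a j).trans hd1) (fun a c => (hvd a c).trans hd2)
    (by rw [hT0]; exact Forr.forr_prep k n w)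
    (by
      intro x j
      simp only [hnorm]
      rw [Fintype.sum_prod_type]
      simp only
      rw [Finset.sum_eq_single j]
      · simp only [if_true]
        rw [← Finset.sum_div, Amp_sq, card_Idx]
        push_cast
        exact le_rfl
      · intro j' _ hj'
        simp [hj']
      · simp only [Finset.mem_univ, not_true_eq_false, ↓reduceIte, IsEmpty.forall_iff])
    (by
      intro x hx
      have hx' : ∃ a, Valid θ x a := by simpa only [Prod.exists, ff, decide_eq_true_eq] using hx
      obtain ⟨a, ha⟩ := hx'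
      refine ⟨a, ?_, ?_, ?_, ?_⟩
      · rw [hnorm, card_Idx]
        push_cast
        have := Amp_ge_of_valid hθ ha
        (clear * - this; gcongr)
      · intro c
        have h1 := hve a c x
        have h2 : okC θ x a c := ha c
        rw [← Bool.not_eq_true]
        rw [h1]
        exact fun h => h h2
      · intro j hj
        rw [hee a j x]
        exact ⟨hj, ha (.claim j) hj⟩
      · intro a'
        rw [← Bool.not_eq_true, hee a' a.1 x]
        rintro ⟨_, h⟩
        have h2 : x (.bit a.1 (ptrv x a'.1 a'.2 a.1)) = true := ha (.own _)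
        rw [h2] at h
        exact absurd h (by simp))
    (by
      intro x hx a
      have hx' : ¬ ∃ a, Valid θ x a := by
        intro h
        have : ff k n w θ x = true := by simpa only [ff, Prod.exists, decide_eq_true_eq] using h
        rw [hx] at this
        exact absurd this (by simp)
      by_contra hcon
      push Not at hcon
      refine hx' ⟨a, fun c => ?_⟩
      by_contra hc
      exact hcon c ((hve a c x).2 hc))
  refine ⟨T, quantComputes_of_ach _ T μ hμ hμ2, hT.trans (le_of_eq ?_)⟩
  rw [card_Idx]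
  push_cast
  rfl

end Vale.Agent.P362
end
end

section

section

/-! Asymptotics: choice of parameters and the final assembly. -/

namespace Vale.Agent.P362.Asy

open Filter Topology

/-- monotonicity of `PolyBound` -/
theorem polyBound_mono {α β : ℝ} (h : α ≤ β) (hα : PolyBound α) :
    ∃ C : ℝ, 0 ≤ C ∧ ∀ n : ℕ, 1 ≤ n → ∀ f : (Fin n → Bool) → Bool,
      (R f : ℝ) ≤ C * (1 + (Q f : ℝ)) ^ β := by
  obtain ⟨C, hC⟩ := hα
  refine ⟨max C 0, le_max_right _ _, fun n hn f => ?_⟩
  have h1 : (1 : ℝ) ≤ 1 + (Q f : ℝ) := by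
    have : (0 : ℝ) ≤ Q f := Nat.cast_nonneg _
    linarith only []
  calc (R f : ℝ) ≤ C * (1 + (Q f : ℝ)) ^ α := hC n hn f
    _ ≤ max C 0 * (1 + (Q f : ℝ)) ^ α := by
        exact mul_le_mul_of_nonneg_right (le_max_left _ _) (by positivity)
    _ ≤ max C 0 * (1 + (Q f : ℝ)) ^ β := by
        exact mul_le_mul_of_nonneg_left (Real.rpow_le_rpow_of_exponent_le h1 h)
          (le_max_right _ _)

/-- bound for all functions on finite index types -/
theorem bound_fintype {C β : ℝ} (h : ∀ n : ℕ, 1 ≤ n → ∀ f : (Fin n → Bool) → Bool,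
      (R f : ℝ) ≤ C * (1 + (Q f : ℝ)) ^ β) {ι : Type} [Fintype ι] [DecidableEq ι] [Nonempty ι]
    (f : (ι → Bool) → Bool) : (R f : ℝ) ≤ C * (1 + (Q f : ℝ)) ^ β := by
  have e : ι ≃ Fin (Fintype.card ι) := Fintype.equivFin ι
  have h1 := h (Fintype.card ι) Fintype.card_pos (fun y => f (fun i => y (e i)))
  rwa [Tr.R_equiv, Tr.Q_equiv] at h1

instance (k n w : ℕ) : Nonempty (Pos k n w) := ⟨.bit (fun _ => false) (fun _ => false)⟩

/-! ### numerical identities -/

/-- `n = 4 (k₀+2) m` -/
def nn (k0 m : ℕ) : ℕ := 4 * (k0 + 2) * m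

/-- `D = 2^{4 k₀ m}` -/
def DD (k0 m : ℕ) : ℕ := 2 ^ (4 * k0 * m)

theorem sqrt_nn (k0 m : ℕ) : Real.sqrt (2 ^ nn k0 m) = 2 ^ (2 * (k0 + 2) * m) := by
  have : (2 : ℝ) ^ nn k0 m = (2 ^ (2 * (k0 + 2) * m)) ^ 2 := by
    rw [← pow_mul]
    congr 1
    unfold nn
    ring
  rw [this, Real.sqrt_sq (by positivity)]

theorem l1_param (k0 : ℕ) : ∃ C1 : ℝ, 0 ≤ C1 ∧ ∀ (m : ℕ)
    (t : DT (Fin (k0 + 1 + 1) × Idx (nn k0 m))), t.depth ≤ DD k0 m →
    ∀ P : Fin (k0 + 1 + 1) × Idx (nn k0 m) → ℝ, (∀ p, |P p| ≤ 1 / 2) →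
      ∑ τ : Fin (k0 + 1 + 1) → Idx (nn k0 m),
        |dext τ (fun x => if t.eval x then (1 : ℝ) else 0) P| ≤
          C1 * 2 ^ ((k0 + 2) * (2 * k0 + 1) * m) := by
  obtain ⟨C, hC0, hC⟩ := l1_bound (k0 + 1 + 1) (2 * (k0 + 2)) (by omega)
  refine ⟨C + 1, by linarith, fun m t ht P hP => ?_⟩
  have h1 := hC (nn k0 m) t (DD k0 m) ht P hP
  set S := ∑ τ : Fin (k0 + 1 + 1) → Idx (nn k0 m),
        |dext τ (fun x => if t.eval x then (1 : ℝ) else 0) P| with hS
  have hS0 : 0 ≤ S := Finset.sum_nonneg fun _ _ => abs_nonneg _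
  have hpow : (2 * (2 * (k0 + 2))) ≠ 0 := by omega
  refine le_of_pow_le_pow_left₀ hpow (by (clear * - hC0; positivity)) (h1.trans ?_)
  have e1 : ((DD k0 m : ℕ) : ℝ) ^ ((k0 + 1 + 1) * (2 * (k0 + 2))) *
      ((2 : ℝ) ^ nn k0 m) ^ (k0 + 1 + 1) =
      (2 ^ ((k0 + 2) * (2 * k0 + 1) * m)) ^ (2 * (2 * (k0 + 2))) := by
    unfold DD nn
    push_cast
    rw [← pow_mul, ← pow_mul, ← pow_mul, ← pow_add]
    congr 1
    ring
  rw [mul_assoc, e1, mul_pow]
  refine mul_le_mul_of_nonneg_right ?_ (by positivity)
  calc C ≤ C + 1 := by linarith only []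
    _ = (C + 1) ^ 1 := (pow_one _).symm
    _ ≤ (C + 1) ^ (2 * (2 * (k0 + 2))) := pow_le_pow_right₀ (by linarith only [hC0]) (by omega)

/-- the threshold -/
noncomputable def th (k0 m : ℕ) : ℤ :=
  ⌈(1 / 32 : ℝ) ^ (k0 + 1) / 2 * Real.sqrt (2 ^ nn k0 m) ^ (k0 + 1 + 2)⌉

/-- the hard function -/
noncomputable def gg (k0 m : ℕ) :
    (Pos (k0 + 1) (nn k0 m) ((k0 + 1 + 1) * nn k0 m + 2) → Bool) → Bool :=
  ff (k0 + 1) (nn k0 m) ((k0 + 1 + 1) * nn k0 m + 2) (th k0 m)

theorem R_lower (k0 : ℕ) : ∃ m0 : ℕ, ∀ m : ℕ, m0 ≤ m →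
    (2 : ℝ) ^ (8 * (k0 + 1) * m) / 6 ≤ R (gg k0 m) := by
  obtain ⟨C1, hC1, hL⟩ := l1_param k0
  -- the error
  have hη : ∀ m : ℕ, 2 * 32 ^ (k0 + 1) * ((DD k0 m : ℝ) / 2 ^ nn k0 m +
      C1 * 2 ^ ((k0 + 2) * (2 * k0 + 1) * m) /
        (16 * Real.sqrt (2 ^ nn k0 m)) ^ (k0 + 1)) + (DD k0 m : ℝ) / 2 ^ nn k0 m ≤
      (2 * 32 ^ (k0 + 1) * (1 + C1) + 1) * (1 / 2) ^ m := by
    intro m
    have h1 : (DD k0 m : ℝ) / 2 ^ nn k0 m ≤ (1 / 2) ^ m := by
      unfold DD nn
      push_cast
      rw [one_div, inv_pow, div_le_iff₀ (by positivity), inv_mul_eq_div, le_div_iff₀ (by positivity),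
        ← pow_add]
      exact pow_le_pow_right₀ (by norm_num) (by linarith)
    have h2 : C1 * 2 ^ ((k0 + 2) * (2 * k0 + 1) * m) /
        (16 * Real.sqrt (2 ^ nn k0 m)) ^ (k0 + 1) ≤ C1 * (1 / 2) ^ m := by
      rw [sqrt_nn, mul_div_assoc]
      refine mul_le_mul_of_nonneg_left ?_ hC1
      rw [mul_pow, one_div, inv_pow, div_le_iff₀ (by positivity), inv_mul_eq_div,
        le_div_iff₀ (by positivity), ← pow_mul, ← pow_add]
      calc (2 : ℝ) ^ ((k0 + 2) * (2 * k0 + 1) * m + m) ≤
          2 ^ (2 * (k0 + 2) * m * (k0 + 1)) :=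
            pow_le_pow_right₀ (by norm_num) (by nlinarith only [])
        _ ≤ 16 ^ (k0 + 1) * 2 ^ (2 * (k0 + 2) * m * (k0 + 1)) := by
            refine le_mul_of_one_le_left (by positivity) (one_le_pow₀ (by norm_num))
    have h3 : (0 : ℝ) ≤ 2 * 32 ^ (k0 + 1) := by positivity
    nlinarith only [h1, h2, h3]
  have hlim : Tendsto (fun m : ℕ => (2 * 32 ^ (k0 + 1) * (1 + C1) + 1) * (1 / 2 : ℝ) ^ m)
      atTop (𝓝 0) := by
    have := (tendsto_pow_atTop_nhds_zero_of_lt_one (r := (1 / 2 : ℝ)) (by norm_num)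
      (by norm_num)).const_mul (2 * 32 ^ (k0 + 1) * (1 + C1) + 1)
    simpa only [one_div, inv_pow, mul_zero] using this
  obtain ⟨m0, hm0⟩ := eventually_atTop.mp (hlim.eventually_le_const (show (0 : ℝ) < 1 / 6 by
    norm_num))
  refine ⟨m0, fun m hm => ?_⟩
  obtain ⟨H⟩ := exists_hardW (k := k0 + 1) (n := nn k0 m) (D := DD k0 m) (by omega)
    (C1 * 2 ^ ((k0 + 2) * (2 * k0 + 1) * m)) (fun t ht P hP => hL m t ht P hP)
  have h := rlow (w := (k0 + 1 + 1) * nn k0 m + 2) (th k0 m) (DD k0 m) _ H le_rfl
    (Nat.one_le_two_pow) ((hη m).trans (hm0 m hm)) (R (gg k0 m)) (Tr.rand_R (gg k0 m))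
  refine le_trans (le_of_eq ?_) h
  congr 1
  unfold DD nn
  push_cast
  rw [← pow_add]
  congr 1
  ring

theorem Q_upper (k0 : ℕ) : ∃ (K : ℝ) (c : ℕ), 1 ≤ K ∧ ∀ m : ℕ, 1 ≤ m →
    1 + (Q (gg k0 m) : ℝ) ≤ K * (m : ℝ) ^ c * 2 ^ (2 * (k0 + 2) * m) := by
  obtain ⟨K, c, hK⟩ := qUp (k0 + 1) (by omega)
  refine ⟨1 + |K| * (4 * (k0 + 2)) ^ c, c, ?_, fun m hm => ?_⟩
  · have : (0 : ℝ) ≤ |K| * (4 * (k0 + 2)) ^ c := by positivity
    linarith
  · have hn : 1 ≤ nn k0 m := by
      unfold nn
      nlinarith
    obtain ⟨T, hT, hTle⟩ := hK (nn k0 m) (th k0 m) hn (Int.le_ceil _)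
    have h1 : (Q (gg k0 m) : ℝ) ≤ T := by exact_mod_cast Tr.Q_le hT
    rw [sqrt_nn] at hTle
    have h2 : (nn k0 m : ℝ) ^ c = (4 * (k0 + 2)) ^ c * (m : ℝ) ^ c := by
      unfold nn
      push_cast
      rw [mul_pow]
    have hm1 : (1 : ℝ) ≤ (m : ℝ) ^ c := one_le_pow₀ (by exact_mod_cast hm)
    have hp1 : (1 : ℝ) ≤ (m : ℝ) ^ c * 2 ^ (2 * (k0 + 2) * m) :=
      one_le_mul_of_one_le_of_one_le hm1 (one_le_pow₀ (by norm_num))
    calc 1 + (Q (gg k0 m) : ℝ) ≤ 1 + K * (nn k0 m : ℝ) ^ c * 2 ^ (2 * (k0 + 2) * m) := by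
          linarith only [hTle, h1]
      _ ≤ (m : ℝ) ^ c * 2 ^ (2 * (k0 + 2) * m) +
          |K| * (nn k0 m : ℝ) ^ c * 2 ^ (2 * (k0 + 2) * m) := by
          refine add_le_add hp1 ?_
          refine mul_le_mul_of_nonneg_right (mul_le_mul_of_nonneg_right (le_abs_self K)
            (by positivity)) (by positivity)
      _ = (1 + |K| * (4 * (k0 + 2)) ^ c) * (m : ℝ) ^ c * 2 ^ (2 * (k0 + 2) * m) := by
          rw [h2]
          ring

theorem not_poly (β : ℝ) (hβ0 : 0 ≤ β) (hβ : β < 4) (C : ℝ) (hC0 : 0 ≤ C)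
    (hC : ∀ n : ℕ, 1 ≤ n → ∀ f : (Fin n → Bool) → Bool,
      (R f : ℝ) ≤ C * (1 + (Q f : ℝ)) ^ β) : False := by
  -- choose k0 with (k0+2) β < 4 (k0+1)
  obtain ⟨k0, hk0⟩ : ∃ k0 : ℕ, ((k0 : ℝ) + 2) * β < 4 * (k0 + 1) := by
    obtain ⟨k0, hk⟩ := exists_nat_gt (4 / (4 - β))
    refine ⟨k0, ?_⟩
    have h4 : 0 < 4 - β := by linarith only [hβ]
    rw [div_lt_iff₀ h4] at hk
    linarith
  obtain ⟨m0, hR⟩ := R_lower k0
  obtain ⟨K, c, hK1, hQ⟩ := Q_upper k0
  set r : ℝ := 2 ^ (8 * ((k0 : ℝ) + 1) - 2 * (k0 + 2) * β) with hr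
  have hr1 : 1 < r := Real.one_lt_rpow (by norm_num) (by linarith)
  -- main inequality
  have hmain : ∀ m : ℕ, m0 ≤ m → 1 ≤ m → r ^ m ≤ 6 * C * K ^ 4 * (m : ℝ) ^ (4 * c) := by
    intro m hm hm1
    have h1 := hR m hm
    have h2 := bound_fintype hC (gg k0 m)
    have h3 := hQ m hm1
    have hq0 : (0 : ℝ) ≤ 1 + (Q (gg k0 m) : ℝ) := by (clear * -; positivity)
    have hbase : (1 : ℝ) ≤ K * (m : ℝ) ^ c :=
      one_le_mul_of_one_le_of_one_le hK1 (one_le_pow₀ (by exact_mod_cast hm1))
    have h4 : (1 + (Q (gg k0 m) : ℝ)) ^ β ≤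
        (K * (m : ℝ) ^ c) ^ 4 * (2 : ℝ) ^ (2 * ((k0 : ℝ) + 2) * β * m) := by
      calc (1 + (Q (gg k0 m) : ℝ)) ^ β ≤ (K * (m : ℝ) ^ c * 2 ^ (2 * (k0 + 2) * m)) ^ β :=
            Real.rpow_le_rpow hq0 h3 hβ0
        _ = (K * (m : ℝ) ^ c) ^ β * ((2 : ℝ) ^ (2 * (k0 + 2) * m)) ^ β :=
            Real.mul_rpow (by positivity) (by positivity)
        _ ≤ (K * (m : ℝ) ^ c) ^ 4 * (2 : ℝ) ^ (2 * ((k0 : ℝ) + 2) * β * m) := by
            refine mul_le_mul ?_ (le_of_eq ?_) (by positivity) (by positivity)
            · have h9 : (K * (m : ℝ) ^ c) ^ β ≤ (K * (m : ℝ) ^ c) ^ (((4 : ℕ) : ℝ)) :=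
                Real.rpow_le_rpow_of_exponent_le hbase (by norm_num; linarith only [hβ])
              rwa [Real.rpow_natCast] at h9
            · rw [← Real.rpow_natCast, ← Real.rpow_mul (by norm_num)]
              congr 1
              push_cast
              ring
    have h5 : (2 : ℝ) ^ (8 * (k0 + 1) * m) = r ^ m * (2 : ℝ) ^ (2 * ((k0 : ℝ) + 2) * β * m) := by
      rw [hr, ← Real.rpow_natCast, ← Real.rpow_natCast, ← Real.rpow_mul (by norm_num),
        ← Real.rpow_add (by norm_num)]
      congr 1
      push_cast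
      ring
    have h6 : (0 : ℝ) < (2 : ℝ) ^ (2 * ((k0 : ℝ) + 2) * β * m) := by positivity
    have h7 : r ^ m * (2 : ℝ) ^ (2 * ((k0 : ℝ) + 2) * β * m) ≤
        (6 * C * K ^ 4 * (m : ℝ) ^ (4 * c)) * (2 : ℝ) ^ (2 * ((k0 : ℝ) + 2) * β * m) := by
      rw [← h5]
      have h8 : (2 : ℝ) ^ (8 * (k0 + 1) * m) ≤ 6 * (C * ((K * (m : ℝ) ^ c) ^ 4 *
          (2 : ℝ) ^ (2 * ((k0 : ℝ) + 2) * β * m))) := by
        have := h1.trans (h2.trans (mul_le_mul_of_nonneg_left h4 hC0))
        linarith only [this]
      refine h8.trans (le_of_eq ?_)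
      rw [mul_pow, ← pow_mul, mul_comm c 4]
      ring
    exact le_of_mul_le_mul_right h7 h6
  -- contradiction
  have hlim : Tendsto (fun m : ℕ => 6 * C * K ^ 4 * ((m : ℝ) ^ (4 * c) / r ^ m)) atTop (𝓝 0) := by
    have := (tendsto_pow_const_div_const_pow_of_one_lt (4 * c) hr1).const_mul (6 * C * K ^ 4)
    simpa only [mul_zero] using this
  obtain ⟨m1, hm1⟩ := eventually_atTop.mp (hlim.eventually_lt_const (show (0 : ℝ) < 1 by norm_num))
  have h := hm1 (max m0 (max m1 1)) (by omega)
  have h2 := hmain (max m0 (max m1 1)) (by omega) (by omega)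
  have hrp : 0 < r ^ (max m0 (max m1 1)) := by positivity
  rw [← mul_div_assoc, div_lt_one hrp] at h
  linarith only [h, h2]

end Vale.Agent.P362.Asy

namespace Vale.Agent.P362

theorem not_polyBound (α : ℝ) (hα : α < 4) : ¬ PolyBound α := by
  intro h
  obtain ⟨C, hC0, hC⟩ := Asy.polyBound_mono (le_max_left α 0) h
  exact Asy.not_poly (max α 0) (le_max_right _ _) (max_lt hα (by norm_num)) C hC0 hC

theorem alphaTot_eq (h4 : PolyBound 4) : alphaTot = 4 := by
  have hleast : IsLeast {α : ℝ | 0 ≤ α ∧ PolyBound α} 4 := by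
    refine ⟨⟨by norm_num, h4⟩, fun α hα => ?_⟩
    by_contra hlt
    exact not_polyBound α (not_le.mp hlt) hα.2
  exact hleast.csInf_eq

end Vale.Agent.P362
end
end

section

section

/-! The official definitions of `Stmt.lean` agree with the working ones of `Defs.lean`. -/

namespace Vale.Agent.P362.Stmt

/-- conversion of trees -/
def toDT {ι : Type} : Tree ι → DT ι
  | .leaf b => .leaf b
  | .node i t0 t1 => .node i (toDT t0) (toDT t1)

/-- conversion of trees -/
def ofDT {ι : Type} : DT ι → Tree ι
  | .leaf b => .leaf b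
  | .node i t0 t1 => .node i (ofDT t0) (ofDT t1)

theorem eval_toDT {ι : Type} (t : Tree ι) (x : ι → Bool) : (toDT t).eval x = t.eval x := by
  induction t with
  | leaf b => rfl
  | node i t0 t1 h0 h1 =>
    change (if x i then (toDT t1).eval x else (toDT t0).eval x) =
      if x i then t1.eval x else t0.eval x
    rw [h0, h1]

theorem depth_toDT {ι : Type} (t : Tree ι) : (toDT t).depth = t.depth := by
  induction t with
  | leaf b => rfl
  | node i t0 t1 h0 h1 =>
    change max (toDT t0).depth (toDT t1).depth + 1 = max t0.depth t1.depth + 1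
    rw [h0, h1]

theorem eval_ofDT {ι : Type} (t : DT ι) (x : ι → Bool) : (ofDT t).eval x = t.eval x := by
  induction t with
  | leaf b => rfl
  | node i t0 t1 h0 h1 =>
    change (if x i then (ofDT t1).eval x else (ofDT t0).eval x) =
      if x i then t1.eval x else t0.eval x
    rw [h0, h1]

theorem depth_ofDT {ι : Type} (t : DT ι) : (ofDT t).depth = t.depth := by
  induction t with
  | leaf b => rfl
  | node i t0 t1 h0 h1 =>
    change max (ofDT t0).depth (ofDT t1).depth + 1 = max t0.depth t1.depth + 1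
    rw [h0, h1]

theorem randComputes_iff {n : ℕ} (f : (Fin n → Bool) → Bool) (T : ℕ) :
    RandComputes f T ↔ P362.RandComputes f T := by
  constructor
  · rintro ⟨p, hp, hx⟩
    refine ⟨p.map toDT, ?_, ?_⟩
    · intro t ht
      rw [PMF.support_map] at ht
      obtain ⟨t', ht', rfl⟩ := ht
      rw [depth_toDT]
      exact hp t' ht'
    · intro x
      rw [PMF.toOuterMeasure_map_apply]
      have hset : toDT ⁻¹' {t : DT (Fin n) | t.eval x = f x} =
          {t : Tree (Fin n) | t.eval x = f x} := by
        ext t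
        change (toDT t).eval x = f x ↔ t.eval x = f x
        rw [eval_toDT]
      rw [hset]
      exact hx x
  · rintro ⟨p, hp, hx⟩
    refine ⟨p.map ofDT, ?_, ?_⟩
    · intro t ht
      rw [PMF.support_map] at ht
      obtain ⟨t', ht', rfl⟩ := ht
      rw [depth_ofDT]
      exact hp t' ht'
    · intro x
      rw [PMF.toOuterMeasure_map_apply]
      have hset : ofDT ⁻¹' {t : Tree (Fin n) | t.eval x = f x} =
          {t : DT (Fin n) | t.eval x = f x} := by
        ext t
        change (ofDT t).eval x = f x ↔ t.eval x = f x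
        rw [eval_ofDT]
      rw [hset]
      exact hx x

theorem R_eq {n : ℕ} (f : (Fin n → Bool) → Bool) : R f = P362.R f := by
  have : {T | RandComputes f T} = {T | P362.RandComputes f T} := by
    ext T
    exact randComputes_iff f T
  unfold R P362.R
  rw [this]

theorem state_eq {n : ℕ} (A : QAlg (Fin n)) (x : Fin n → Bool) (t : ℕ) :
    run (oracle A.m x) (fun t => (A.U t).1) A.start t = A.state x t := by
  induction t with
  | zero => rfl
  | succ t ih =>
    change (A.U (t + 1)).1.mulVec ((oracle A.m x).mulVec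
      (run (oracle A.m x) (fun t => (A.U t).1) A.start t)) =
      (A.U (t + 1)).1.mulVec ((P362.oracle A.m x).mulVec (A.state x t))
    rw [ih]
    rfl

theorem quantComputes_iff {n : ℕ} (f : (Fin n → Bool) → Bool) (T : ℕ) :
    QuantComputes f T ↔ P362.QuantComputes f T := by
  constructor
  · rintro ⟨m, U, s, out, hU, hx⟩
    refine ⟨⟨m, fun t => ⟨U t, hU t⟩, s, out⟩, ?_⟩
    intro x
    have h := hx x
    have h2 : run (oracle m x) U s T =
        (⟨m, fun t => ⟨U t, hU t⟩, s, out⟩ : QAlg (Fin n)).state x T :=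
      state_eq (⟨m, fun t => ⟨U t, hU t⟩, s, out⟩ : QAlg (Fin n)) x T
    rw [h2] at h
    exact h
  · rintro ⟨A, hA⟩
    refine ⟨A.m, fun t => (A.U t).1, A.start, A.out, fun t => (A.U t).2, ?_⟩
    intro x
    have h := hA x
    rw [state_eq]
    exact h

theorem Q_eq {n : ℕ} (f : (Fin n → Bool) → Bool) : Q f = P362.Q f := by
  have : {T | QuantComputes f T} = {T | P362.QuantComputes f T} := by
    ext T
    exact quantComputes_iff f T
  unfold Q P362.Q
  rw [this]

theorem polyBound_iff (α : ℝ) : PolyBound α ↔ P362.PolyBound α := by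
  constructor
  · rintro ⟨C, hC⟩
    refine ⟨C, fun n hn f => ?_⟩
    rw [← R_eq, ← Q_eq]
    exact hC n hn f
  · rintro ⟨C, hC⟩
    refine ⟨C, fun n hn f => ?_⟩
    rw [R_eq, Q_eq]
    exact hC n hn f

/-- The official exponent is the working one. -/
theorem alphaTot_eq : alphaTot = P362.alphaTot := by
  unfold alphaTot P362.alphaTot
  congr 1
  ext α
  change (0 ≤ α ∧ PolyBound α) ↔ (0 ≤ α ∧ P362.PolyBound α)
  rw [polyBound_iff]

end Vale.Agent.P362.Stmt
end
end
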